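import Vale.Agent.P247.H832.NZ
import Vale.Agent.P247.H74.Sta

/-!
# The kernel lemma (P247, package N)
-/

open Filter Topology Set Metric
open scoped ContDiff

namespace Vale.Agent.P247.H832

noncomputable section

open Vale.Agent.P272.CT (dbarV)
open Vale.Agent.P247.H74

variable {E : Type*} [NormedAddCommGroup E] [NormedSpace ℝ E]

theorem per_fderiv {g : P2 → E} (hg : Per g) (m n : ℤ) (p : P2) :
    fderiv ℝ g (p.1 + m, p.2 + n) = fderiv ℝ g p := by
  have h1 : (fun q : P2 => g (q + ((m : ℝ), (n : ℝ)))) = g := by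
    funext q
    exact hg m n q
  have h2 := fderiv_comp_add_right (𝕜 := ℝ) (f := g) (x := p) ((m : ℝ), (n : ℝ))
  rw [h1] at h2
  rw [h2]
  rfl

theorem Per.ds {g : P2 → E} (hg : Per g) : Per (ds g) := by
  intro m n p
  unfold H74.ds
  rw [per_fderiv hg]

theorem Per.dt {g : P2 → E} (hg : Per g) : Per (dt g) := by
  intro m n p
  unfold H74.dt
  rw [per_fderiv hg]

theorem continuous_ds {g : P2 → E} {k : WithTop ℕ∞} (hg : ContDiff ℝ k g) (hk : 1 ≤ k) :
    Continuous (ds g) := by
  have := hg.continuous_fderiv (by rintro rfl; simp at hk)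
  unfold ds
  fun_prop

theorem continuous_dt {g : P2 → E} {k : WithTop ℕ∞} (hg : ContDiff ℝ k g) (hk : 1 ≤ k) :
    Continuous (dt g) := by
  have := hg.continuous_fderiv (by rintro rfl; simp at hk)
  unfold dt
  fun_prop

/-- continuous periodic functions are bounded -/
theorem per_bounded {F : Type*} [NormedAddCommGroup F] {g : P2 → F} (hg : Continuous g)
    (hp : Per g) : ∃ C, 0 ≤ C ∧ ∀ p, ‖g p‖ ≤ C := by
  obtain ⟨C, hC⟩ := (isCompact_Icc (a := (0 : P2)) (b := 1)).exists_bound_of_continuousOn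
    hg.continuousOn
  have key : ∀ p, ‖g p‖ ≤ C := by
    intro p
    have h1 : g (Int.fract p.1, Int.fract p.2) = g p := by
      have := hp (-⌊p.1⌋) (-⌊p.2⌋) p
      rw [← this]
      congr 2 <;> rw [Int.fract] <;> push_cast <;> ring
    rw [← h1]
    refine hC _ ⟨?_, ?_⟩
    · exact ⟨Int.fract_nonneg _, Int.fract_nonneg _⟩
    · exact ⟨(Int.fract_lt_one _).le, (Int.fract_lt_one _).le⟩
  exact ⟨C, (norm_nonneg _).trans (key 0), key⟩

/-- the linear map `coord τ` -/
def coordL (τ : ℂ) : ℂ →L[ℝ] P2 :=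
  (Complex.reCLM - (τ.re / τ.im) • Complex.imCLM).prod ((1 / τ.im) • Complex.imCLM)

theorem coordL_apply (τ z : ℂ) : coordL τ z = coord τ z := by
  simp only [coordL, coord, ContinuousLinearMap.prod_apply]
  ext
  · simp
    ring
  · simp
    ring

theorem coord_add (τ z w : ℂ) : coord τ (z + w) = coord τ z + coord τ w := by
  rw [← coordL_apply, ← coordL_apply, ← coordL_apply, map_add]

theorem coord_one (τ : ℂ) : coord τ 1 = (1, 0) := by simp [coord]

theorem coord_I (τ : ℂ) : coord τ Complex.I = (-(τ.re / τ.im), 1 / τ.im) := by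
  simp [coord]
  ring

theorem coord_tau {τ : ℂ} (hτ : 0 < τ.im) : coord τ τ = (0, 1) := by
  unfold coord
  rw [div_self hτ.ne', mul_one, sub_self]

/-- `∂̄` in the coordinate `z = s + τ t` -/
theorem dbarV_comp_coord {τ : ℂ} (hτ : 0 < τ.im) {g : P2 → ℂ} (hg : ContDiff ℝ 1 g) (z : ℂ) :
    dbarV (fun z => g (coord τ z)) z =
      Complex.I / (2 * τ.im) * (dt g (coord τ z) - τ * ds g (coord τ z)) := by
  have hd : DifferentiableAt ℝ g (coord τ z) := hg.differentiable (by simp) _
  have h1 : HasFDerivAt (fun z => g (coord τ z)) ((fderiv ℝ g (coord τ z)).comp (coordL τ)) z := by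
    have h2 : HasFDerivAt (fun z => coord τ z) (coordL τ) z := by
      have : (fun z => coord τ z) = fun z => coordL τ z := by
        funext z; rw [coordL_apply]
      rw [this]
      exact (coordL τ).hasFDerivAt
    exact hd.hasFDerivAt.comp z h2
  unfold dbarV
  rw [h1.fderiv]
  simp only [ContinuousLinearMap.comp_apply, coordL_apply, coord_one, coord_I]
  have e1 : ((-(τ.re / τ.im), 1 / τ.im) : P2) = (-(τ.re / τ.im)) • ((1, 0) : P2) +
      (1 / τ.im) • ((0, 1) : P2) := by
    ext <;> simp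
  rw [e1, map_add, map_smul, map_smul]
  unfold dt ds
  set A := fderiv ℝ g (coord τ z) (1, 0)
  set B := fderiv ℝ g (coord τ z) (0, 1)
  have hb : (τ.im : ℂ) ≠ 0 := by exact_mod_cast hτ.ne'
  have hτe : τ = τ.re + τ.im * Complex.I := (Complex.re_add_im τ).symm
  have hτA : τ * A = (τ.re + τ.im * Complex.I) * A := by rw [← hτe]
  rw [Complex.real_smul, Complex.real_smul, smul_eq_mul, smul_eq_mul, hτA]
  push_cast
  field_simp
  linear_combination ((τ.im : ℂ) * A) * Complex.I_sq

theorem N : N_statement := by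
  intro c τ h hτ hc hcp hc2 hh hhp heq
  -- algebra of `c`
  have hs : ∀ (p : P2) (j l : Fin 2), c p j 0 * c p 0 l + c p j 1 * c p 1 l =
      if j = l then -1 else 0 := by
    intro p j l
    have := hc2 p j l
    rwa [Fin.sum_univ_two] at this
  have h00 : ∀ p, c p 0 0 * c p 0 0 + c p 0 1 * c p 1 0 = -1 := fun p => by
    simpa using hs p 0 0
  have h10 : ∀ p, c p 1 0 ≠ 0 := by
    intro p h0
    have := h00 p
    rw [h0, mul_zero, add_zero] at this
    nlinarith [mul_self_nonneg (c p 0 0)]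
  have htr : ∀ p, c p 1 1 = - c p 0 0 := by
    intro p
    have := hs p 1 0
    rw [if_neg (by decide)] at this
    have h1 : c p 1 0 * (c p 0 0 + c p 1 1) = 0 := by linarith
    have := (mul_eq_zero.1 h1).resolve_left (h10 p)
    linarith
  -- regularity
  have hcj : ∀ j k, ContDiff ℝ ∞ fun p => c p j k := by
    intro j k
    have h1 := contDiff_pi.1 hc j
    exact contDiff_pi.1 h1 k
  have hcC : ∀ j k, ContDiff ℝ ∞ fun p => ((c p j k : ℝ) : ℂ) := fun j k =>
    Complex.ofRealCLM.contDiff.comp (hcj j k)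
  have hhC : ∀ j, ContDiff ℝ 2 fun p => ((h j p : ℝ) : ℂ) := fun j =>
    Complex.ofRealCLM.contDiff.comp (hh j)
  set χ : P2 → ℂ := fun p => (Complex.I - c p 0 0) / c p 1 0 with hχ
  have h10C : ∀ p, ((c p 1 0 : ℝ) : ℂ) ≠ 0 := fun p => by exact_mod_cast h10 p
  have hχs : ContDiff ℝ ∞ χ := by
    have h1 : ContDiff ℝ ∞ fun p => (Complex.I - (c p 0 0 : ℂ)) * ((c p 1 0 : ℂ))⁻¹ :=
      (contDiff_const.sub (hcC 0 0)).mul ((hcC 1 0).inv h10C)
    simpa only [hχ, div_eq_mul_inv] using h1
  have hcper : ∀ j k, Per fun p => c p j k := fun j k m n p => by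
    simp only [hcp m n p]
  have hχp : Per χ := by
    intro m n p
    simp only [hχ, hcp m n p]
  -- the function `g`
  set g : P2 → ℂ := fun p => (h 0 p : ℂ) + χ p * (h 1 p : ℂ) with hg
  have hgs : ContDiff ℝ 2 g := (hhC 0).add ((hχs.of_le (by norm_cast)).mul (hhC 1))
  have hgp : Per g := by
    intro m n p
    have h1 := hhp 0 m n p
    have h2 := hhp 1 m n p
    have h3 := hχp m n p
    simp only [hg, h1, h2, h3]
  -- coefficients
  set cs : Fin 2 → Fin 2 → P2 → ℝ := fun j k => ds (fun q => c q j k) with hcs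
  set A0 : P2 → ℂ := fun p => τ.im * (cs 0 0 p + χ p * cs 1 0 p) with hA0
  set A1 : P2 → ℂ := fun p => τ.im * (cs 0 1 p + χ p * cs 1 1 p) + dt χ p - τ * ds χ p with hA1
  have hcsc : ∀ j k, Continuous (cs j k) := fun j k => continuous_ds (hcj j k) (by simp)
  have hcsp : ∀ j k, Per (cs j k) := fun j k => Per.ds (hcper j k)
  have hA0c : Continuous A0 := by
    have := hcsc 0 0
    have := hcsc 1 0
    have := hχs.continuous
    simp only [hA0]
    fun_prop
  have hA1c : Continuous A1 := by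
    have := hcsc 0 1
    have := hcsc 1 1
    have := hχs.continuous
    have := continuous_ds hχs (by simp)
    have := continuous_dt hχs (by simp)
    simp only [hA1]
    fun_prop
  have hA0p : Per A0 := by
    intro m n p
    simp only [hA0, hcsp 0 0 m n p, hcsp 1 0 m n p, hχp m n p]
  have hA1p : Per A1 := by
    intro m n p
    simp only [hA1, hcsp 0 1 m n p, hcsp 1 1 m n p, hχp m n p, Per.dt hχp m n p,
      Per.ds hχp m n p]
  obtain ⟨K0, hK0, hA0b⟩ := per_bounded hA0c hA0p
  obtain ⟨K1, hK1, hA1b⟩ := per_bounded hA1c hA1p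
  obtain ⟨Kc, hKc, hcb⟩ := per_bounded (hcj 1 0).continuous (hcper 1 0)
  obtain ⟨Kχ, hKχ, hχb⟩ := per_bounded hχs.continuous hχp
  -- the equation
  have hdh : ∀ j p, DifferentiableAt ℝ (h j) p := fun j p => (hh j).differentiable (by simp) p
  have hdc : ∀ j k p, DifferentiableAt ℝ (fun q => c q j k) p := fun j k p =>
    (hcj j k).differentiable (by simp) p
  have heq' : ∀ j p, dt (h j) p = τ.re * ds (h j) p + τ.im * ∑ k, (cs j k p * h k p +
      c p j k * ds (h k) p) := by
    intro j p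
    rw [heq j p]
    unfold ds
    have e1 : HasFDerivAt (fun q => τ.re * h j q + τ.im * ∑ k, c q j k * h k q)
        (τ.re • fderiv ℝ (h j) p + τ.im • ∑ k, (c p j k • fderiv ℝ (h k) p +
          h k p • fderiv ℝ (fun q => c q j k) p)) p := by
      refine ((hdh j p).hasFDerivAt.const_mul _).add (HasFDerivAt.const_mul ?_ _)
      exact HasFDerivAt.fun_sum fun k _ => (hdc j k p).hasFDerivAt.mul (hdh k p).hasFDerivAt
    rw [e1.fderiv]
    simp only [add_apply, smul_apply,
      smul_eq_mul, hcs, ds, Fin.sum_univ_two]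
    ring
  -- derivatives of `g`
  have hdC : ∀ (u : P2 → ℝ) (p v : P2), DifferentiableAt ℝ u p →
      fderiv ℝ (fun q => ((u q : ℝ) : ℂ)) p v = ((fderiv ℝ u p v : ℝ) : ℂ) := by
    intro u p v hu
    have := (Complex.ofRealCLM.hasFDerivAt (x := u p)).comp p hu.hasFDerivAt
    have e2 : fderiv ℝ (fun q => ((u q : ℝ) : ℂ)) p = Complex.ofRealCLM.comp (fderiv ℝ u p) :=
      this.fderiv
    rw [e2]
    rfl
  have hgd : ∀ p v, fderiv ℝ g p v = (fderiv ℝ (h 0) p v : ℝ) +
      (χ p * (fderiv ℝ (h 1) p v : ℝ) + (h 1 p : ℂ) * fderiv ℝ χ p v) := by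
    intro p v
    have d0 : DifferentiableAt ℝ (fun q => ((h 0 q : ℝ) : ℂ)) p :=
      (hhC 0).differentiable (by simp) p
    have d1 : DifferentiableAt ℝ (fun q => ((h 1 q : ℝ) : ℂ)) p :=
      (hhC 1).differentiable (by simp) p
    have d2 : DifferentiableAt ℝ χ p := hχs.differentiable (by simp) p
    have := (d0.hasFDerivAt.add (d2.hasFDerivAt.mul d1.hasFDerivAt)).fderiv
    have e3 : fderiv ℝ g p = _ := this
    rw [e3]
    simp only [add_apply, smul_apply, smul_eq_mul]
    rw [hdC _ _ _ (hdh 0 p), hdC _ _ _ (hdh 1 p)]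
  have hkey : ∀ p, dt g p - τ * ds g p = A0 p * h 0 p + A1 p * h 1 p := by
    intro p
    have t0 := heq' 0 p
    have t1 := heq' 1 p
    rw [Fin.sum_univ_two] at t0 t1
    unfold dt ds
    rw [hgd, hgd]
    have t0' : fderiv ℝ (h 0) p (0, 1) = dt (h 0) p := rfl
    have t1' : fderiv ℝ (h 1) p (0, 1) = dt (h 1) p := rfl
    have s0' : fderiv ℝ (h 0) p (1, 0) = ds (h 0) p := rfl
    have s1' : fderiv ℝ (h 1) p (1, 0) = ds (h 1) p := rfl
    rw [t0', t1', s0', s1', t0, t1]
    simp only [hA0, hA1]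
    have hτe : τ = τ.re + τ.im * Complex.I := (Complex.re_add_im τ).symm
    have x1 : fderiv ℝ χ p (0, 1) = dt χ p := rfl
    have x2 : fderiv ℝ χ p (1, 0) = ds χ p := rfl
    rw [x1, x2]
    -- the relation `(1, χ) c = i (1, χ)`
    have r0 : (c p 0 0 : ℂ) + χ p * c p 1 0 = Complex.I := by
      simp only [hχ]
      rw [div_mul_cancel₀ _ (h10C p)]
      ring
    have r1 : (c p 0 1 : ℂ) + χ p * c p 1 1 = Complex.I * χ p := by
      rw [htr p]
      have h3 : (c p 0 0 : ℂ) * c p 0 0 + c p 0 1 * c p 1 0 = -1 := by exact_mod_cast h00 p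
      have h4 : (c p 1 0 : ℂ) * ((c p 0 1 : ℂ) + χ p * (-c p 0 0 : ℝ)) =
          c p 1 0 * (Complex.I * χ p) := by
        have h5 : χ p * c p 1 0 = Complex.I - c p 0 0 := by
          simp only [hχ]
          rw [div_mul_cancel₀ _ (h10C p)]
        push_cast
        linear_combination h3 - (c p 0 0 + Complex.I) * h5 - Complex.I_sq
      exact mul_left_cancel₀ (h10C p) h4
    push_cast
    generalize ((τ.re : ℝ) : ℂ) = a at *
    generalize ((τ.im : ℝ) : ℂ) = b at *
    rw [hτe]
    linear_combination b * ((ds (h 0) p : ℝ) : ℂ) * r0 + b * ((ds (h 1) p : ℝ) : ℂ) * r1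
  -- the bound
  clear_value A0 A1
  have hIm : ∀ p, (h 1 p) = c p 1 0 * (g p).im := by
    intro p
    have : (g p).im = (χ p).im * h 1 p := by
      simp [hg]
    rw [this]
    have hχim : (χ p).im = 1 / c p 1 0 := by
      simp [hχ, Complex.div_ofReal_im]
    rw [hχim]
    field_simp [h10 p]
  have hb1 : ∀ p, |h 1 p| ≤ Kc * ‖g p‖ := by
    intro p
    rw [hIm p, abs_mul]
    exact mul_le_mul (hcb p) (Complex.abs_im_le_norm _) (abs_nonneg _) hKc
  have hb0 : ∀ p, |h 0 p| ≤ (1 + Kχ * Kc) * ‖g p‖ := by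
    intro p
    have h3 : ((h 0 p : ℝ) : ℂ) = g p - χ p * h 1 p := by simp only [hg]; ring
    have h4 : |h 0 p| = ‖((h 0 p : ℝ) : ℂ)‖ := by rw [Complex.norm_real, Real.norm_eq_abs]
    rw [h4, h3]
    refine (norm_sub_le _ _).trans ?_
    rw [norm_mul, Complex.norm_real, Real.norm_eq_abs]
    have h5 : ‖χ p‖ * |h 1 p| ≤ Kχ * (Kc * ‖g p‖) :=
      mul_le_mul (hχb p) (hb1 p) (abs_nonneg _) hKχ
    linarith
  set G : ℂ → ℂ := fun z => g (coord τ z) with hG
  have hGc : ContDiff ℝ 1 G := by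
    have h1 : ContDiff ℝ 1 fun z => coord τ z := by
      have : (fun z => coord τ z) = fun z => coordL τ z := by
        funext z; rw [coordL_apply]
      rw [this]
      exact (coordL τ).contDiff
    exact (hgs.of_le (by norm_num)).comp h1
  have hG1 : ∀ z, G (z + 1) = G z := by
    intro z
    simp only [hG, coord_add, coord_one]
    have := hgp 1 0 (coord τ z)
    rw [← this]
    congr 1
    ext <;> simp
  have hG2 : ∀ z, G (z + τ) = G z := by
    intro z
    simp only [hG, coord_add, coord_tau hτ]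
    have := hgp 0 1 (coord τ z)
    rw [← this]
    congr 1
    ext <;> simp
  have hGd : ∀ z, ‖dbarV G z‖ ≤ (‖Complex.I / (2 * τ.im)‖ *
      (K0 * (1 + Kχ * Kc) + K1 * Kc)) * ‖G z‖ := by
    intro z
    rw [hG, dbarV_comp_coord hτ (hgs.of_le (by norm_num)), norm_mul, hkey,
      mul_assoc ‖Complex.I / (2 * τ.im)‖]
    refine mul_le_mul_of_nonneg_left ?_ (norm_nonneg _)
    have q0 : ‖A0 (coord τ z) * (h 0 (coord τ z) : ℂ)‖ ≤
        K0 * ((1 + Kχ * Kc) * ‖g (coord τ z)‖) := by
      rw [norm_mul, Complex.norm_real, Real.norm_eq_abs]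
      exact mul_le_mul (hA0b _) (hb0 _) (abs_nonneg _) hK0
    have q1 : ‖A1 (coord τ z) * (h 1 (coord τ z) : ℂ)‖ ≤ K1 * (Kc * ‖g (coord τ z)‖) := by
      rw [norm_mul, Complex.norm_real, Real.norm_eq_abs]
      exact mul_le_mul (hA1b _) (hb1 _) (abs_nonneg _) hK1
    refine (norm_add_le _ _).trans ((add_le_add q0 q1).trans (le_of_eq ?_))
    ring
  -- every point is a value of `coord`
  have hsurj : ∀ p : P2, ∃ z, coord τ z = p := by
    intro p
    refine ⟨p.1 + p.2 * τ, ?_⟩
    have := hτ.ne'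
    ext
    · simp [coord]
      field_simp
      ring
    · simp [coord]
      field_simp
  rcases nz hτ hGc hG1 hG2 hGd with hz | hz
  · left
    have hg0 : ∀ p, g p = 0 := by
      intro p
      obtain ⟨z, hzp⟩ := hsurj p
      rw [← hzp]
      exact hz z
    have h1 : ∀ p, h 1 p = 0 := fun p => by rw [hIm p, hg0 p]; simp
    have h0 : ∀ p, h 0 p = 0 := fun p => by
      have := hg0 p
      simp only [hg, h1 p] at this
      simpa using this
    intro j p
    fin_cases j
    · exact h0 p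
    · exact h1 p
  · right
    intro p
    by_contra hcon
    push Not at hcon
    obtain ⟨z, hzp⟩ := hsurj p
    refine hz z ?_
    simp only [hG, hzp, hg, hcon 0, hcon 1]
    simp

end

end Vale.Agent.P247.H832
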