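import Vale.Agent.P247.H832.N
import Vale.Agent.P247.H74.K2H.K2H

/-!
# Families of tori: elementary facts (P247)
-/

open Filter Topology Set Metric
open scoped ContDiff

namespace Vale.Agent.P247.H832

noncomputable section

open Vale.Agent.P247.H74

theorem lin_add (p q : P2) : lin (p + q) = lin p + lin q := by
  unfold lin
  ext i
  fin_cases i <;> simp

theorem lin_sub (p q : P2) : lin (p - q) = lin p - lin q := by
  unfold lin
  ext i
  fin_cases i <;> simp

theorem lin_int (m n : ℝ) : lin (m, n) = m • e 2 + n • e 3 := by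
  unfold lin e
  ext i
  fin_cases i <;> simp

theorem norm_le_norm_lin (p : P2) : ‖p‖ ≤ ‖lin p‖ := by
  refine max_le ?_ ?_
  · have := norm_le_pi_norm (lin p) 2
    simpa [lin] using this
  · have := norm_le_pi_norm (lin p) 3
    simpa [lin] using this

theorem phi_add_int {f : P2 → R4} (hf : Per f) (m n : ℤ) (p : P2) :
    phi f (p + ((m : ℝ), (n : ℝ))) = phi f p + ((m : ℝ) • e 2 + (n : ℝ) • e 3) := by
  unfold phi
  have : f (p + ((m : ℝ), (n : ℝ))) = f p := hf m n p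
  rw [this, lin_add, lin_int (m : ℝ) (n : ℝ)]
  abel

theorem coord_add_int {τ : ℂ} (hτ : 0 < τ.im) (m n : ℤ) (z : ℂ) :
    coord τ (z + m + n * τ) = coord τ z + ((m : ℝ), (n : ℝ)) := by
  have h1 := hτ.ne'
  ext
  · simp [coord]
    field_simp
    ring
  · simp [coord]
    field_simp

theorem lift_up {f : P2 → R4} (hf : Per f) {τ : ℂ} (hτ : 0 < τ.im) : Lift τ (up f τ) := by
  intro m n z
  unfold up
  rw [coord_add_int hτ, phi_add_int hf]
  abel

theorem contDiff_phi {f : P2 → R4} (hf : ContDiff ℝ ∞ f) : ContDiff ℝ ∞ (phi f) :=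
  K2H.contDiff_lin.add hf

/-! ### convergence -/

theorem tendLU_of_continuousOn {X E : Type*} [TopologicalSpace X] [UniformSpace E] {W : Set P2}
    {G : P2 × X → E} (hG : ContinuousOn G (W ×ˢ univ)) {y : P2} (hy : y ∈ W) {yn : ℕ → P2}
    (hyn : ∀ n, yn n ∈ W) (hlim : Tendsto yn atTop (𝓝 y)) :
    TendstoLocallyUniformly (fun n z => G (yn n, z)) (fun z => G (y, z)) atTop := by
  rw [tendstoLocallyUniformly_iff_forall_tendsto]
  intro z₀
  have h1 : Tendsto (fun q : ℕ × X => G (y, q.2)) (atTop ×ˢ 𝓝 z₀) (𝓝 (G (y, z₀))) := by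
    have h2 : ContinuousWithinAt G (W ×ˢ univ) (y, z₀) := hG _ ⟨hy, mem_univ _⟩
    refine h2.tendsto.comp ?_
    refine tendsto_nhdsWithin_iff.2 ⟨?_, Eventually.of_forall fun q => ⟨hy, mem_univ _⟩⟩
    exact tendsto_const_nhds.prodMk_nhds tendsto_snd
  have h3 : Tendsto (fun q : ℕ × X => G (yn q.1, q.2)) (atTop ×ˢ 𝓝 z₀) (𝓝 (G (y, z₀))) := by
    have h2 : ContinuousWithinAt G (W ×ˢ univ) (y, z₀) := hG _ ⟨hy, mem_univ _⟩
    refine h2.tendsto.comp ?_
    refine tendsto_nhdsWithin_iff.2 ⟨?_, Eventually.of_forall fun q => ⟨hyn q.1, mem_univ _⟩⟩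
    exact (hlim.comp tendsto_fst).prodMk_nhds tendsto_snd
  exact (h1.prodMk_nhds h3).mono_right (nhds_le_uniformity _)

theorem fderiv_slice {X E : Type*} [NormedAddCommGroup X] [NormedSpace ℝ X]
    [NormedAddCommGroup E] [NormedSpace ℝ E] {G : P2 × X → E} {y : P2} {z : X}
    (h : DifferentiableAt ℝ G (y, z)) :
    HasFDerivAt (fun z => G (y, z)) ((fderiv ℝ G (y, z)).comp (ContinuousLinearMap.inr ℝ P2 X))
      z :=
  h.hasFDerivAt.comp z (hasFDerivAt_prodMk_right y z)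

theorem tendC1_family {X E : Type*} [NormedAddCommGroup X] [NormedSpace ℝ X]
    [NormedAddCommGroup E] [NormedSpace ℝ E] {W : Set P2} (hW : IsOpen W)
    {G : P2 × X → E} (hG : ContDiffOn ℝ 1 G (W ×ˢ univ)) {y : P2} (hy : y ∈ W) {yn : ℕ → P2}
    (hyn : ∀ n, yn n ∈ W) (hlim : Tendsto yn atTop (𝓝 y)) :
    TendC1 (fun n z => G (yn n, z)) (fun z => G (y, z)) := by
  have hWo : IsOpen (W ×ˢ (univ : Set X)) := hW.prod isOpen_univ
  have hd : ∀ y' ∈ W, ∀ z, DifferentiableAt ℝ G (y', z) := fun y' hy' z =>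
    (hG.differentiableOn (by simp)).differentiableAt (hWo.mem_nhds ⟨hy', mem_univ _⟩)
  refine ⟨tendLU_of_continuousOn hG.continuousOn hy hyn hlim, ?_⟩
  have hc : ContinuousOn (fun q => (fderiv ℝ G q).comp (ContinuousLinearMap.inr ℝ P2 X))
      (W ×ˢ univ) :=
    ContinuousOn.clm_comp (hG.continuousOn_fderiv_of_isOpen hWo (by simp)) continuousOn_const
  have h1 := tendLU_of_continuousOn hc hy hyn hlim
  have e1 : (fun n => fderiv ℝ (fun z => G (yn n, z))) =
      fun n z => (fderiv ℝ G (yn n, z)).comp (ContinuousLinearMap.inr ℝ P2 X) := by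
    funext n z
    exact (fderiv_slice (hd _ (hyn n) z)).fderiv
  have e2 : fderiv ℝ (fun z => G (y, z)) =
      fun z => (fderiv ℝ G (y, z)).comp (ContinuousLinearMap.inr ℝ P2 X) := by
    funext z
    exact (fderiv_slice (hd _ hy z)).fderiv
  rw [e1, e2]
  exact h1

/-! ### families -/

variable {D : Data} {U : Set P2} {F : P2 → P2 → R4} {T : P2 → ℂ}

theorem fam_contDiffOn_tot (h : Fam D U F T) : ContDiffOn ℝ ∞ (tot F) (U ×ˢ univ) := by
  unfold tot phi
  refine ContDiffOn.add ?_ h.smooth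
  exact (K2H.contDiff_lin.comp contDiff_snd).contDiffOn

/-- the family in the complex coordinate -/
def upF (F : P2 → P2 → R4) (T : P2 → ℂ) (q : P2 × ℂ) : R4 := up (F q.1) (T q.1) q.2

theorem fam_contDiffOn_upF (h : Fam D U F T) : ContDiffOn ℝ ∞ (upF F T) (U ×ˢ univ) := by
  have hT : ContDiffOn ℝ ∞ (fun q : P2 × ℂ => T q.1) (U ×ˢ univ) :=
    h.smoothT.comp contDiff_fst.contDiffOn fun q hq => hq.1
  have hre : ContDiffOn ℝ ∞ (fun q : P2 × ℂ => (T q.1).re) (U ×ˢ univ) :=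
    Complex.reCLM.contDiff.comp_contDiffOn hT
  have him : ContDiffOn ℝ ∞ (fun q : P2 × ℂ => (T q.1).im) (U ×ˢ univ) :=
    Complex.imCLM.contDiff.comp_contDiffOn hT
  have hzre : ContDiffOn ℝ ∞ (fun q : P2 × ℂ => q.2.re) (U ×ˢ univ) :=
    (Complex.reCLM.contDiff.comp contDiff_snd).contDiffOn
  have hzim : ContDiffOn ℝ ∞ (fun q : P2 × ℂ => q.2.im) (U ×ˢ univ) :=
    (Complex.imCLM.contDiff.comp contDiff_snd).contDiffOn
  have hne : ∀ q ∈ U ×ˢ (univ : Set ℂ), (T q.1).im ≠ 0 := fun q hq => (h.jt q.1 hq.1).im_pos.ne'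
  have hdiv : ContDiffOn ℝ ∞ (fun q : P2 × ℂ => q.2.im / (T q.1).im) (U ×ˢ univ) :=
    hzim.div him hne
  have hco : ContDiffOn ℝ ∞ (fun q : P2 × ℂ => coord (T q.1) q.2) (U ×ˢ univ) := by
    unfold coord
    exact (hzre.sub (hre.mul hdiv)).prodMk hdiv
  have : upF F T = fun q => tot F (q.1, coord (T q.1) q.2) := rfl
  rw [this]
  refine (fam_contDiffOn_tot h).comp (contDiff_fst.contDiffOn.prodMk hco) fun q hq => ?_
  exact ⟨hq.1, mem_univ _⟩

theorem fam_tendC1 (h : Fam D U F T) (hU : IsOpen U) {y : P2} (hy : y ∈ U) {yn : ℕ → P2}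
    (hyn : ∀ n, yn n ∈ U) (hlim : Tendsto yn atTop (𝓝 y)) :
    TendC1 (fun n => up (F (yn n)) (T (yn n))) (up (F y) (T y)) :=
  tendC1_family hU ((fam_contDiffOn_upF h).of_le (by simp)) hy hyn hlim

theorem fam_per (h : Fam D U F T) {y : P2} (hy : y ∈ U) : Per (F y) := (h.jt y hy).per

/-- an injective derivative gives local injectivity of the total map -/
theorem fam_locInj (h : Fam D U F T) (hU : IsOpen U) {y : P2} (hy : y ∈ U) (p : P2)
    (hinj : Function.Injective (fderiv ℝ (tot F) (y, p))) :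
    ∃ δ > 0, ∀ q ∈ ball ((y, p) : P2 × P2) δ, ∀ q' ∈ ball ((y, p) : P2 × P2) δ,
      tot F q = tot F q' → q = q' := by
  have hWo : IsOpen (U ×ˢ (univ : Set P2)) := hU.prod isOpen_univ
  have hmem : U ×ˢ (univ : Set P2) ∈ 𝓝 (y, p) := hWo.mem_nhds ⟨hy, mem_univ _⟩
  have hcd : ContDiffAt ℝ ∞ (tot F) (y, p) := (fam_contDiffOn_tot h).contDiffAt hmem
  have hst : HasStrictFDerivAt (tot F) (fderiv ℝ (tot F) (y, p)) (y, p) :=
    hcd.hasStrictFDerivAt (by simp)
  have hfin : Module.finrank ℝ (P2 × P2) = Module.finrank ℝ R4 := by simp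
  have hsurj : Function.Surjective (fderiv ℝ (tot F) (y, p)) :=
    (LinearMap.injective_iff_surjective_of_finrank_eq_finrank hfin
      (f := (fderiv ℝ (tot F) (y, p)).toLinearMap)).1 hinj
  set A : (P2 × P2) ≃L[ℝ] R4 :=
    (LinearEquiv.ofBijective (fderiv ℝ (tot F) (y, p)).toLinearMap
      ⟨hinj, hsurj⟩).toContinuousLinearEquiv with hA
  have hst' : HasStrictFDerivAt (tot F) (A : (P2 × P2) →L[ℝ] R4) (y, p) := by
    have : (A : (P2 × P2) →L[ℝ] R4) = fderiv ℝ (tot F) (y, p) :=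
      ContinuousLinearMap.ext fun v => rfl
    rw [this]
    exact hst
  set Φ := hst'.toOpenPartialHomeomorph (tot F) with hΦ
  have hsrc : (y, p) ∈ Φ.source := hst'.mem_toOpenPartialHomeomorph_source
  obtain ⟨δ, hδ, hsub⟩ := Metric.isOpen_iff.1 Φ.open_source _ hsrc
  refine ⟨δ, hδ, fun q hq q' hq' heq => ?_⟩
  exact Φ.injOn (hsub hq) (hsub hq') heq

/-! ### limits of double points -/

theorem fam_bound (h : Fam D U F T) {K : Set P2} (hK : IsCompact K) (hKU : K ⊆ U) :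
    ∃ C, ∀ y ∈ K, ∀ p, ‖F y p‖ ≤ C := by
  have hc : ContinuousOn (fun q : P2 × P2 => F q.1 q.2) (K ×ˢ Icc 0 1) :=
    h.smooth.continuousOn.mono (prod_mono hKU (subset_univ _))
  obtain ⟨C, hC⟩ := (hK.prod isCompact_Icc).exists_bound_of_continuousOn hc
  refine ⟨C, fun y hy p => ?_⟩
  have h1 : F y (Int.fract p.1, Int.fract p.2) = F y p := by
    have := fam_per h (hKU hy) (-⌊p.1⌋) (-⌊p.2⌋) p
    rw [← this]
    congr 2 <;> rw [Int.fract] <;> push_cast <;> ring
  rw [← h1]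
  refine hC (y, _) ⟨hy, ?_, ?_⟩
  · exact ⟨Int.fract_nonneg _, Int.fract_nonneg _⟩
  · exact ⟨(Int.fract_lt_one _).le, (Int.fract_lt_one _).le⟩

theorem fam_exists_limit (h : Fam D U F T) {K : Set P2} (hK : IsCompact K) (hKU : K ⊆ U)
    {yn yn' : ℕ → P2} {y y' : P2} (hyn : ∀ n, yn n ∈ K) (hyn' : ∀ n, yn' n ∈ K)
    (hy : Tendsto yn atTop (𝓝 y)) (hy' : Tendsto yn' atTop (𝓝 y')) {pn pn' : ℕ → P2}
    (heq : ∀ n, tot F (yn n, pn n) = tot F (yn' n, pn' n)) :
    ∃ (p p' : P2) (k : ℕ → ℕ) (qn qn' : ℕ → P2), StrictMono k ∧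
      (∀ n, ∃ a b : ℤ, qn n = pn (k n) + ((a : ℝ), (b : ℝ)) ∧
        qn' n = pn' (k n) + ((a : ℝ), (b : ℝ))) ∧
      Tendsto qn atTop (𝓝 p) ∧ Tendsto qn' atTop (𝓝 p') ∧
      (∀ n, tot F (yn (k n), qn n) = tot F (yn' (k n), qn' n)) ∧
      tot F (y, p) = tot F (y', p') := by
  obtain ⟨C, hC⟩ := fam_bound h hK hKU
  set a : ℕ → ℤ := fun n => -⌊(pn n).1⌋ with ha
  set b : ℕ → ℤ := fun n => -⌊(pn n).2⌋ with hb
  set rn : ℕ → P2 := fun n => pn n + ((a n : ℝ), (b n : ℝ)) with hrn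
  set rn' : ℕ → P2 := fun n => pn' n + ((a n : ℝ), (b n : ℝ)) with hrn'
  have htr : ∀ y ∈ U, ∀ (m n : ℤ) p, tot F (y, p + ((m : ℝ), (n : ℝ))) =
      tot F (y, p) + ((m : ℝ) • e 2 + (n : ℝ) • e 3) := fun y hy m n p =>
    phi_add_int (fam_per h hy) m n p
  have heq' : ∀ n, tot F (yn n, rn n) = tot F (yn' n, rn' n) := by
    intro n
    rw [hrn, hrn', htr _ (hKU (hyn n)), htr _ (hKU (hyn' n)), heq n]
  have hr : ∀ n, rn n ∈ closedBall (0 : P2) 1 := by
    intro n
    rw [mem_closedBall_zero_iff]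
    have e1 : rn n = (Int.fract (pn n).1, Int.fract (pn n).2) := by
      simp only [hrn, ha, hb]
      ext
      · simp [Int.fract, sub_eq_add_neg]
      · simp [Int.fract, sub_eq_add_neg]
    rw [e1]
    refine max_le ?_ ?_
    · rw [Real.norm_eq_abs, abs_of_nonneg (Int.fract_nonneg _)]
      exact (Int.fract_lt_one _).le
    · rw [Real.norm_eq_abs, abs_of_nonneg (Int.fract_nonneg _)]
      exact (Int.fract_lt_one _).le
  have hr' : ∀ n, rn' n ∈ closedBall (0 : P2) (1 + 2 * C) := by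
    intro n
    rw [mem_closedBall_zero_iff]
    have e1 : lin (rn' n - rn n) = F (yn n) (rn n) - F (yn' n) (rn' n) := by
      have := heq' n
      unfold tot phi at this
      simp only at this
      rw [lin_sub]
      linear_combination (exp := 1) -this
    have e2 : ‖rn' n - rn n‖ ≤ 2 * C := by
      refine (norm_le_norm_lin _).trans ?_
      rw [e1]
      refine (norm_sub_le _ _).trans ?_
      have := hC _ (hyn n) (rn n)
      have := hC _ (hyn' n) (rn' n)
      linarith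
    have e3 := hr n
    rw [mem_closedBall_zero_iff] at e3
    have e4 : rn' n = rn n + (rn' n - rn n) := by abel
    rw [e4]
    exact (norm_add_le _ _).trans (add_le_add e3 e2)
  obtain ⟨⟨p, p'⟩, -, k, hk, hlim⟩ := ((isCompact_closedBall (0 : P2) 1).prod
    (isCompact_closedBall (0 : P2) (1 + 2 * C))).tendsto_subseq
    (x := fun n => (rn n, rn' n)) fun n => ⟨hr n, hr' n⟩
  have hl1 : Tendsto (fun n => rn (k n)) atTop (𝓝 p) := (continuous_fst.tendsto _).comp hlim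
  have hl2 : Tendsto (fun n => rn' (k n)) atTop (𝓝 p') := (continuous_snd.tendsto _).comp hlim
  refine ⟨p, p', k, fun n => rn (k n), fun n => rn' (k n), hk, fun n => ⟨a (k n), b (k n),
    rfl, rfl⟩, hl1, hl2, fun n => heq' _, ?_⟩
  have hyK : y ∈ K := hK.isClosed.mem_of_tendsto hy (Eventually.of_forall hyn)
  have hyK' : y' ∈ K := hK.isClosed.mem_of_tendsto hy' (Eventually.of_forall hyn')
  have hcont := (fam_contDiffOn_tot h).continuousOn
  have g1 : Tendsto (fun n => tot F (yn (k n), rn (k n))) atTop (𝓝 (tot F (y, p))) := by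
    refine (hcont (y, p) ⟨hKU hyK, mem_univ _⟩).tendsto.comp (tendsto_nhdsWithin_iff.2
      ⟨(hy.comp hk.tendsto_atTop).prodMk_nhds hl1,
        Eventually.of_forall fun n => ⟨hKU (hyn _), mem_univ _⟩⟩)
  have g2 : Tendsto (fun n => tot F (yn' (k n), rn' (k n))) atTop (𝓝 (tot F (y', p'))) := by
    refine (hcont (y', p') ⟨hKU hyK', mem_univ _⟩).tendsto.comp (tendsto_nhdsWithin_iff.2
      ⟨(hy'.comp hk.tendsto_atTop).prodMk_nhds hl2,
        Eventually.of_forall fun n => ⟨hKU (hyn' _), mem_univ _⟩⟩)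
  refine tendsto_nhds_unique g1 (g2.congr fun n => (heq' (k n)).symm)

end

end Vale.Agent.P247.H832
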