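import Vale.Agent.P247.H832.Wnd

/-!
# Logarithms on punctured planes and filling in discs (P247, package W)
-/

open Filter Topology Set Metric

namespace Vale.Agent.P247.H832

noncomputable section

/-- a nowhere zero continuous function on the punctured plane with winding number `0` has a
continuous logarithm -/
theorem exists_log_punct {f : ℂ → ℂ} {c : ℂ} (hf : ContinuousOn f {c}ᶜ)
    (h0 : ∀ z, z ≠ c → f z ≠ 0) {r : ℝ} (hr : 0 < r) (hw : CW f c r 0) :
    ∃ l : ℂ → ℂ, ContinuousOn l {c}ᶜ ∧ ∀ z, z ≠ c → Complex.exp (l z) = f z := by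
  have hne : ∀ w, c + Complex.exp w ≠ c := fun w h =>
    Complex.exp_ne_zero w (by simp at h)
  obtain ⟨M, hM, hMe⟩ := exists_log (g := fun w : ℂ => f (c + Complex.exp w))
    (hf.comp_continuous (by fun_prop) hne) fun w => h0 _ (hne w)
  have hD : ∀ w ∈ (univ : Set ℂ), Complex.exp (M (w + 2 * Real.pi * Complex.I) - M w) = 1 := by
    intro w _
    rw [Complex.exp_sub, hMe, hMe, Complex.exp_add, Complex.exp_two_pi_mul_I, mul_one,
      div_self (h0 _ (hne w))]
  obtain ⟨n, hn⟩ := Complex.exp_eq_one_iff.1 (hD 0 (mem_univ _))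
  have hcst : ∀ w, M (w + 2 * Real.pi * Complex.I) - M w = n * (2 * Real.pi * Complex.I) := by
    intro w
    rw [← hn]
    exact int_const (S := (univ : Set ℂ)) isPreconnected_univ
      (D := fun w => M (w + 2 * Real.pi * Complex.I) - M w) (by fun_prop) hD (mem_univ w)
      (mem_univ 0)
  have hWn : CW f c r n := by
    refine ⟨fun t => M (Real.log r + 2 * Real.pi * Complex.I * t), by fun_prop, fun t => ?_,
      fun t => ?_⟩
    · rw [hMe, Complex.exp_add, ← Complex.ofReal_exp, Real.exp_log hr]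
      rfl
    · have h1 := hcst (Real.log r + 2 * Real.pi * Complex.I * t)
      have h2 : (Real.log r + 2 * Real.pi * Complex.I * ((t + 1 : ℝ) : ℂ) : ℂ) =
          Real.log r + 2 * Real.pi * Complex.I * t + 2 * Real.pi * Complex.I := by
        push_cast
        ring
      beta_reduce
      rw [h2]
      linear_combination h1
  have hn0 : n = 0 := hWn.unique hw
  subst hn0
  have hper : ∀ w, M (w + 2 * Real.pi * Complex.I) = M w := by
    intro w
    have := hcst w
    rw [Int.cast_zero, zero_mul, sub_eq_zero] at this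
    exact this
  have hlog : ∀ w, M (Complex.log (Complex.exp w)) = M w := by
    intro w
    have h1 : Complex.exp (Complex.log (Complex.exp w)) = Complex.exp w :=
      Complex.exp_log (Complex.exp_ne_zero w)
    obtain ⟨k, hk⟩ := Complex.exp_eq_exp_iff_exists_int.1 h1
    rw [hk]
    have h2 : Function.Periodic M (2 * Real.pi * Complex.I) := hper
    exact h2.int_mul k w
  refine ⟨fun z => M (Complex.log (z - c)), ?_, fun z hz => ?_⟩
  · have hc0 : Continuous fun z : {z : ℂ // z ≠ 0} => M (Complex.log z.1) := by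
      have hq := Complex.isCoveringMap_exp.isQuotientMap (by
        rintro ⟨z, hz⟩
        exact ⟨Complex.log z, Subtype.ext (Complex.exp_log hz)⟩)
      rw [hq.continuous_iff]
      have : (fun z : {z : ℂ // z ≠ 0} => M (Complex.log z.1)) ∘
          (fun z : ℂ => (⟨_, z.exp_ne_zero⟩ : {z : ℂ // z ≠ 0})) = M := by
        funext w
        exact hlog w
      rw [this]
      exact hM
    rw [continuousOn_iff_continuous_domRestrict]
    have h3 : Continuous fun z : ({c}ᶜ : Set ℂ) =>
        (⟨z.1 - c, sub_ne_zero.2 z.2⟩ : {z : ℂ // z ≠ 0}) := by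
      refine Continuous.subtype_mk ?_ _
      fun_prop
    exact hc0.comp h3
  · beta_reduce
    rw [hMe, Complex.exp_log (sub_ne_zero.2 hz), add_sub_cancel]

/-- **filling in a disc** -/
theorem exists_fill {f : ℂ → ℂ} {c : ℂ} {r : ℝ} (hr : 0 < r) (hf : ContinuousOn f (sphere c r))
    (h0 : ∀ z ∈ sphere c r, f z ≠ 0) (hw : CW f c r 0) :
    ∃ g : ℂ → ℂ, ContinuousOn g (closedBall c r) ∧ (∀ z ∈ closedBall c r, g z ≠ 0) ∧
      ∀ z ∈ sphere c r, g z = f z := by
  set P : ℂ → ℂ := fun z => c + (r / ‖z - c‖ : ℝ) * (z - c) with hP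
  have hPs : ∀ z, z ≠ c → P z ∈ sphere c r := by
    intro z hz
    have h1 : ‖z - c‖ ≠ 0 := norm_ne_zero_iff.2 (sub_ne_zero.2 hz)
    rw [mem_sphere_iff_norm]
    simp only [hP, add_sub_cancel_left]
    rw [norm_mul, Complex.norm_real, Real.norm_of_nonneg (by positivity)]
    field_simp
  have hPc : ContinuousOn P {c}ᶜ := by
    refine continuousOn_const.add (ContinuousOn.mul ?_ (by fun_prop))
    refine Complex.continuous_ofReal.comp_continuousOn (ContinuousOn.div continuousOn_const
      (by fun_prop) fun z hz => norm_ne_zero_iff.2 (sub_ne_zero.2 hz))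
  have hPid : ∀ z ∈ sphere c r, P z = z := by
    intro z hz
    rw [mem_sphere_iff_norm] at hz
    simp only [hP]
    rw [hz, div_self hr.ne']
    simp
  obtain ⟨l, hl, hle⟩ := exists_log_punct (f := fun z => f (P z)) (c := c)
    (hf.comp hPc fun z hz => hPs z hz) (fun z hz => h0 _ (hPs z hz)) hr
    (hw.congr hr.le fun z hz => by rw [hPid z hz])
  -- bound of the logarithm on the circle
  have hls : ContinuousOn l (sphere c r) := hl.mono fun z hz => by
    rintro rfl
    rw [mem_sphere_iff_norm, sub_self, norm_zero] at hz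
    exact hr.ne hz
  obtain ⟨B, hB⟩ := (isCompact_sphere c r).exists_bound_of_continuousOn hls
  have hsne : (sphere c r).Nonempty := NormedSpace.sphere_nonempty.2 hr.le
  obtain ⟨z₁, hz₁⟩ := hsne
  have hB0 : 0 ≤ B := (norm_nonneg _).trans (hB z₁ hz₁)
  set h : ℂ → ℂ := fun z => ((‖z - c‖ / r : ℝ) : ℂ) * l (P z) with hh
  have hc : Continuous h := by
    rw [continuous_iff_continuousAt]
    intro z
    by_cases hz : z = c
    · subst hz
      have h1 : h z = 0 := by simp [hh]
      rw [ContinuousAt, h1]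
      have hbd : ∀ᶠ w in 𝓝 z, ‖h w‖ ≤ ‖w - z‖ / r * B := by
        refine Eventually.of_forall fun w => ?_
        by_cases hw : w = z
        · subst hw
          simp [hh]
        · simp only [hh]
          rw [norm_mul, Complex.norm_real, Real.norm_of_nonneg (by positivity)]
          exact mul_le_mul_of_nonneg_left (hB _ (hPs w hw)) (by positivity)
      refine squeeze_zero_norm' hbd ?_
      have : Tendsto (fun w => ‖w - z‖ / r * B) (𝓝 z) (𝓝 (‖z - z‖ / r * B)) := by
        apply Continuous.tendsto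
        fun_prop
      simpa using this
    · have h1 : ContinuousAt (fun z => l (P z)) z := by
        have h2 : ContinuousOn (fun z => l (P z)) {c}ᶜ :=
          hls.comp hPc fun w hw => hPs w hw
        exact h2.continuousAt (isOpen_compl_singleton.mem_nhds hz)
      refine ContinuousAt.mul ?_ h1
      fun_prop
  refine ⟨fun z => Complex.exp (h z), by fun_prop, fun z _ => Complex.exp_ne_zero _, ?_⟩
  intro z hz
  have hzc : z ≠ c := by
    rintro rfl
    rw [mem_sphere_iff_norm, sub_self, norm_zero] at hz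
    exact hr.ne hz
  have h1 : h z = l z := by
    simp only [hh, hPid z hz]
    rw [mem_sphere_iff_norm] at hz
    rw [hz, div_self hr.ne']
    simp
  beta_reduce
  rw [h1, hle z hzc, hPid z hz]

/-- **filling in finitely many disjoint discs** of a closed set -/
theorem exists_fill_finset {S : Set ℂ} (hS : IsClosed S) (ρ : ℂ → ℝ) (Z : Finset ℂ) :
    ∀ f : ℂ → ℂ, (∀ p ∈ Z, 0 < ρ p) → (∀ p ∈ Z, closedBall p (ρ p) ⊆ S) →
      (∀ p ∈ Z, ∀ q ∈ Z, p ≠ q → Disjoint (closedBall p (ρ p)) (closedBall q (ρ q))) →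
      ContinuousOn f (S \ ⋃ p ∈ Z, ball p (ρ p)) →
      (∀ p ∈ Z, ∀ z ∈ sphere p (ρ p), f z ≠ 0) → (∀ p ∈ Z, CW f p (ρ p) 0) →
      ∃ g : ℂ → ℂ, ContinuousOn g S ∧ (∀ z, z ∉ ⋃ p ∈ Z, ball p (ρ p) → g z = f z) ∧
        ∀ p ∈ Z, ∀ z ∈ closedBall p (ρ p), g z ≠ 0 := by
  classical
  induction Z using Finset.induction_on with
  | empty =>
    intro f _ _ _ hf _ _
    exact ⟨f, by simpa using hf, fun _ _ => rfl, by simp⟩
  | insert a Z ha ih =>
    intro f hρ hsub hdis hf h0 hw
    have ha' := Finset.mem_insert_self a Z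
    have hmem : ∀ p ∈ Z, p ∈ insert a Z := fun p hp => Finset.mem_insert_of_mem hp
    have hcb : closedBall a (ρ a) ⊆ S := hsub a ha'
    have hda : ∀ p ∈ Z, Disjoint (closedBall a (ρ a)) (closedBall p (ρ p)) := fun p hp =>
      hdis a ha' p (hmem p hp) fun h => ha (h ▸ hp)
    -- the sphere of `a` lies in the domain of `f`
    have hsph : sphere a (ρ a) ⊆ S \ ⋃ p ∈ insert a Z, ball p (ρ p) := by
      intro z hz
      refine ⟨hcb (sphere_subset_closedBall hz), fun h => ?_⟩
      obtain ⟨p, hp, hzp⟩ := mem_iUnion₂.1 h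
      rcases Finset.mem_insert.1 hp with rfl | hp
      · rw [mem_sphere] at hz
        rw [mem_ball, hz] at hzp
        exact lt_irrefl _ hzp
      · exact (disjoint_left.1 (hda p hp)) (sphere_subset_closedBall hz)
          (ball_subset_closedBall hzp)
    obtain ⟨k, hk, hk0, hkf⟩ := exists_fill (hρ a ha') (hf.mono hsph) (h0 a ha') (hw a ha')
    set f₁ : ℂ → ℂ := fun z => if z ∈ closedBall a (ρ a) then k z else f z with hf₁
    have hf₁in : ∀ z ∈ closedBall a (ρ a), f₁ z = k z := fun z hz => if_pos hz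
    have hf₁out : ∀ z, z ∉ ball a (ρ a) → f₁ z = f z := by
      intro z hz
      by_cases h : z ∈ closedBall a (ρ a)
      · rw [hf₁in z h]
        refine hkf z ?_
        rw [mem_sphere]
        rw [mem_ball, not_lt] at hz
        exact le_antisymm h hz
      · exact if_neg h
    have hcov : S \ ⋃ p ∈ Z, ball p (ρ p) =
        closedBall a (ρ a) ∪ (S \ ⋃ p ∈ insert a Z, ball p (ρ p)) := by
      ext z
      constructor
      · rintro ⟨hzS, hz⟩
        by_cases h : z ∈ closedBall a (ρ a)
        · exact Or.inl h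
        · refine Or.inr ⟨hzS, fun h' => ?_⟩
          obtain ⟨p, hp, hzp⟩ := mem_iUnion₂.1 h'
          rcases Finset.mem_insert.1 hp with rfl | hp
          · exact h (ball_subset_closedBall hzp)
          · exact hz (mem_iUnion₂.2 ⟨p, hp, hzp⟩)
      · rintro (h | ⟨hzS, hz⟩)
        · refine ⟨hcb h, fun h' => ?_⟩
          obtain ⟨p, hp, hzp⟩ := mem_iUnion₂.1 h'
          exact (disjoint_left.1 (hda p hp)) h (ball_subset_closedBall hzp)
        · refine ⟨hzS, fun h' => hz ?_⟩
          obtain ⟨p, hp, hzp⟩ := mem_iUnion₂.1 h'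
          exact mem_iUnion₂.2 ⟨p, hmem p hp, hzp⟩
    have hf₁c : ContinuousOn f₁ (S \ ⋃ p ∈ Z, ball p (ρ p)) := by
      rw [hcov]
      refine ContinuousOn.union_of_isClosed ?_ ?_ isClosed_closedBall ?_
      · exact hk.congr hf₁in
      · refine hf.congr fun z hz => hf₁out z fun h => hz.2 ?_
        exact mem_iUnion₂.2 ⟨a, ha', h⟩
      · have : (S \ ⋃ p ∈ insert a Z, ball p (ρ p)) =
            S ∩ (⋃ p ∈ insert a Z, ball p (ρ p))ᶜ := rfl
        rw [this]
        exact hS.inter (isOpen_biUnion fun _ _ => isOpen_ball).isClosed_compl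
    have hout : ∀ p ∈ Z, ∀ z ∈ closedBall p (ρ p), f₁ z = f z := fun p hp z hz =>
      hf₁out z fun h => (disjoint_left.1 (hda p hp)) (ball_subset_closedBall h) hz
    obtain ⟨g, hg, hgf, hg0⟩ := ih f₁ (fun p hp => hρ p (hmem p hp))
      (fun p hp => hsub p (hmem p hp))
      (fun p hp q hq => hdis p (hmem p hp) q (hmem q hq)) hf₁c
      (fun p hp z hz => by
        rw [hout p hp z (sphere_subset_closedBall hz)]
        exact h0 p (hmem p hp) z hz)
      (fun p hp => (hw p (hmem p hp)).congr (hρ p (hmem p hp)).le fun z hz =>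
        (hout p hp z (sphere_subset_closedBall hz)).symm)
    refine ⟨g, hg, fun z hz => ?_, fun p hp z hz => ?_⟩
    · rw [hgf z fun h => hz ?_, hf₁out z fun h => hz (mem_iUnion₂.2 ⟨a, ha', h⟩)]
      obtain ⟨p, hp, hzp⟩ := mem_iUnion₂.1 h
      exact mem_iUnion₂.2 ⟨p, hmem p hp, hzp⟩
    · rcases Finset.mem_insert.1 hp with rfl | hp
      · rw [hgf z fun h => ?_, hf₁in z hz]
        · exact hk0 z hz
        · obtain ⟨q, hq, hzq⟩ := mem_iUnion₂.1 h
          exact (disjoint_left.1 (hda q hq)) hz (ball_subset_closedBall hzq)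
      · exact hg0 p hp z hz

end

end Vale.Agent.P247.H832
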