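import Vale.Agent.P247.H832.Fam

/-!
# Injectivity of families of tori (P247, package A-INJ)
-/

open Filter Topology Set Metric
open scoped ContDiff

namespace Vale.Agent.P247.H832

noncomputable section

open Vale.Agent.P247.H74

variable {D : Data} {U : Set P2} {F : P2 → P2 → R4} {T : P2 → ℂ}

theorem INJ0 (hD : DPsi_statement) : INJ0_statement := by
  intro D y₀ R F T hR h hinj
  by_contra hcon
  push Not at hcon
  set r : ℕ → ℝ := fun n => min (R / 2) (1 / ((n : ℝ) + 1)) with hr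
  have hr0 : ∀ n, 0 < r n := fun n => lt_min (by linarith) (by positivity)
  have hrR : ∀ n, r n ≤ R / 2 := fun n => min_le_left _ _
  have hrlim : Tendsto r atTop (𝓝 0) := by
    refine squeeze_zero (fun n => (hr0 n).le) (fun n => min_le_right _ _) ?_
    exact tendsto_one_div_add_atTop_nhds_zero_nat
  have hex : ∀ n, ∃ q q' : P2 × P2, q ∈ ball y₀ (r n) ×ˢ (univ : Set P2) ∧
      q' ∈ ball y₀ (r n) ×ˢ (univ : Set P2) ∧ tot F q = tot F q' ∧ q ≠ q' := by
    intro n
    have h1 := hcon (r n) (hr0 n) ((hrR n).trans (by linarith))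
    unfold InjOn at h1
    push Not at h1
    obtain ⟨q, hq, q', hq', he, hne⟩ := h1
    exact ⟨q, q', hq, hq', he, hne⟩
  choose q q' hq hq' he hne using hex
  have hK : IsCompact (closedBall y₀ (R / 2)) := isCompact_closedBall _ _
  have hKU : closedBall y₀ (R / 2) ⊆ ball y₀ R := closedBall_subset_ball (by linarith)
  have hy : Tendsto (fun n => (q n).1) atTop (𝓝 y₀) := by
    rw [tendsto_iff_dist_tendsto_zero]
    exact squeeze_zero (fun _ => dist_nonneg) (fun n => (mem_ball.1 (hq n).1).le) hrlim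
  have hy' : Tendsto (fun n => (q' n).1) atTop (𝓝 y₀) := by
    rw [tendsto_iff_dist_tendsto_zero]
    exact squeeze_zero (fun _ => dist_nonneg) (fun n => (mem_ball.1 (hq' n).1).le) hrlim
  obtain ⟨p, p', k, qn, qn', hk, hab, hqn, hqn', heq, hlim⟩ := fam_exists_limit h hK hKU
    (yn := fun n => (q n).1) (yn' := fun n => (q' n).1) (pn := fun n => (q n).2)
    (pn' := fun n => (q' n).2)
    (fun n => ball_subset_closedBall (ball_subset_ball (hrR n) (hq n).1))
    (fun n => ball_subset_closedBall (ball_subset_ball (hrR n) (hq' n).1)) hy hy' he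
  have hpp : p = p' := hinj hlim
  subst hpp
  have hy₀ : y₀ ∈ ball y₀ R := mem_ball_self hR
  obtain ⟨δ, hδ, hloc⟩ := fam_locInj h isOpen_ball hy₀ p (hD D _ F T isOpen_ball h y₀ hy₀ p)
  have c1 : Tendsto (fun n => ((q (k n)).1, qn n)) atTop (𝓝 (y₀, p)) :=
    (hy.comp hk.tendsto_atTop).prodMk_nhds hqn
  have c2 : Tendsto (fun n => ((q' (k n)).1, qn' n)) atTop (𝓝 (y₀, p)) :=
    (hy'.comp hk.tendsto_atTop).prodMk_nhds hqn'
  obtain ⟨n, hn1, hn2⟩ := ((c1.eventually (ball_mem_nhds _ hδ)).and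
    (c2.eventually (ball_mem_nhds _ hδ))).exists
  have e := hloc _ hn1 _ hn2 (heq n)
  obtain ⟨a, b, e1, e2⟩ := hab n
  have e4 : (q (k n)).1 = (q' (k n)).1 := (Prod.mk.inj e).1
  refine hne (k n) (Prod.ext e4 ?_)
  have e3 : qn n = qn' n := congrArg Prod.snd e
  rw [e1, e2] at e3
  exact add_right_cancel e3

/-! ### closedness -/

theorem compact_seq {yn : ℕ → P2} {y : P2} (hlim : Tendsto yn atTop (𝓝 y)) :
    IsCompact (insert y (range yn)) := hlim.isCompact_insert_range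

/-- limits of non-injective tori are non-injective -/
theorem notInj_closed (hD : DPsi_statement) (hU : IsOpen U) (h : Fam D U F T) {yn : ℕ → P2}
    {y : P2} (hyn : ∀ n, yn n ∈ U) (hy : y ∈ U) (hlim : Tendsto yn atTop (𝓝 y))
    (hbad : ∀ n, ¬ Inj (F (yn n))) : ¬ Inj (F y) := by
  intro hinj
  have hex : ∀ n, ∃ p p' : P2, phi (F (yn n)) p = phi (F (yn n)) p' ∧ p ≠ p' := by
    intro n
    have := hbad n
    unfold Inj Function.Injective at this
    push Not at this
    exact this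
  choose pn pn' he hne using hex
  have hKU : insert y (range yn) ⊆ U := by
    rintro x (rfl | ⟨n, rfl⟩)
    · exact hy
    · exact hyn n
  obtain ⟨p, p', k, qn, qn', hk, hab, hqn, hqn', heq, hl⟩ := fam_exists_limit h
    (compact_seq hlim) hKU (fun n => mem_insert_of_mem _ (mem_range_self n))
    (fun n => mem_insert_of_mem _ (mem_range_self n)) hlim hlim he
  have hpp : p = p' := hinj hl
  subst hpp
  obtain ⟨δ, hδ, hloc⟩ := fam_locInj h hU hy p (hD D _ F T hU h y hy p)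
  have c1 : Tendsto (fun n => (yn (k n), qn n)) atTop (𝓝 (y, p)) :=
    (hlim.comp hk.tendsto_atTop).prodMk_nhds hqn
  have c2 : Tendsto (fun n => (yn (k n), qn' n)) atTop (𝓝 (y, p)) :=
    (hlim.comp hk.tendsto_atTop).prodMk_nhds hqn'
  obtain ⟨n, hn1, hn2⟩ := ((c1.eventually (ball_mem_nhds _ hδ)).and
    (c2.eventually (ball_mem_nhds _ hδ))).exists
  have e := hloc _ hn1 _ hn2 (heq n)
  obtain ⟨a, b, e1, e2⟩ := hab n
  refine hne (k n) ?_
  have e3 : qn n = qn' n := congrArg Prod.snd e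
  rw [e1, e2] at e3
  exact add_right_cancel e3

/-- two tori of the family meet -/
def Meet (F : P2 → P2 → R4) (y y' : P2) : Prop := ∃ p p', tot F (y, p) = tot F (y', p')

theorem meet_closed (h : Fam D U F T) {yn yn' : ℕ → P2} {y y' : P2} (hyn : ∀ n, yn n ∈ U)
    (hyn' : ∀ n, yn' n ∈ U) (hy : y ∈ U) (hy' : y' ∈ U) (hlim : Tendsto yn atTop (𝓝 y))
    (hlim' : Tendsto yn' atTop (𝓝 y')) (hm : ∀ n, Meet F (yn n) (yn' n)) : Meet F y y' := by
  choose pn pn' he using hm
  have hKU : insert y (range yn) ∪ insert y' (range yn') ⊆ U := by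
    rintro x ((rfl | ⟨n, rfl⟩) | (rfl | ⟨n, rfl⟩))
    · exact hy
    · exact hyn n
    · exact hy'
    · exact hyn' n
  obtain ⟨p, p', k, qn, qn', hk, hab, hqn, hqn', heq, hl⟩ := fam_exists_limit h
    ((compact_seq hlim).union (compact_seq hlim')) hKU
    (fun n => Or.inl (mem_insert_of_mem _ (mem_range_self n)))
    (fun n => Or.inr (mem_insert_of_mem _ (mem_range_self n))) hlim hlim' he
  exact ⟨p, p', hl⟩

/-! ### openness -/

theorem imm_up (h : Fam D U F T) {y : P2} (hy : y ∈ U) (z : ℂ) :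
    fderiv ℝ (up (F y) (T y)) z 1 ≠ 0 := by
  rw [K2H.fderiv_up_one (h.jt y hy).smooth]
  exact h.imm y hy _

theorem contDiff_up (h : Fam D U F T) {y : P2} (hy : y ∈ U) :
    ContDiff ℝ 1 (up (F y) (T y)) := (K2H.JH_up (h.jt y hy)).1.of_le (by simp)

theorem exists_coord {τ : ℂ} (hτ : 0 < τ.im) (p : P2) : ∃ z, coord τ z = p :=
  ⟨_, K2H.coord_apply τ hτ p⟩

theorem coord_injective {τ : ℂ} (hτ : 0 < τ.im) : Function.Injective (coord τ) := by
  intro z w hzw
  have h1 : z.im / τ.im = w.im / τ.im := congrArg Prod.snd hzw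
  have h2 : z.re - τ.re * (z.im / τ.im) = w.re - τ.re * (w.im / τ.im) := congrArg Prod.fst hzw
  rw [h1] at h2
  have h3 := hτ.ne'
  apply Complex.ext
  · linarith
  · field_simp at h1
    exact h1

/-- non-injectivity is stable -/
theorem notInj_open (h1 : L1_statement) (hS : S_statement) (hU : IsOpen U) (h : Fam D U F T)
    {yn : ℕ → P2} {y : P2} (hyn : ∀ n, yn n ∈ U) (hy : y ∈ U) (hlim : Tendsto yn atTop (𝓝 y))
    (hbad : ¬ Inj (F y)) : ∀ᶠ n in atTop, ¬ Inj (F (yn n)) := by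
  unfold Inj Function.Injective at hbad
  push Not at hbad
  obtain ⟨p, p', hpp, hne⟩ := hbad
  have hτ := (h.jt y hy).im_pos
  obtain ⟨z, hz⟩ := exists_coord hτ p
  obtain ⟨z', hz'⟩ := exists_coord hτ p'
  have hzz : z ≠ z' := by
    rintro rfl
    exact hne (hz.symm.trans hz')
  have hJH := K2H.JH_up (h.jt y hy)
  have hu : up (F y) (T y) z = up (F y) (T y) z' := by
    unfold up
    rw [hz, hz']
    exact hpp
  rcases h1 D _ _ z z' hJH hJH hu (imm_up h hy z') with hl | ⟨-, hst⟩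
  · exact absurd hl (hS D _ (T y) hJH hτ (lift_up (fam_per h hy) hτ) z z' hzz (imm_up h hy z)
      (imm_up h hy z'))
  · have hd : 0 < dist z z' := dist_pos.2 hzz
    have hC := fam_tendC1 h hU hy hyn hlim
    have := hst (dist z z' / 2) (by linarith) _ _ (fun n => contDiff_up h (hyn n))
      (fun n => contDiff_up h (hyn n)) hC hC
    filter_upwards [this] with n hn hinj
    obtain ⟨w, hw, w', hw', e⟩ := hn
    have e1 : coord (T (yn n)) w = coord (T (yn n)) w' := hinj e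
    have e2 : w = w' := coord_injective (h.jt _ (hyn n)).im_pos e1
    rw [mem_ball] at hw hw'
    rw [e2] at hw
    have := dist_triangle_left z z' w'
    linarith

/-- intersections of different tori are stable -/
theorem meet_open (h1 : L1_statement) (h2 : L2_statement) (hU : IsOpen U) (h : Fam D U F T)
    {yn yn' : ℕ → P2} {y y' : P2} (hyn : ∀ n, yn n ∈ U) (hyn' : ∀ n, yn' n ∈ U) (hy : y ∈ U)
    (hy' : y' ∈ U) (hlim : Tendsto yn atTop (𝓝 y)) (hlim' : Tendsto yn' atTop (𝓝 y'))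
    (hne : y ≠ y') (hinj : Inj (F y')) (hm : Meet F y y') :
    ∀ᶠ n in atTop, Meet F (yn n) (yn' n) := by
  obtain ⟨p, p', hpp⟩ := hm
  have hτ := (h.jt y hy).im_pos
  have hτ' := (h.jt y' hy').im_pos
  obtain ⟨z, hz⟩ := exists_coord hτ p
  obtain ⟨z', hz'⟩ := exists_coord hτ' p'
  have hJH := K2H.JH_up (h.jt y hy)
  have hJH' := K2H.JH_up (h.jt y' hy')
  have hu : up (F y) (T y) z = up (F y') (T y') z' := by
    unfold up
    rw [hz, hz']
    exact hpp
  rcases h1 D _ _ z z' hJH hJH' hu (imm_up h hy' z') with hl | ⟨-, hst⟩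
  · exfalso
    obtain ⟨e1, -⟩ := h2 D _ _ _ _ (h.jt y hy) (h.jt y' hy') (h.cen y hy) (h.cen y' hy')
      (h.imm y' hy') hinj ⟨z, z', hl⟩
    refine hne ?_
    rw [← h.flux_eq y hy, ← h.flux_eq y' hy', e1]
  · have hC := fam_tendC1 h hU hy hyn hlim
    have hC' := fam_tendC1 h hU hy' hyn' hlim'
    filter_upwards [hst 1 one_pos _ _ (fun n => contDiff_up h (hyn n))
      (fun n => contDiff_up h (hyn' n)) hC hC'] with n hn
    obtain ⟨w, -, w', -, e⟩ := hn
    exact ⟨_, _, e⟩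

/-- the connectedness argument -/
theorem no_bad {a b : ℝ} (hab : a ≤ b) {B : Set ℝ} (h0 : a ∉ B)
    (hcl : ∀ (sn : ℕ → ℝ) (s : ℝ), (∀ n, sn n ∈ Icc a b) → s ∈ Icc a b →
      Tendsto sn atTop (𝓝 s) → (∀ n, sn n ∈ B) → s ∈ B)
    (hop : ∀ (sn : ℕ → ℝ) (s : ℝ), (∀ n, sn n ∈ Icc a b) → s ∈ Icc a b →
      Tendsto sn atTop (𝓝 s) → s ∈ B → ∀ᶠ n in atTop, sn n ∈ B) :
    ∀ s ∈ Icc a b, s ∉ B := by
  set B' : Set (Icc a b) := {s | (s : ℝ) ∈ B} with hB'
  have h1 : IsClosed B' := by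
    refine IsSeqClosed.isClosed fun sn s hsn hlim => ?_
    exact hcl (fun n => (sn n : ℝ)) s (fun n => (sn n).2) s.2
      ((continuous_subtype_val.tendsto s).comp hlim) hsn
  have h2 : IsOpen B' := by
    rw [← isClosed_compl_iff]
    refine IsSeqClosed.isClosed fun sn s hsn hlim hs => ?_
    have := hop (fun n => (sn n : ℝ)) s (fun n => (sn n).2) s.2
      ((continuous_subtype_val.tendsto s).comp hlim) hs
    obtain ⟨n, hn⟩ := this.exists
    exact hsn n hn
  have hpre : PreconnectedSpace (Icc a b) := Subtype.preconnectedSpace isPreconnected_Icc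
  intro s hs hsB
  have hne : B'.Nonempty := ⟨⟨s, hs⟩, hsB⟩
  have : B' = univ := IsClopen.eq_univ ⟨h1, h2⟩ hne
  have ha : (⟨a, left_mem_Icc.2 hab⟩ : Icc a b) ∈ B' := this ▸ mem_univ _
  exact h0 ha

theorem INJ1 (hD : DPsi_statement) (h1 : L1_statement) (h2 : L2_statement)
    (hS : S_statement) : INJ1_statement := by
  intro D y₀ r R F T hr hrR h hinj0
  have hU : IsOpen (ball y₀ R) := isOpen_ball
  -- the path from `y₀` to `y`
  set γ : P2 → ℝ → P2 := fun y s => y₀ + s • (y - y₀) with hγ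
  have hγc : ∀ y, Continuous (γ y) := fun y => by simp only [hγ]; fun_prop
  have hγd : ∀ y s, 0 ≤ s → dist (γ y s) y₀ = s * dist y y₀ := by
    intro y s hs
    rw [dist_eq_norm, dist_eq_norm]
    simp only [hγ, add_sub_cancel_left]
    rw [norm_smul, Real.norm_of_nonneg hs]
  have hγU : ∀ y ∈ ball y₀ R, ∀ s ∈ Icc (0 : ℝ) 1, γ y s ∈ ball y₀ R := by
    intro y hy s hs
    rw [mem_ball, hγd y s hs.1]
    rw [mem_ball] at hy
    exact (mul_le_of_le_one_left dist_nonneg hs.2).trans_lt hy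
  have hγ1 : ∀ y, γ y 1 = y := fun y => by simp [hγ]
  have hγ0 : ∀ y, γ y 0 = y₀ := fun y => by simp [hγ]
  -- self case
  have hself : ∀ y ∈ ball y₀ R, Inj (F y) := by
    intro y hy
    by_contra hbad
    have := no_bad (a := 0) (b := 1) zero_le_one (B := {s | ¬ Inj (F (γ y s))}) ?_ ?_ ?_ 1
      (by simp)
    · exact this (by simpa [hγ1] using hbad)
    · simp only [mem_ofPred_eq, not_not, hγ0]
      intro p p' hpp
      have h3 : tot F (y₀, p) = tot F (y₀, p') := hpp
      have h4 := hinj0 ⟨mem_ball_self hr, mem_univ p⟩ ⟨mem_ball_self hr, mem_univ p'⟩ h3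
      exact congrArg Prod.snd h4
    · intro sn s hsn hs hlim hB
      exact notInj_closed hD hU h (fun n => hγU y hy _ (hsn n)) (hγU y hy s hs)
        (((hγc y).tendsto s).comp hlim) hB
    · intro sn s hsn hs hlim hB
      exact notInj_open h1 hS hU h (fun n => hγU y hy _ (hsn n)) (hγU y hy s hs)
        (((hγc y).tendsto s).comp hlim) hB
  rintro ⟨y, p⟩ ⟨hy, -⟩ ⟨y', p'⟩ ⟨hy', -⟩ heq
  by_cases hyy : y = y'
  · subst hyy
    rw [Prod.mk.injEq]
    exact ⟨rfl, hself y hy heq⟩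
  · exfalso
    -- a small parameter
    obtain ⟨s₀, hs₀, hs₀1, hsm⟩ : ∃ s₀ : ℝ, 0 < s₀ ∧ s₀ ≤ 1 ∧ s₀ * R ≤ r := by
      refine ⟨r / R, div_pos hr (hr.trans_le hrR), ?_, ?_⟩
      · exact (div_le_one (by linarith)).2 hrR
      · rw [div_mul_cancel₀]
        linarith
    have hne : ∀ s, 0 < s → γ y s ≠ γ y' s := by
      intro s hs he
      simp only [hγ, add_right_inj] at he
      have h3 := smul_right_injective P2 hs.ne' he
      exact hyy (sub_left_injective h3)
    have hsm' : ∀ w ∈ ball y₀ R, γ w s₀ ∈ ball y₀ r := by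
      intro w hw
      rw [mem_ball, hγd w s₀ hs₀.le]
      rw [mem_ball] at hw
      calc s₀ * dist w y₀ < s₀ * R := mul_lt_mul_of_pos_left hw hs₀
        _ ≤ r := hsm
    have hI : ∀ s ∈ Icc s₀ 1, s ∈ Icc (0 : ℝ) 1 := fun s hs => ⟨hs₀.le.trans hs.1, hs.2⟩
    have := no_bad (a := s₀) (b := 1) hs₀1 (B := {s | Meet F (γ y s) (γ y' s)}) ?_ ?_ ?_ 1
      ⟨hs₀1, le_rfl⟩
    · exact this ⟨p, p', by simpa [hγ1] using heq⟩
    · rintro ⟨q, q', hq⟩
      have h3 := hinj0 ⟨hsm' y hy, mem_univ q⟩ ⟨hsm' y' hy', mem_univ q'⟩ hq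
      exact hne s₀ hs₀ (congrArg Prod.fst h3)
    · intro sn s hsn hs hlim hB
      exact meet_closed h (fun n => hγU y hy _ (hI _ (hsn n)))
        (fun n => hγU y' hy' _ (hI _ (hsn n))) (hγU y hy s (hI s hs)) (hγU y' hy' s (hI s hs))
        (((hγc y).tendsto s).comp hlim) (((hγc y').tendsto s).comp hlim) hB
    · intro sn s hsn hs hlim hB
      exact meet_open h1 h2 hU h (fun n => hγU y hy _ (hI _ (hsn n)))
        (fun n => hγU y' hy' _ (hI _ (hsn n))) (hγU y hy s (hI s hs)) (hγU y' hy' s (hI s hs))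
        (((hγc y).tendsto s).comp hlim) (((hγc y').tendsto s).comp hlim)
        (hne s (hs₀.trans_le hs.1)) (hself _ (hγU y' hy' s (hI s hs))) hB

end

end Vale.Agent.P247.H832
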