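import Vale.Agent.P247.H832.Torus
import Vale.Agent.P247.H74.SP.Main

/-!
# Doubly periodic solutions of `|∂̄f| ≤ C |f|` have no zeros (P247, package NZ)
-/

open Filter Topology Set Metric

namespace Vale.Agent.P247.H832

noncomputable section

open Vale.Agent.P272.CT (dbarV)

/-- local form at a point -/
theorem local_form {f : ℂ → ℂ} (hf : ContDiff ℝ 1 f) {C : ℝ}
    (hd : ∀ z, ‖dbarV f z‖ ≤ C * ‖f z‖) (p : ℂ) :
    (∀ᶠ z in 𝓝[≠] p, f z = 0) ∨ ∃ m : ℕ, (f p = 0 → 1 ≤ m) ∧ ∃ r₀ > 0,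
      (∀ z ∈ ball p r₀, z ≠ p → f z ≠ 0) ∧ ∀ r, 0 < r → r < r₀ → CW f p r m := by
  set u : ℂ → ℂ := fun z => f (z + p) with hu
  have huc : ContDiff ℝ 1 u := hf.comp (contDiff_id.add contDiff_const)
  have hdu : ∀ z, dbarV u z = dbarV f (z + p) := by
    intro z
    unfold dbarV
    simp only [hu, fderiv_comp_add_right]
  rcases H74.SP.expansion (u := u) (R := 1) (C := C) one_pos huc.continuous.continuousOn
    huc.contDiffOn (fun z _ => by
      have := hd (z + p)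
      rw [← hdu] at this
      exact this) with ⟨r, hr, h⟩ | ⟨m, a, ha, h⟩
  · left
    rw [eventually_nhdsWithin_iff]
    filter_upwards [ball_mem_nhds p hr] with z hz hzp
    have h1 : z - p ∈ ball (0 : ℂ) r := by
      rwa [mem_ball_zero_iff, ← dist_eq_norm]
    have := h _ h1
    simpa only [hu, sub_add_cancel] using this
  · right
    have ha' : 0 < ‖a‖ := norm_pos_iff.2 ha
    have h1 := h.def (half_pos ha')
    obtain ⟨δ, hδ, hδ'⟩ := Metric.eventually_nhds_iff.1 h1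
    have hsm : ∀ z : ℂ, ‖z‖ < δ → ‖u z - z ^ m * a‖ ≤ ‖a‖ / 2 * ‖z ^ m‖ := by
      intro z hz
      have := hδ' (y := z) (by rwa [dist_zero_right])
      rwa [smul_eq_mul] at this
    have hsm' : ∀ z : ℂ, z ≠ 0 → ‖z‖ < δ → ‖(z ^ m)⁻¹ * u z - a‖ < ‖a‖ := by
      intro z hz hlt
      have h2 := hsm z hlt
      have h3 : z ^ m ≠ 0 := pow_ne_zero m hz
      have h4 : (z ^ m)⁻¹ * u z - a = (z ^ m)⁻¹ * (u z - z ^ m * a) := by
        field_simp
      have h5 : 0 < ‖z ^ m‖ := norm_pos_iff.2 h3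
      rw [h4, norm_mul, norm_inv]
      calc ‖z ^ m‖⁻¹ * ‖u z - z ^ m * a‖ ≤ ‖z ^ m‖⁻¹ * (‖a‖ / 2 * ‖z ^ m‖) :=
            mul_le_mul_of_nonneg_left h2 (inv_nonneg.2 h5.le)
        _ = ‖a‖ / 2 := by field_simp
        _ < ‖a‖ := by linarith
    refine ⟨m, fun hp => ?_, δ, hδ, fun z hz hzp => ?_, fun s hs hlt => ?_⟩
    · by_contra hm
      have hm0 : m = 0 := by omega
      subst hm0
      have h2 := hsm 0 (by rwa [norm_zero])
      have h3 : u 0 = 0 := by simp only [hu, zero_add, hp]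
      rw [h3, pow_zero, one_mul, norm_one, mul_one, zero_sub, norm_neg] at h2
      linarith
    · intro h0
      have h1 : z - p ≠ 0 := sub_ne_zero.2 hzp
      have h2 := hsm' (z - p) h1 (by rw [← dist_eq_norm]; exact hz)
      simp only [hu, sub_add_cancel, h0, mul_zero, zero_sub, norm_neg] at h2
      exact lt_irrefl _ h2
    · have h1 := cw_of_lead (f := f) (c := p) (a := a) (r := s) (m := (m : ℤ)) hs
        hf.continuous.continuousOn fun z hz => ?_
      · exact h1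
      · have hzp : z - p ≠ 0 := by
          intro h0
          rw [mem_sphere_iff_norm, h0, norm_zero] at hz
          exact hs.ne hz
        have h2 := hsm' (z - p) hzp (by rw [mem_sphere_iff_norm.1 hz]; exact hlt)
        simp only [hu, sub_add_cancel] at h2
        rw [zpow_natCast]
        exact h2

/-- unique continuation -/
theorem eq_zero_of_eventually {f : ℂ → ℂ} (hf : ContDiff ℝ 1 f) {C : ℝ}
    (hd : ∀ z, ‖dbarV f z‖ ≤ C * ‖f z‖) {p : ℂ} (hp : ∀ᶠ z in 𝓝[≠] p, f z = 0) (z : ℂ) :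
    f z = 0 := by
  have hext : ∀ q, (∀ᶠ z in 𝓝[≠] q, f z = 0) → ∀ᶠ z in 𝓝 q, f z = 0 := by
    intro q hq
    have h0 : f q = 0 := by
      have h1 : Tendsto f (𝓝[≠] q) (𝓝 (f q)) := (hf.continuous.tendsto q).mono_left
        nhdsWithin_le_nhds
      have h2 : Tendsto f (𝓝[≠] q) (𝓝 0) := tendsto_const_nhds.congr' (hq.mono fun _ h => h.symm)
      exact tendsto_nhds_unique h1 h2
    rw [eventually_nhdsWithin_iff] at hq
    filter_upwards [hq] with z hz
    by_cases h : z = q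
    · rw [h, h0]
    · exact hz h
  set A : Set ℂ := {q | ∀ᶠ z in 𝓝 q, f z = 0} with hA
  have hAo : IsOpen A := by
    rw [isOpen_iff_mem_nhds]
    intro q hq
    exact hq.eventually_nhds
  have hAc : IsClosed A := by
    rw [← closure_subset_iff_isClosed]
    intro q hq
    rcases local_form hf hd q with h | ⟨m, -, r₀, hr₀, hne, -⟩
    · exact hext q h
    · exfalso
      obtain ⟨w, hw, hwA⟩ := Metric.mem_closure_iff.1 hq r₀ hr₀
      -- `f` vanishes near `w`
      rw [dist_comm] at hwA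
      have h1 : ∀ᶠ z in 𝓝 w, f z = 0 ∧ z ∈ ball q r₀ := hw.and (isOpen_ball.mem_nhds hwA)
      have h2 : ∀ᶠ z in 𝓝[≠] w, f z = 0 ∧ z ∈ ball q r₀ := h1.filter_mono nhdsWithin_le_nhds
      by_cases hwq : w = q
      · subst hwq
        obtain ⟨z, ⟨hz, hzb⟩, hzw⟩ := (h2.and self_mem_nhdsWithin).exists
        exact hne z hzb hzw hz
      · exact hne w hwA hwq hw.self_of_nhds
  have hAu : A = univ := IsClopen.eq_univ ⟨hAc, hAo⟩ ⟨p, hext p hp⟩
  have : z ∈ A := hAu ▸ mem_univ z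
  exact this.self_of_nhds

/-- **a doubly periodic solution of `|∂̄f| ≤ C |f|` vanishes identically or has no zero** -/
theorem nz {τ : ℂ} (hτ : 0 < τ.im) {f : ℂ → ℂ} (hf : ContDiff ℝ 1 f)
    (h1 : ∀ z, f (z + 1) = f z) (h2 : ∀ z, f (z + τ) = f z) {C : ℝ}
    (hd : ∀ z, ‖dbarV f z‖ ≤ C * ‖f z‖) : (∀ z, f z = 0) ∨ ∀ z, f z ≠ 0 := by
  by_cases h : ∃ p, ∀ᶠ z in 𝓝[≠] p, f z = 0
  · obtain ⟨p, hp⟩ := h
    exact Or.inl (eq_zero_of_eventually hf hd hp)
  · rw [not_exists] at h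
    refine Or.inr (torus_no_zero hτ hf.continuous h1 h2 fun p hp => ?_)
    rcases local_form hf hd p with h' | ⟨m, hm, r₀, hr₀, hne, hw⟩
    · exact absurd h' (h p)
    · exact ⟨m, by exact_mod_cast (hm hp), r₀, hr₀, hne, hw⟩

end

end Vale.Agent.P247.H832
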