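import Mathlib

/-!
# Interior regularity of quasilinear Beltrami systems (R1), part A

Global `W^{1,2}` functions on the plane (weak gradient `du = p dz + q dzbar`), duality with test
functions, difference quotients, and the identity `∫|p|² = ∫|q|²`.
-/

namespace Vale.Agent.P247.H832.R1

open MeasureTheory Set Filter Topology
open scoped ContDiff ComplexConjugate ENNReal

/-- the Hilbert space `L²(ℂ)` -/
noncomputable abbrev H := Lp ℂ 2 (volume : Measure ℂ)

/-- complex test functions -/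
structure Tst (φ : ℂ → ℂ) : Prop where
  smooth : ContDiff ℝ ∞ φ
  supp : HasCompactSupport φ

/-- the component in direction `v` of `du = p dz + q dzbar` -/
def dd (p q : ℂ → ℂ) (v : ℂ) (z : ℂ) : ℂ := p z * v + q z * conj v

/-- global `W^{1,2}` functions with weak gradient `p dz + q dzbar` -/
structure W (u p q : ℂ → ℂ) : Prop where
  hu : MemLp u 2 (volume : Measure ℂ)
  hp : MemLp p 2 (volume : Measure ℂ)
  hq : MemLp q 2 (volume : Measure ℂ)
  eq : ∀ φ : ℂ → ℂ, Tst φ → ∀ v : ℂ,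
    ∫ z, fderiv ℝ φ z v * u z = - ∫ z, φ z * dd p q v z

namespace Tst

theorem continuous {φ : ℂ → ℂ} (h : Tst φ) : Continuous φ := h.smooth.continuous

theorem memLp {φ : ℂ → ℂ} (h : Tst φ) (p : ℝ≥0∞) : MemLp φ p (volume : Measure ℂ) :=
  h.continuous.memLp_of_hasCompactSupport h.supp

theorem integrable {φ : ℂ → ℂ} (h : Tst φ) : Integrable φ (volume : Measure ℂ) :=
  h.continuous.integrable_of_hasCompactSupport h.supp

theorem cj {φ : ℂ → ℂ} (h : Tst φ) : Tst (fun z => conj (φ z)) :=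
  ⟨(Complex.conjCLE.contDiff).comp h.smooth,
    h.supp.comp_left (g := fun w : ℂ => (starRingEnd ℂ) w) (map_zero _)⟩

theorem translate {φ : ℂ → ℂ} (h : Tst φ) (a : ℂ) : Tst (fun z => φ (z - a)) :=
  ⟨h.smooth.comp (contDiff_id.sub contDiff_const),
    h.supp.comp_homeomorph (Homeomorph.subRight a)⟩

theorem fderiv_apply {φ : ℂ → ℂ} (h : Tst φ) (v : ℂ) : Tst (fun z => fderiv ℝ φ z v) :=
  ⟨(h.smooth.fderiv_right (m := ∞) le_rfl).clm_apply contDiff_const,
    h.supp.fderiv_apply (𝕜 := ℝ) v⟩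

theorem mul_left {φ g : ℂ → ℂ} (h : Tst φ) (hg : ContDiff ℝ ∞ g) : Tst (fun z => g z * φ z) :=
  ⟨hg.mul h.smooth, h.supp.mul_left⟩

theorem mul_right {φ g : ℂ → ℂ} (h : Tst φ) (hg : ContDiff ℝ ∞ g) : Tst (fun z => φ z * g z) :=
  ⟨h.smooth.mul hg, h.supp.mul_right⟩

theorem add {φ g : ℂ → ℂ} (h : Tst φ) (hg : Tst g) : Tst (fun z => φ z + g z) :=
  ⟨h.smooth.add hg.smooth, h.supp.add hg.supp⟩

theorem sub {φ g : ℂ → ℂ} (h : Tst φ) (hg : Tst g) : Tst (fun z => φ z - g z) :=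
  ⟨h.smooth.sub hg.smooth, h.supp.sub hg.supp⟩

theorem const_mul {φ : ℂ → ℂ} (h : Tst φ) (c : ℂ) : Tst (fun z => c * φ z) :=
  h.mul_left contDiff_const

theorem zero : Tst (fun _ => (0 : ℂ)) := ⟨contDiff_const, HasCompactSupport.zero⟩

theorem of_real {φ : ℂ → ℝ} (h : ContDiff ℝ ∞ φ) (h' : HasCompactSupport φ) :
    Tst (fun z => (φ z : ℂ)) :=
  ⟨(Complex.ofRealCLM.contDiff).comp h, h'.comp_left (g := fun x : ℝ => (x : ℂ)) rfl⟩

end Tst

/-- an `L²` function times an `L²` function is integrable -/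
theorem int2 {f g : ℂ → ℂ} (hf : MemLp f 2 (volume : Measure ℂ))
    (hg : MemLp g 2 (volume : Measure ℂ)) : Integrable (fun z => f z * g z) :=
  hf.integrable_mul hg

theorem W.hd {u p q : ℂ → ℂ} (h : W u p q) (v : ℂ) : MemLp (dd p q v) 2 (volume : Measure ℂ) :=
  (h.hp.mul_const v).add (h.hq.mul_const (conj v))

theorem ae_zero_of_test {f : ℂ → ℂ} (hf : LocallyIntegrable f (volume : Measure ℂ))
    (h : ∀ φ, Tst φ → ∫ z, φ z * f z = 0) : f =ᵐ[volume] 0 := by
  refine ae_eq_zero_of_integral_contDiff_smul_eq_zero hf fun g hg hg' => ?_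
  have h1 := h _ (Tst.of_real hg hg')
  rw [← h1]
  exact integral_congr_ae (Eventually.of_forall fun z => by simp [Complex.real_smul])

theorem li_of_memLp {f : ℂ → ℂ} (hf : MemLp f 2 (volume : Measure ℂ)) :
    LocallyIntegrable f (volume : Measure ℂ) := hf.locallyIntegrable (by norm_num)

/-- the subspace of test functions in `L²` -/
def testSub : Submodule ℂ H where
  carrier := {x | ∃ φ : ℂ → ℂ, Tst φ ∧ x =ᵐ[volume] φ}
  add_mem' := by
    rintro x y ⟨φ, hφ, hx⟩ ⟨ψ, hψ, hy⟩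
    refine ⟨fun z => φ z + ψ z, hφ.add hψ, ?_⟩
    filter_upwards [Lp.coeFn_add x y, hx, hy] with z h1 h2 h3
    rw [h1, Pi.add_apply, h2, h3]
  zero_mem' := ⟨fun _ => 0, Tst.zero, Lp.coeFn_zero ℂ 2 volume⟩
  smul_mem' := by
    rintro c x ⟨φ, hφ, hx⟩
    refine ⟨fun z => c * φ z, hφ.const_mul c, ?_⟩
    filter_upwards [Lp.coeFn_smul c x, hx] with z h1 h2
    rw [h1, Pi.smul_apply, h2, smul_eq_mul]

theorem inner_eq (x y : H) : inner ℂ x y = ∫ z, conj (x z) * y z := by
  rw [L2.inner_def]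
  refine integral_congr_ae (Eventually.of_forall fun z => ?_)
  simp only [RCLike.inner_apply]
  exact mul_comm _ _

theorem inner_toLp {f g : ℂ → ℂ} (hf : MemLp f 2 (volume : Measure ℂ))
    (hg : MemLp g 2 (volume : Measure ℂ)) :
    inner ℂ (hf.toLp f) (hg.toLp g) = ∫ z, conj (f z) * g z := by
  rw [inner_eq]
  refine integral_congr_ae ?_
  filter_upwards [hf.coeFn_toLp, hg.coeFn_toLp] with z h1 h2
  rw [h1, h2]

theorem testSub_dense : Dense (testSub : Set H) := by
  have h1 : testSubᗮ = ⊥ := by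
    rw [Submodule.eq_bot_iff]
    intro x hx
    rw [Submodule.mem_orthogonal] at hx
    have h2 : (x : ℂ → ℂ) =ᵐ[volume] 0 := by
      refine ae_zero_of_test (li_of_memLp (Lp.memLp x)) fun φ hφ => ?_
      have h3 := hx ((hφ.cj.memLp 2).toLp _) ⟨_, hφ.cj, (hφ.cj.memLp 2).coeFn_toLp⟩
      rw [inner_eq] at h3
      rw [← h3]
      refine integral_congr_ae ?_
      filter_upwards [(hφ.cj.memLp 2).coeFn_toLp] with z hz
      rw [hz, Complex.conj_conj]
    exact (Lp.eq_zero_iff_ae_eq_zero).2 h2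
  have h2 := (Submodule.topologicalClosure_eq_top_iff (K := testSub)).2 h1
  rw [Submodule.dense_iff_topologicalClosure_eq_top]
  exact h2

/-- norm bound by duality -/
theorem norm_le_of_test {x : H} {C : ℝ} (h : ∀ φ (hφ : Tst φ),
    ‖∫ z, φ z * x z‖ ≤ C * ‖(hφ.memLp 2).toLp φ‖) : ‖x‖ ≤ C := by
  have h1 : ∀ y ∈ (testSub : Set H), ‖inner ℂ y x‖ ≤ C * ‖y‖ := by
    rintro y ⟨φ, hφ, hy⟩
    have h2 := h _ hφ.cj
    have e1 : ‖(hφ.cj.memLp 2).toLp _‖ = ‖y‖ := by
      rw [Lp.norm_toLp, Lp.norm_def]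
      congr 1
      refine eLpNorm_congr_norm_ae ?_
      filter_upwards [hy] with z hz
      rw [hz, RCLike.norm_conj]
    have e2 : ∫ z, conj (φ z) * x z = inner ℂ y x := by
      rw [inner_eq]
      refine integral_congr_ae ?_
      filter_upwards [hy] with z hz
      rw [hz]
    rw [e1, e2] at h2
    exact h2
  have h3 : ∀ y : H, ‖inner ℂ y x‖ ≤ C * ‖y‖ := by
    intro y
    have h4 : IsClosed {y : H | ‖inner ℂ y x‖ ≤ C * ‖y‖} :=
      isClosed_le (by fun_prop) (by fun_prop)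
    have h5 := h4.closure_subset_iff.2 h1
    rw [testSub_dense.closure_eq] at h5
    exact h5 (mem_univ y)
  have h4 := h3 x
  rw [inner_self_eq_norm_sq_to_K] at h4
  by_cases h0 : ‖x‖ = 0
  · rw [h0]
    by_contra hC
    push Not at hC
    have hx : x = 0 := norm_eq_zero.1 h0
    -- C < 0 : contradiction using a nonzero test function
    obtain ⟨φ, hφ, hφ0⟩ : ∃ φ : ℂ → ℂ, Tst φ ∧ φ 0 = 1 := by
      let b : ContDiffBump (0 : ℂ) := ⟨1, 2, one_pos, one_lt_two⟩
      refine ⟨fun z => (b z : ℂ), Tst.of_real b.contDiff b.hasCompactSupport, ?_⟩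
      have : b 0 = 1 := b.one_of_mem_closedBall (by simp [b])
      simp only [this]; simp
    have h5 := h φ hφ
    have h6 : 0 < ‖(hφ.memLp 2).toLp φ‖ := by
      rw [norm_pos_iff]
      intro h7
      have h8 : φ =ᵐ[volume] 0 := (hφ.memLp 2).coeFn_toLp.symm.trans
        ((Lp.eq_zero_iff_ae_eq_zero).1 h7)
      have h9 := (hφ.continuous.ae_eq_iff_eq volume continuous_const).1 h8
      have : φ 0 = 0 := congrFun h9 0
      rw [hφ0] at this
      exact one_ne_zero this
    have h7 := (norm_nonneg _).trans h5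
    nlinarith
  · have hpos : 0 < ‖x‖ := lt_of_le_of_ne (norm_nonneg _) (Ne.symm h0)
    have : ‖((‖x‖ : ℝ) : ℂ) ^ 2‖ = ‖x‖ * ‖x‖ := by
      rw [norm_pow, Complex.norm_real, norm_norm, sq]
    have h6 : ‖x‖ * ‖x‖ ≤ C * ‖x‖ := by
      rw [← this]; exact h4
    exact le_of_mul_le_mul_right h6 hpos

theorem eq_of_test {x y : H} (h : ∀ φ, Tst φ → ∫ z, φ z * x z = ∫ z, φ z * y z) : x = y := by
  have h1 : ‖x - y‖ ≤ 0 := by
    refine norm_le_of_test fun φ hφ => ?_
    have : ∫ z, φ z * (x - y : H) z = 0 := by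
      have h2 : ∫ z, φ z * (x - y : H) z = ∫ z, (φ z * x z - φ z * y z) := by
        refine integral_congr_ae ?_
        filter_upwards [Lp.coeFn_sub x y] with z hz
        rw [hz, Pi.sub_apply, mul_sub]
      rw [h2, integral_sub (int2 (hφ.memLp 2) (Lp.memLp x)) (int2 (hφ.memLp 2) (Lp.memLp y)),
        h φ hφ, sub_self]
    rw [this]; simp
  exact sub_eq_zero.1 (norm_le_zero_iff.1 h1)

/-- translations of `L²` -/
noncomputable def τ (a : ℂ) : H →ₗᵢ[ℂ] H :=
  Lp.compMeasurePreservingₗᵢ ℂ (fun z => z + a) (measurePreserving_add_right volume a)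

theorem τ_coe (a : ℂ) (x : H) : τ a x =ᵐ[volume] fun z => x (z + a) :=
  Lp.coeFn_compMeasurePreserving x (measurePreserving_add_right volume a)

theorem memLp_tr {f : ℂ → ℂ} (hf : MemLp f 2 (volume : Measure ℂ)) (a : ℂ) :
    MemLp (fun z => f (z + a)) 2 (volume : Measure ℂ) :=
  hf.comp_measurePreserving (measurePreserving_add_right volume a)

theorem τ_toLp {f : ℂ → ℂ} (hf : MemLp f 2 (volume : Measure ℂ)) (a : ℂ) :
    τ a (hf.toLp f) = (memLp_tr hf a).toLp _ := rfl

theorem norm_τ (a : ℂ) (x : H) : ‖τ a x‖ = ‖x‖ := (τ a).norm_map x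

theorem τ_cont (x : H) : Continuous fun a => τ a x := by
  have h1 : Continuous fun a : ℂ => (⟨fun z => z + a, by fun_prop⟩ : C(ℂ, ℂ)) := by
    have : Continuous fun p : ℂ × ℂ => p.2 + p.1 := by fun_prop
    exact (ContinuousMap.curry ⟨_, this⟩).continuous
  exact (continuous_const (y := x)).compMeasurePreservingLp h1
    (fun a => measurePreserving_add_right volume a) (by norm_num)

end Vale.Agent.P247.H832.R1
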