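import Vale.Agent.P247.H832.R1A

/-!
# Interior regularity of quasilinear Beltrami systems (R1), part B

Difference quotients of `W^{1,2}` functions, and the identity `∫|p|² = ∫|q|²`.
-/

namespace Vale.Agent.P247.H832.R1

open MeasureTheory Set Filter Topology
open scoped ContDiff ComplexConjugate ENNReal

/-- pairing with a test function as a continuous functional on `L²` -/
noncomputable def pair {φ : ℂ → ℂ} (hφ : Tst φ) : H →L[ℂ] ℂ :=
  innerSL ℂ ((hφ.cj.memLp 2).toLp _)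

theorem pair_apply {φ : ℂ → ℂ} (hφ : Tst φ) (x : H) : pair hφ x = ∫ z, φ z * x z := by
  rw [pair, innerSL_apply_apply, inner_eq]
  refine integral_congr_ae ?_
  filter_upwards [(hφ.cj.memLp 2).coeFn_toLp] with z hz
  rw [hz, Complex.conj_conj]

theorem pair_toLp {φ : ℂ → ℂ} (hφ : Tst φ) {f : ℂ → ℂ} (hf : MemLp f 2 (volume : Measure ℂ)) :
    pair hφ (hf.toLp f) = ∫ z, φ z * f z := by
  rw [pair_apply]
  refine integral_congr_ae ?_
  filter_upwards [hf.coeFn_toLp] with z hz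
  rw [hz]

theorem fderiv_tr {φ : ℂ → ℂ} (hφ : Tst φ) (a z v : ℂ) :
    fderiv ℝ (fun w => φ (w - a)) z v = fderiv ℝ φ (z - a) v := by
  have h1 : HasFDerivAt (fun w : ℂ => φ (w - a)) (fderiv ℝ φ (z - a)) z := by
    have h2 := (hφ.smooth.differentiable (by simp) (z - a)).hasFDerivAt
    have h3 : HasFDerivAt (fun w : ℂ => w - a) (ContinuousLinearMap.id ℝ ℂ) z :=
      (hasFDerivAt_id z).sub_const a
    have h4 := h2.comp z h3
    rw [ContinuousLinearMap.comp_id] at h4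
    exact h4
  rw [h1.fderiv]

/-- the translated pairing is differentiable -/
theorem pair_hasDeriv {u p q : ℂ → ℂ} (h : W u p q) {φ : ℂ → ℂ} (hφ : Tst φ) (v : ℂ) (s₀ : ℝ) :
    HasDerivAt (fun s : ℝ => ∫ z, φ (z - s * v) * u z)
      (∫ z, φ (z - s₀ * v) * dd p q v z) s₀ := by
  obtain ⟨R, hR⟩ := hφ.supp.isBounded.subset_closedBall (0 : ℂ)
  have hφ' := hφ.fderiv_apply v
  obtain ⟨C, hC⟩ := hφ'.supp.exists_bound_of_continuous hφ'.continuous
  set K : Set ℂ := Metric.closedBall 0 (R + (|s₀| + 1) * ‖v‖) with hK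
  have huK : IntegrableOn u K volume :=
    (li_of_memLp h.hu).integrableOn_isCompact (isCompact_closedBall _ _)
  have hsub : ∀ z s, |s - s₀| < 1 → z ∉ K → fderiv ℝ φ (z - (s : ℝ) * v) v = 0 := by
    intro z s hs hz
    have h1 : z - (s : ℝ) * v ∉ tsupport φ := by
      intro h2
      apply hz
      have h3 := hR h2
      rw [mem_closedBall_zero_iff] at h3 ⊢
      have h4 : ‖z‖ ≤ ‖z - (s : ℝ) * v‖ + ‖(s : ℝ) * v‖ := by
        calc ‖z‖ = ‖(z - (s : ℝ) * v) + (s : ℝ) * v‖ := by congr 1; ring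
          _ ≤ _ := norm_add_le _ _
      have h5 : ‖((s : ℝ) : ℂ) * v‖ ≤ (|s₀| + 1) * ‖v‖ := by
        rw [norm_mul, Complex.norm_real, Real.norm_eq_abs]
        refine mul_le_mul_of_nonneg_right ?_ (norm_nonneg _)
        have := abs_sub_abs_le_abs_sub s s₀
        linarith
      linarith
    have h2 : z - (s : ℝ) * v ∉ tsupport (fderiv ℝ φ) := fun h3 =>
      h1 (tsupport_fderiv_subset (𝕜 := ℝ) h3)
    rw [image_eq_zero_of_notMem_tsupport h2]
    rfl
  have key := hasDerivAt_integral_of_dominated_loc_of_deriv_le (μ := (volume : Measure ℂ))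
    (F := fun (s : ℝ) z => φ (z - s * v) * u z)
    (F' := fun (s : ℝ) z => -(fderiv ℝ φ (z - s * v) v) * u z)
    (x₀ := s₀) (s := Metric.ball s₀ 1) (bound := fun z => K.indicator (fun z => C * ‖u z‖) z)
    (Metric.ball_mem_nhds _ one_pos) ?_ ?_ ?_ ?_ ?_ ?_
  · have e : ∫ z, -(fderiv ℝ φ (z - s₀ * v) v) * u z = ∫ z, φ (z - s₀ * v) * dd p q v z := by
      have h1 := h.eq _ (hφ.translate (s₀ * v)) v
      simp only [fderiv_tr hφ] at h1
      simp only [neg_mul]
      rw [integral_neg, h1, neg_neg]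
    rw [← e]
    exact key.2
  · exact Eventually.of_forall fun s =>
      (int2 ((hφ.translate (s * v)).memLp 2) h.hu).aestronglyMeasurable
  · exact int2 ((hφ.translate (s₀ * v)).memLp 2) h.hu
  · have h1 : Integrable (fun z => fderiv ℝ φ (z - s₀ * v) v * u z) :=
      int2 ((hφ'.translate (s₀ * v)).memLp 2) h.hu
    have := h1.neg.aestronglyMeasurable
    refine this.congr (Eventually.of_forall fun z => ?_)
    simp only [Pi.neg_apply]
    ring
  · refine Eventually.of_forall fun z s hs => ?_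
    rw [Metric.mem_ball, Real.dist_eq] at hs
    by_cases hz : z ∈ K
    · rw [indicator_of_mem hz, norm_mul, norm_neg]
      exact mul_le_mul_of_nonneg_right (hC _) (norm_nonneg _)
    · rw [indicator_of_notMem hz, hsub z s hs hz]
      simp
  · rw [integrable_indicator_iff (isCompact_closedBall _ _).measurableSet]
    exact huK.norm.const_mul C
  · refine Eventually.of_forall fun z s hs => ?_
    have h1 : HasDerivAt (fun s : ℝ => z - (s : ℂ) * v) (-v) s := by
      have h2 : HasDerivAt (fun s : ℝ => (s : ℂ) * v) v s := by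
        simpa using (Complex.ofRealCLM.hasDerivAt (x := s)).mul_const v
      simpa using h2.const_sub z
    have h2 := (hφ.smooth.differentiable (by simp) (z - (s : ℂ) * v)).hasFDerivAt
    have h3 := h2.comp_hasDerivAt s h1
    have h4 := h3.mul_const (u z)
    have e : (fderiv ℝ φ (z - (s : ℂ) * v)) (-v) * u z =
        -(fderiv ℝ φ (z - (s : ℂ) * v) v) * u z := by
      rw [map_neg]
    rw [e] at h4
    exact h4

theorem pair_τ {φ : ℂ → ℂ} (hφ : Tst φ) {f : ℂ → ℂ} (hf : MemLp f 2 (volume : Measure ℂ)) (a : ℂ) :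
    pair hφ (τ a (hf.toLp f)) = ∫ z, φ (z - a) * f z := by
  rw [τ_toLp, pair_toLp]
  rw [← integral_add_right_eq_self (μ := (volume : Measure ℂ)) (fun z => φ (z - a) * f z) a]
  simp

/-- difference quotient formula in `L²` -/
theorem W.dq {u p q : ℂ → ℂ} (h : W u p q) (v : ℂ) :
    τ v (h.hu.toLp u) - h.hu.toLp u =
      ∫ s in (0 : ℝ)..1, τ ((s : ℂ) * v) ((h.hd v).toLp _) := by
  have hc : Continuous fun s : ℝ => τ ((s : ℂ) * v) ((h.hd v).toLp (dd p q v)) :=
    (τ_cont _).comp (by fun_prop)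
  refine eq_of_test fun φ hφ => ?_
  rw [← pair_apply hφ, ← pair_apply hφ]
  rw [← ContinuousLinearMap.intervalIntegral_comp_comm _ (hc.intervalIntegrable _ _), map_sub]
  have h1 : ∀ s ∈ uIcc (0 : ℝ) 1, HasDerivAt (fun s : ℝ => ∫ z, φ (z - s * v) * u z)
      (pair hφ (τ ((s : ℂ) * v) ((h.hd v).toLp (dd p q v)))) s := by
    intro s _
    rw [pair_τ]
    exact pair_hasDeriv h hφ v s
  rw [intervalIntegral.integral_eq_sub_of_hasDerivAt h1
    (((pair hφ).continuous.comp hc).intervalIntegrable _ _)]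
  rw [pair_τ, pair_toLp]
  simp

theorem W.dq_norm {u p q : ℂ → ℂ} (h : W u p q) (v : ℂ) :
    ‖τ v (h.hu.toLp u) - h.hu.toLp u‖ ≤ ‖(h.hd v).toLp (dd p q v)‖ := by
  rw [h.dq v]
  refine (intervalIntegral.norm_integral_le_of_norm_le_const
    (C := ‖(h.hd v).toLp (dd p q v)‖) fun s _ => ?_).trans (by simp)
  rw [norm_τ]

theorem dd_smul (p q : ℂ → ℂ) (t : ℝ) (v z : ℂ) : dd p q ((t : ℂ) * v) z = (t : ℂ) * dd p q v z := by
  simp only [dd, map_mul, Complex.conj_ofReal]
  ring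

/-- difference quotients converge in `L²` -/
theorem W.dq_tendsto {u p q : ℂ → ℂ} (h : W u p q) (v : ℂ) :
    Tendsto (fun t : ℝ => ((t : ℂ)⁻¹) • (τ ((t : ℂ) * v) (h.hu.toLp u) - h.hu.toLp u))
      (𝓝[≠] 0) (𝓝 ((h.hd v).toLp (dd p q v))) := by
  set D : H := (h.hd v).toLp (dd p q v) with hD
  have h1 : ∀ t : ℝ, t ≠ 0 → ((t : ℂ)⁻¹) • (τ ((t : ℂ) * v) (h.hu.toLp u) - h.hu.toLp u) =
      ∫ s in (0 : ℝ)..1, τ ((s : ℂ) * ((t : ℂ) * v)) D := by
    intro t ht
    rw [h.dq]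
    have e : (h.hd ((t : ℂ) * v)).toLp (dd p q ((t : ℂ) * v)) = (t : ℂ) • D := by
      rw [hD, ← MemLp.toLp_const_smul]
      congr 1
      funext z
      rw [Pi.smul_apply, smul_eq_mul, dd_smul]
    rw [e]
    simp only [map_smul]
    rw [intervalIntegral.integral_smul, smul_smul, inv_mul_cancel₀ (by exact_mod_cast ht), one_smul]
  have h2 : Tendsto (fun t : ℝ => ∫ s in (0 : ℝ)..1, τ ((s : ℂ) * ((t : ℂ) * v)) D) (𝓝 0)
      (𝓝 (∫ s in (0 : ℝ)..1, τ ((s : ℂ) * (((0 : ℝ) : ℂ) * v)) D)) := by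
    refine Continuous.tendsto ?_ 0
    refine intervalIntegral.continuous_parametric_intervalIntegral_of_continuous' ?_ 0 1
    exact (τ_cont D).comp (by fun_prop)
  have h3 : ∫ s in (0 : ℝ)..1, τ ((s : ℂ) * (((0 : ℝ) : ℂ) * v)) D = D := by
    have : τ 0 D = D := by
      refine Lp.ext ?_
      filter_upwards [τ_coe 0 D] with z hz
      rw [hz, add_zero]
    simp [this]
  rw [h3] at h2
  refine (h2.mono_left nhdsWithin_le_nhds).congr' ?_
  filter_upwards [self_mem_nhdsWithin] with t ht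
  exact (h1 t ht).symm

theorem τ_add (a b : ℂ) (x : H) : τ a (τ b x) = τ (a + b) x := by
  refine Lp.ext ?_
  have h2 : ∀ᵐ z, (τ b x) (z + a) = x (z + a + b) :=
    (measurePreserving_add_right volume a).quasiMeasurePreserving.ae (τ_coe b x)
  filter_upwards [τ_coe a (τ b x), h2, τ_coe (a + b) x] with z h3 h4 h5
  rw [h3, h4, h5, add_assoc]

theorem τ_zero (x : H) : τ 0 x = x := by
  refine Lp.ext ?_
  filter_upwards [τ_coe 0 x] with z hz
  rw [hz, add_zero]

theorem inner_ττ (a b : ℂ) (x : H) : inner ℂ (τ a x) (τ b x) = inner ℂ (τ (a - b) x) x := by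
  have h1 : τ a x = τ b (τ (a - b) x) := by rw [τ_add]; congr 1; ring
  rw [h1, (τ b).inner_map_map]

theorem auto_symm (a : ℂ) (x : H) : inner ℂ (τ (-a) x) x = conj (inner ℂ (τ a x) x) := by
  rw [inner_conj_symm, ← (τ a).inner_map_map, τ_add, add_neg_cancel, τ_zero]

theorem quot_antisymm (x : H) (t : ℝ) :
    (inner ℂ ((((-t : ℝ) : ℂ)⁻¹) • (τ ((-t : ℝ) : ℂ) x - x))
      (Complex.I • ((((-t : ℝ) : ℂ)⁻¹) • (τ (((-t : ℝ) : ℂ) * Complex.I) x - x)))).re =
    -(inner ℂ (((t : ℂ)⁻¹) • (τ (t : ℂ) x - x))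
      (Complex.I • (((t : ℂ)⁻¹) • (τ ((t : ℂ) * Complex.I) x - x)))).re := by
  have key : ∀ t : ℝ, (inner ℂ (((t : ℂ)⁻¹) • (τ (t : ℂ) x - x))
      (Complex.I • (((t : ℂ)⁻¹) • (τ ((t : ℂ) * Complex.I) x - x)))) =
      ((t⁻¹ ^ 2 : ℝ) : ℂ) * (Complex.I * (inner ℂ (τ ((t : ℂ) - t * Complex.I) x) x -
        inner ℂ (τ (t : ℂ) x) x - inner ℂ (τ (-(t * Complex.I)) x) x + inner ℂ x x)) := by
    intro t
    have e1 : inner ℂ x (τ ((t : ℂ) * Complex.I) x) = inner ℂ (τ (-(t * Complex.I)) x) x := by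
      have := inner_ττ 0 ((t : ℂ) * Complex.I) x
      rwa [τ_zero, zero_sub] at this
    rw [inner_smul_left, inner_smul_right, inner_smul_right, inner_sub_left, inner_sub_right,
      inner_sub_right, inner_ττ, e1, map_inv₀, Complex.conj_ofReal]
    push_cast
    ring
  rw [key, key]
  have e2 : inner ℂ (τ (((-t : ℝ) : ℂ) - ((-t : ℝ) : ℂ) * Complex.I) x) x =
      conj (inner ℂ (τ ((t : ℂ) - t * Complex.I) x) x) := by
    rw [← auto_symm]
    congr 3
    push_cast
    ring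
  have e3 : inner ℂ (τ ((-t : ℝ) : ℂ) x) x = conj (inner ℂ (τ (t : ℂ) x) x) := by
    rw [← auto_symm]
    congr 3
    push_cast
    ring
  have e4 : inner ℂ (τ (-(((-t : ℝ) : ℂ) * Complex.I)) x) x =
      conj (inner ℂ (τ (-(t * Complex.I)) x) x) := by
    rw [← auto_symm]
    congr 3
    push_cast
    ring
  have e5 : (inner ℂ x x : ℂ) = conj (inner ℂ x x) := (inner_conj_symm x x).symm
  rw [e2, e3, e4]
  have e6 : (inner ℂ x x : ℂ).im = 0 := by
    have := congrArg Complex.im e5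
    rw [Complex.conj_im] at this
    linarith
  have e7 : ((-t)⁻¹ ^ 2 : ℝ) = t⁻¹ ^ 2 := by rw [inv_neg]; ring
  rw [e7]
  simp only [Complex.mul_re, Complex.ofReal_re, Complex.ofReal_im, Complex.I_re, Complex.I_im,
    Complex.add_im, Complex.sub_im, Complex.conj_im, e6]
  ring

/-- the fundamental identity `∫|p|² = ∫|q|²` -/
theorem W.norm_eq {u p q : ℂ → ℂ} (h : W u p q) :
    ‖h.hp.toLp p‖ = ‖h.hq.toLp q‖ := by
  set U : H := h.hu.toLp u
  set P : H := h.hp.toLp p with hP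
  set Q : H := h.hq.toLp q with hQ
  set X : ℝ → H := fun t => ((t : ℂ)⁻¹) • (τ (t : ℂ) U - U) with hX
  set Y : ℝ → H := fun t => ((t : ℂ)⁻¹) • (τ ((t : ℂ) * Complex.I) U - U) with hY
  have h1 : Tendsto X (𝓝[≠] 0) (𝓝 (P + Q)) := by
    have := h.dq_tendsto 1
    simp only [mul_one] at this
    convert this using 2
    rw [hP, hQ, ← MemLp.toLp_add]
    congr 1
    funext z
    simp [dd]
  have h2 : Tendsto Y (𝓝[≠] 0) (𝓝 (Complex.I • (P - Q))) := by
    have := h.dq_tendsto Complex.I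
    convert this using 2
    rw [hP, hQ, ← MemLp.toLp_sub, ← MemLp.toLp_const_smul]
    congr 1
    funext z
    simp [dd]
    ring
  have h3 : Tendsto (fun t => (inner ℂ (X t) (Complex.I • Y t)).re) (𝓝[≠] 0)
      (𝓝 (inner ℂ (P + Q) (Complex.I • (Complex.I • (P - Q)))).re) :=
    (Complex.continuous_re.tendsto _).comp (h1.inner (h2.const_smul Complex.I))
  have h4 : Tendsto (fun t : ℝ => -t) (𝓝[≠] 0) (𝓝[≠] 0) := by
    refine tendsto_nhdsWithin_iff.2 ⟨?_, ?_⟩
    · have : Tendsto (fun t : ℝ => -t) (𝓝 0) (𝓝 (-0)) := (continuous_neg).tendsto 0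
      rw [neg_zero] at this
      exact this.mono_left nhdsWithin_le_nhds
    · filter_upwards [self_mem_nhdsWithin] with t ht
      simpa using ht
  have h5 := h3.comp h4
  have h6 : ((fun t => (inner ℂ (X t) (Complex.I • Y t)).re) ∘ fun t : ℝ => -t) =
      fun t => -(inner ℂ (X t) (Complex.I • Y t)).re := by
    funext t
    exact quot_antisymm U t
  rw [h6] at h5
  have h7 := tendsto_nhds_unique h5 h3.neg
  have h8 : (inner ℂ (P + Q) (Complex.I • (Complex.I • (P - Q)))).re = 0 := by linarith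
  have h9 : (inner ℂ (P + Q) (Complex.I • (Complex.I • (P - Q)))).re = ‖Q‖ ^ 2 - ‖P‖ ^ 2 := by
    rw [smul_smul, Complex.I_mul_I, inner_smul_right, inner_add_left, inner_sub_right,
      inner_sub_right]
    have a1 : (inner ℂ P P : ℂ).re = ‖P‖ ^ 2 := by
      rw [inner_self_eq_norm_sq_to_K]; norm_cast
    have a2 : (inner ℂ Q Q : ℂ).re = ‖Q‖ ^ 2 := by
      rw [inner_self_eq_norm_sq_to_K]; norm_cast
    have a3 : (inner ℂ Q P : ℂ).re = (inner ℂ P Q : ℂ).re := by
      rw [← inner_conj_symm, Complex.conj_re]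
    simp only [neg_mul, one_mul, Complex.neg_re, Complex.add_re, Complex.sub_re, a1, a2, a3]
    ring
  rw [h9] at h8
  have h10 : ‖P‖ ^ 2 = ‖Q‖ ^ 2 := by linarith
  exact (sq_eq_sq₀ (norm_nonneg _) (norm_nonneg _)).1 h10

end Vale.Agent.P247.H832.R1
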