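import Vale.Agent.P247.H832.R1B

/-!
# Interior regularity of quasilinear Beltrami systems (R1), part C

Products of `W^{1,2}` functions, weak derivatives from bounded difference quotients, the linear
`L²` estimate and the small oscillation weight inequality.
-/

namespace Vale.Agent.P247.H832.R1

open MeasureTheory Set Filter Topology
open scoped ContDiff ComplexConjugate ENNReal

/-- the `L²` norm of a function -/
noncomputable def nn (f : ℂ → ℂ) : ℝ := (eLpNorm f 2 (volume : Measure ℂ)).toReal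

theorem nn_nonneg (f : ℂ → ℂ) : 0 ≤ nn f := ENNReal.toReal_nonneg

theorem norm_toLp {f : ℂ → ℂ} (hf : MemLp f 2 (volume : Measure ℂ)) : ‖hf.toLp f‖ = nn f :=
  Lp.norm_toLp f hf

theorem nn_le {f g : ℂ → ℂ} {c : ℝ} (hc : 0 ≤ c) (hg : MemLp g 2 (volume : Measure ℂ))
    (h : ∀ᵐ z, ‖f z‖ ≤ c * ‖g z‖) : nn f ≤ c * nn g := by
  have h1 := eLpNorm_le_mul_eLpNorm_of_ae_le_mul (μ := (volume : Measure ℂ)) h 2
  have h2 : nn f ≤ (ENNReal.ofReal c * eLpNorm g 2 (volume : Measure ℂ)).toReal :=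
    ENNReal.toReal_mono (ENNReal.mul_ne_top ENNReal.ofReal_ne_top hg.2.ne) h1
  rw [ENNReal.toReal_mul, ENNReal.toReal_ofReal hc] at h2
  exact h2

theorem nn_mono {f g : ℂ → ℂ} (hg : MemLp g 2 (volume : Measure ℂ))
    (h : ∀ᵐ z, ‖f z‖ ≤ ‖g z‖) : nn f ≤ nn g := by
  have := nn_le (c := 1) zero_le_one hg (by simpa using h)
  simpa using this

theorem nn_congr {f g : ℂ → ℂ} (h : f =ᵐ[volume] g) : nn f = nn g := by
  rw [nn, nn, eLpNorm_congr_ae h]

theorem nn_add {f g : ℂ → ℂ} (hf : MemLp f 2 (volume : Measure ℂ))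
    (hg : MemLp g 2 (volume : Measure ℂ)) : nn (fun z => f z + g z) ≤ nn f + nn g := by
  rw [nn, nn, nn, ← ENNReal.toReal_add hf.2.ne hg.2.ne]
  refine ENNReal.toReal_mono (ENNReal.add_ne_top.2 ⟨hf.2.ne, hg.2.ne⟩) ?_
  exact eLpNorm_add_le hf.1 hg.1 (by norm_num)

theorem nn_const_mul (c : ℂ) (f : ℂ → ℂ) : nn (fun z => c * f z) = ‖c‖ * nn f := by
  have : (fun z => c * f z) = c • f := rfl
  rw [nn, nn, this, eLpNorm_const_smul, ENNReal.toReal_mul]
  simp

theorem nn_tr {f : ℂ → ℂ} (hf : MemLp f 2 (volume : Measure ℂ)) (a : ℂ) :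
    nn (fun z => f (z + a)) = nn f := by
  rw [← norm_toLp (memLp_tr hf a), ← norm_toLp hf, ← τ_toLp, norm_τ]

theorem nn_tri {f g h : ℂ → ℂ} (hg : MemLp g 2 (volume : Measure ℂ))
    (hh : MemLp h 2 (volume : Measure ℂ)) (H : ∀ᵐ z, ‖f z‖ ≤ ‖g z‖ + ‖h z‖) :
    nn f ≤ nn g + nn h := by
  have h1 : MemLp (fun z => (‖g z‖ : ℂ)) 2 (volume : Measure ℂ) := by
    refine hg.norm.ofReal
  have h2 : MemLp (fun z => (‖h z‖ : ℂ)) 2 (volume : Measure ℂ) := hh.norm.ofReal
  have h3 : nn f ≤ nn (fun z => (‖g z‖ : ℂ) + (‖h z‖ : ℂ)) := by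
    refine nn_mono (h1.add h2) ?_
    filter_upwards [H] with z hz
    rw [← Complex.ofReal_add, Complex.norm_real, Real.norm_eq_abs,
      abs_of_nonneg (add_nonneg (norm_nonneg _) (norm_nonneg _))]
    exact hz
  have h4 := nn_add h1 h2
  have e1 : nn (fun z => (‖g z‖ : ℂ)) = nn g := by
    rw [nn, nn]
    congr 1
    refine eLpNorm_congr_norm_ae (Eventually.of_forall fun z => ?_)
    simp
  have e2 : nn (fun z => (‖h z‖ : ℂ)) = nn h := by
    rw [nn, nn]
    congr 1
    refine eLpNorm_congr_norm_ae (Eventually.of_forall fun z => ?_)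
    simp
  rw [e1, e2] at h4
  exact h3.trans h4

/-- Cauchy-Schwarz for the bilinear pairing -/
theorem cs (x y : H) : ‖∫ z, x z * y z‖ ≤ ‖x‖ * ‖y‖ := by
  have hx : MemLp (fun z => conj (x z)) 2 (volume : Measure ℂ) :=
    (Lp.memLp x).congr_norm (Complex.continuous_conj.comp_aestronglyMeasurable
      (Lp.memLp x).aestronglyMeasurable) (Eventually.of_forall fun z => by simp)
  have h1 : ∫ z, x z * y z = inner ℂ (hx.toLp _) y := by
    rw [inner_eq]
    refine integral_congr_ae ?_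
    filter_upwards [hx.coeFn_toLp] with z hz
    rw [hz, Complex.conj_conj]
  have h2 : ‖hx.toLp _‖ = ‖x‖ := by
    rw [Lp.norm_toLp, Lp.norm_def]
    congr 1
    refine eLpNorm_congr_norm_ae (Eventually.of_forall fun z => ?_)
    simp
  rw [h1, ← h2]
  exact norm_inner_le_norm _ _

theorem cs' {f g : ℂ → ℂ} (hf : MemLp f 2 (volume : Measure ℂ))
    (hg : MemLp g 2 (volume : Measure ℂ)) : ‖∫ z, f z * g z‖ ≤ nn f * nn g := by
  have := cs (hf.toLp f) (hg.toLp g)
  rw [norm_toLp, norm_toLp] at this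
  convert this using 2
  refine integral_congr_ae ?_
  filter_upwards [hf.coeFn_toLp, hg.coeFn_toLp] with z h1 h2
  rw [h1, h2]

theorem tendsto_bil {α : Type*} {l : Filter α} {x y : α → H} {a b : H}
    (hx : Tendsto x l (𝓝 a)) (hy : Tendsto y l (𝓝 b)) :
    Tendsto (fun t => ∫ z, (x t) z * (y t) z) l (𝓝 (∫ z, a z * b z)) := by
  rw [tendsto_iff_norm_sub_tendsto_zero]
  have h1 : ∀ t, ‖(∫ z, (x t) z * (y t) z) - (∫ z, a z * b z)‖ ≤
      ‖x t - a‖ * ‖y t‖ + ‖a‖ * ‖y t - b‖ := by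
    intro t
    have e : (∫ z, (x t) z * (y t) z) - (∫ z, a z * b z) =
        (∫ z, (x t - a : H) z * (y t) z) + (∫ z, a z * (y t - b : H) z) := by
      rw [← integral_sub (int2 (Lp.memLp _) (Lp.memLp _)) (int2 (Lp.memLp _) (Lp.memLp _)),
        ← integral_add (int2 (Lp.memLp _) (Lp.memLp _)) (int2 (Lp.memLp _) (Lp.memLp _))]
      refine integral_congr_ae ?_
      filter_upwards [Lp.coeFn_sub (x t) a, Lp.coeFn_sub (y t) b] with z h1 h2
      rw [h1, h2, Pi.sub_apply, Pi.sub_apply]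
      ring
    rw [e]
    exact (norm_add_le _ _).trans (add_le_add (cs _ _) (cs _ _))
  have h2 : Tendsto (fun t => ‖x t - a‖ * ‖y t‖ + ‖a‖ * ‖y t - b‖) l (𝓝 (0 * ‖b‖ + ‖a‖ * 0)) := by
    refine Tendsto.add (Tendsto.mul ?_ hy.norm) (Tendsto.mul tendsto_const_nhds ?_)
    · exact (tendsto_iff_norm_sub_tendsto_zero.1 hx)
    · exact (tendsto_iff_norm_sub_tendsto_zero.1 hy)
  rw [zero_mul, mul_zero, add_zero] at h2
  exact squeeze_zero (fun t => norm_nonneg _) h1 h2

theorem memLp_bdd {b : ℂ → ℂ} (hb : AEStronglyMeasurable b (volume : Measure ℂ)) {C : ℝ}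
    (hC : ∀ z, ‖b z‖ ≤ C) {x : ℂ → ℂ} (hx : MemLp x 2 (volume : Measure ℂ)) :
    MemLp (fun z => b z * x z) 2 (volume : Measure ℂ) :=
  MemLp.of_le_mul hx (hb.mul hx.1) (Eventually.of_forall fun z => by
    rw [norm_mul]; exact mul_le_mul_of_nonneg_right (hC z) (norm_nonneg _))

/-- multiplication by a bounded function on `L²` -/
noncomputable def mulB (b : ℂ → ℂ) (hb : AEStronglyMeasurable b (volume : Measure ℂ)) (C : ℝ)
    (hC : ∀ z, ‖b z‖ ≤ C) : H →L[ℂ] H :=
  LinearMap.mkContinuous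
    { toFun := fun x => MemLp.toLp (fun z => b z * x z) (memLp_bdd hb hC (Lp.memLp x))
      map_add' := fun x y => by
        rw [← MemLp.toLp_add]
        refine Lp.ext ?_
        refine (MemLp.coeFn_toLp _).trans (EventuallyEq.trans ?_ (MemLp.coeFn_toLp _).symm)
        filter_upwards [Lp.coeFn_add x y] with z hz
        rw [hz, Pi.add_apply, Pi.add_apply, mul_add]
      map_smul' := fun c x => by
        rw [RingHom.id_apply, ← MemLp.toLp_const_smul]
        refine Lp.ext ?_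
        refine (MemLp.coeFn_toLp _).trans (EventuallyEq.trans ?_ (MemLp.coeFn_toLp _).symm)
        filter_upwards [Lp.coeFn_smul c x] with z hz
        rw [hz, Pi.smul_apply, Pi.smul_apply, smul_eq_mul, smul_eq_mul]
        ring } C (fun x => by
      have h := nn_le (f := fun z => b z * x z) (c := C) ((norm_nonneg _).trans (hC 0)) (Lp.memLp x)
        (Eventually.of_forall fun z => by
          rw [norm_mul]; exact mul_le_mul_of_nonneg_right (hC z) (norm_nonneg _))
      simp only [LinearMap.coe_mk, AddHom.coe_mk, norm_toLp]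
      exact h)

theorem mulB_coe (b : ℂ → ℂ) (hb : AEStronglyMeasurable b (volume : Measure ℂ)) (C : ℝ)
    (hC : ∀ z, ‖b z‖ ≤ C) (x : H) : mulB b hb C hC x =ᵐ[volume] fun z => b z * x z :=
  MemLp.coeFn_toLp (memLp_bdd hb hC (Lp.memLp x))

theorem Tst.bdd {φ : ℂ → ℂ} (h : Tst φ) : ∃ C, ∀ z, ‖φ z‖ ≤ C :=
  h.supp.exists_bound_of_continuous h.continuous

/-- complex derivatives of a real differentiable function -/
noncomputable def dz (f : ℂ → ℂ) (z : ℂ) : ℂ :=
  (fderiv ℝ f z 1 - Complex.I * fderiv ℝ f z Complex.I) / 2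

/-- complex derivatives of a real differentiable function -/
noncomputable def dzb (f : ℂ → ℂ) (z : ℂ) : ℂ :=
  (fderiv ℝ f z 1 + Complex.I * fderiv ℝ f z Complex.I) / 2

theorem dd_dz (f : ℂ → ℂ) (v z : ℂ) : dd (dz f) (dzb f) v z = fderiv ℝ f z v := by
  have e : v = v.re • (1 : ℂ) + v.im • Complex.I := by
    rw [Complex.real_smul, Complex.real_smul, mul_one, Complex.re_add_im]
  have e2 : fderiv ℝ f z v = v.re * fderiv ℝ f z 1 + v.im * fderiv ℝ f z Complex.I := by
    conv_lhs => rw [e]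
    rw [map_add, map_smul, map_smul, Complex.real_smul, Complex.real_smul]
  rw [e2, dd, dz, dzb]
  have e3 : conj v = v.re - v.im * Complex.I := by
    apply Complex.ext <;> simp
  have e4 : v = v.re + v.im * Complex.I := (Complex.re_add_im v).symm
  rw [e3]
  conv_lhs => rw [e4]
  simp only [Complex.add_re, Complex.ofReal_re, Complex.mul_re, Complex.I_re, mul_zero,
    Complex.ofReal_im, Complex.I_im, mul_one, sub_self, add_zero, Complex.add_im, Complex.mul_im,
    zero_add]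
  linear_combination (fderiv ℝ f z Complex.I * v.im / 2 * (-2)) * Complex.I_sq

theorem Tst.dz {φ : ℂ → ℂ} (h : Tst φ) : Tst (dz φ) := by
  have h1 := ((h.fderiv_apply 1).sub ((h.fderiv_apply Complex.I).const_mul Complex.I)).const_mul
    (1 / 2)
  convert h1 using 1
  funext z
  rw [R1.dz]
  ring

theorem Tst.dzb {φ : ℂ → ℂ} (h : Tst φ) : Tst (dzb φ) := by
  have h1 := ((h.fderiv_apply 1).add ((h.fderiv_apply Complex.I).const_mul Complex.I)).const_mul
    (1 / 2)
  convert h1 using 1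
  funext z
  rw [R1.dzb]
  ring

/-- test functions are `W^{1,2}` -/
theorem Tst.W {φ : ℂ → ℂ} (h : Tst φ) : W φ (R1.dz φ) (R1.dzb φ) where
  hu := h.memLp 2
  hp := h.dz.memLp 2
  hq := h.dzb.memLp 2
  eq := by
    intro ψ hψ v
    simp only [dd_dz]
    have h1 := integral_mul_fderiv_eq_neg_fderiv_mul_of_integrable (𝕜 := ℂ)
      (μ := (volume : Measure ℂ)) (f := φ) (g := ψ) (v := v)
      (int2 ((h.fderiv_apply v).memLp 2) (hψ.memLp 2))
      (int2 (h.memLp 2) ((hψ.fderiv_apply v).memLp 2))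
      (int2 (h.memLp 2) (hψ.memLp 2))
      (fun x _ => h.smooth.differentiable (by simp) x)
      (fun x _ => hψ.smooth.differentiable (by simp) x)
    have e1 : ∫ z, fderiv ℝ ψ z v * φ z = ∫ z, φ z * fderiv ℝ ψ z v := by
      congr 1; funext z; ring
    have e2 : ∫ z, ψ z * fderiv ℝ φ z v = ∫ z, fderiv ℝ φ z v * ψ z := by
      congr 1; funext z; ring
    rw [e1, e2]
    exact h1

/-- the difference quotient in `L²` -/
noncomputable def XH (v : ℂ) (x : H) (t : ℝ) : H := ((t : ℂ)⁻¹) • (τ ((t : ℂ) * v) x - x)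

/-- the difference quotient of a function -/
noncomputable def X (v : ℂ) (f : ℂ → ℂ) (t : ℝ) (z : ℂ) : ℂ := ((t : ℂ)⁻¹) * (f (z + t * v) - f z)

theorem X_memLp {f : ℂ → ℂ} (hf : MemLp f 2 (volume : Measure ℂ)) (v : ℂ) (t : ℝ) :
    MemLp (X v f t) 2 (volume : Measure ℂ) :=
  ((memLp_tr hf _).sub hf).const_mul _

theorem XH_toLp {f : ℂ → ℂ} (hf : MemLp f 2 (volume : Measure ℂ)) (v : ℂ) (t : ℝ) :
    XH v (hf.toLp f) t = (X_memLp hf v t).toLp _ := by
  rw [XH, τ_toLp, ← MemLp.toLp_sub, ← MemLp.toLp_const_smul]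
  rfl

theorem pair_XH {φ : ℂ → ℂ} (hφ : Tst φ) (v : ℂ) (x : H) (t : ℝ) :
    ∫ z, φ z * (XH v x t) z = ∫ z, (XH (-v) ((hφ.memLp 2).toLp φ) t) z * x z := by
  have h1 : ∫ z, φ z * (XH v x t) z =
      (t : ℂ)⁻¹ * ((∫ z, φ z * x (z + t * v)) - (∫ z, φ z * x z)) := by
    rw [← integral_sub (int2 (hφ.memLp 2) (memLp_tr (Lp.memLp x) _)) (int2 (hφ.memLp 2) (Lp.memLp x)),
      ← integral_const_mul]
    refine integral_congr_ae ?_
    filter_upwards [Lp.coeFn_smul ((t : ℂ)⁻¹) (τ ((t : ℂ) * v) x - x),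
      Lp.coeFn_sub (τ ((t : ℂ) * v) x) x, τ_coe ((t : ℂ) * v) x] with z h1 h2 h3
    rw [XH, h1, Pi.smul_apply, h2, Pi.sub_apply, h3, smul_eq_mul]
    ring
  have h2 : ∫ z, (XH (-v) ((hφ.memLp 2).toLp φ) t) z * x z =
      (t : ℂ)⁻¹ * ((∫ z, φ (z + t * (-v)) * x z) - (∫ z, φ z * x z)) := by
    rw [← integral_sub (int2 (memLp_tr (hφ.memLp 2) _) (Lp.memLp x))
      (int2 (hφ.memLp 2) (Lp.memLp x)), ← integral_const_mul]
    refine integral_congr_ae ?_
    rw [XH_toLp]
    filter_upwards [(X_memLp (hφ.memLp 2) (-v) t).coeFn_toLp] with z h1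
    rw [h1, X]
    ring
  rw [h1, h2]
  congr 2
  rw [← integral_add_right_eq_self (μ := (volume : Measure ℂ))
    (fun z => φ (z + t * (-v)) * x z) ((t : ℂ) * v)]
  congr 1
  funext z
  congr 2
  ring

/-- difference quotients converge weakly to the distributional derivative -/
theorem pair_XH_tendsto {φ : ℂ → ℂ} (hφ : Tst φ) (v : ℂ) (x : H) :
    Tendsto (fun t => ∫ z, φ z * (XH v x t) z) (𝓝[≠] 0) (𝓝 (-∫ z, fderiv ℝ φ z v * x z)) := by
  simp only [pair_XH hφ]
  have h1 := hφ.W.dq_tendsto (-v)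
  have h2 := tendsto_bil h1 (tendsto_const_nhds (x := x) (f := 𝓝[≠] (0 : ℝ)))
  have h3 : ∫ z, ((hφ.W.hd (-v)).toLp _) z * x z = -∫ z, fderiv ℝ φ z v * x z := by
    rw [← integral_neg]
    refine integral_congr_ae ?_
    filter_upwards [(hφ.W.hd (-v)).coeFn_toLp] with z hz
    rw [hz, dd_dz, map_neg, neg_mul]
  rw [h3] at h2
  exact h2

/-- product rule -/
theorem W.mul {u p q u' p' q' : ℂ → ℂ} (h : W u p q) (h' : W u' p' q')
    (h1 : MemLp (fun z => u z * u' z) 2 (volume : Measure ℂ))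
    (h2 : MemLp (fun z => p z * u' z + u z * p' z) 2 (volume : Measure ℂ))
    (h3 : MemLp (fun z => q z * u' z + u z * q' z) 2 (volume : Measure ℂ)) :
    W (fun z => u z * u' z) (fun z => p z * u' z + u z * p' z)
      (fun z => q z * u' z + u z * q' z) where
  hu := h1
  hp := h2
  hq := h3
  eq := by
    intro φ hφ v
    obtain ⟨C, hC⟩ := hφ.bdd
    set U : H := h.hu.toLp u
    set U' : H := h'.hu.toLp u'
    set M := mulB φ hφ.continuous.aestronglyMeasurable C hC
    have a1 := pair_XH_tendsto hφ v (h1.toLp _)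
    have a2 : ∀ t : ℝ, ∫ z, φ z * (XH v (h1.toLp _) t) z =
        (∫ z, (M (τ ((t : ℂ) * v) U)) z * (XH v U' t) z) + (∫ z, (M U') z * (XH v U t) z) := by
      intro t
      rw [← integral_add (int2 (Lp.memLp _) (Lp.memLp _)) (int2 (Lp.memLp _) (Lp.memLp _))]
      refine integral_congr_ae ?_
      rw [XH_toLp, XH_toLp, XH_toLp]
      filter_upwards [(X_memLp h1 v t).coeFn_toLp, (X_memLp h.hu v t).coeFn_toLp,
        (X_memLp h'.hu v t).coeFn_toLp, mulB_coe φ hφ.continuous.aestronglyMeasurable C hC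
          (τ ((t : ℂ) * v) U), mulB_coe φ hφ.continuous.aestronglyMeasurable C hC U',
          τ_coe ((t : ℂ) * v) U, (memLp_tr h.hu ((t : ℂ) * v)).coeFn_toLp, h'.hu.coeFn_toLp]
        with z b1 b2 b3 b4 b5 b6 b7 b8
      rw [b1, b2, b3, b4, b5, τ_toLp, b7, b8]
      simp only [X]
      ring
    simp only [a2] at a1
    have a3 : Tendsto (fun t : ℝ => M (τ ((t : ℂ) * v) U)) (𝓝[≠] 0) (𝓝 (M U)) := by
      have : Continuous fun t : ℝ => M (τ ((t : ℂ) * v) U) :=
        M.continuous.comp ((τ_cont U).comp (by fun_prop))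
      have h4 := this.tendsto 0
      simp only [Complex.ofReal_zero, zero_mul, τ_zero] at h4
      exact h4.mono_left nhdsWithin_le_nhds
    have a4 := tendsto_bil a3 (h'.dq_tendsto v)
    have a5 := tendsto_bil (tendsto_const_nhds (x := M U') (f := 𝓝[≠] (0 : ℝ))) (h.dq_tendsto v)
    have a6 := tendsto_nhds_unique a1 (a4.add a5)
    have a7 : ∫ z, fderiv ℝ φ z v * (h1.toLp (fun z => u z * u' z)) z =
        ∫ z, fderiv ℝ φ z v * (u z * u' z) := by
      refine integral_congr_ae ?_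
      filter_upwards [h1.coeFn_toLp] with z hz
      rw [hz]
    rw [a7] at a6
    rw [← neg_eq_iff_eq_neg, a6, ← integral_add (int2 (Lp.memLp _) (Lp.memLp _))
      (int2 (Lp.memLp _) (Lp.memLp _))]
    refine integral_congr_ae ?_
    filter_upwards [mulB_coe φ hφ.continuous.aestronglyMeasurable C hC U,
      mulB_coe φ hφ.continuous.aestronglyMeasurable C hC U', h.hu.coeFn_toLp, h'.hu.coeFn_toLp,
      (h.hd v).coeFn_toLp, (h'.hd v).coeFn_toLp] with z b1 b2 b3 b4 b5 b6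
    rw [b1, b2, b3, b4, b5, b6]
    simp only [dd]
    ring

end Vale.Agent.P247.H832.R1
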