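import Vale.Agent.P247.H832.R1C

/-!
# Interior regularity of quasilinear Beltrami systems (R1), part D

Operations on `W^{1,2}` functions, weak derivatives from bounded difference quotients, the linear
`L²` estimate and the small oscillation weight inequality.
-/

namespace Vale.Agent.P247.H832.R1

open MeasureTheory Set Filter Topology
open scoped ContDiff ComplexConjugate ENNReal

/-- weak limits of difference quotients -/
theorem weak_lim (g : H) (v : ℂ) {C δ : ℝ} (hδ : 0 < δ)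
    (h : ∀ t : ℝ, t ≠ 0 → |t| < δ → ‖XH v g t‖ ≤ C) :
    ∃ D : H, ∀ φ, Tst φ → ∫ z, fderiv ℝ φ z v * g z = - ∫ z, φ z * D z := by
  let f : ℝ → WeakDual ℂ H := fun t =>
    StrongDual.toWeakDual (InnerProductSpace.toDual ℂ H (XH v g t))
  let 𝒰 : Ultrafilter ℝ := Ultrafilter.of (𝓝[≠] (0 : ℝ))
  have hU : (𝒰 : Filter ℝ) ≤ 𝓝[≠] 0 := Ultrafilter.of_le _
  have h1 : f ⁻¹' (WeakDual.toStrongDual ⁻¹' Metric.closedBall (0 : StrongDual ℂ H) C) ∈ 𝒰 := by
    refine hU ?_
    have h2 : Metric.ball (0 : ℝ) δ ∈ 𝓝 (0 : ℝ) := Metric.ball_mem_nhds _ hδ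
    filter_upwards [self_mem_nhdsWithin, nhdsWithin_le_nhds h2] with t ht ht'
    rw [mem_preimage, mem_preimage, mem_closedBall_zero_iff]
    have h3 : WeakDual.toStrongDual (f t) = InnerProductSpace.toDual ℂ H (XH v g t) := rfl
    rw [h3, LinearIsometryEquiv.norm_map]
    exact h t ht (by simpa using ht')
  obtain ⟨D', -, hD'⟩ := (WeakDual.isCompact_closedBall (𝕜 := ℂ) (0 : StrongDual ℂ H) C).ultrafilter_le_nhds'
    (𝒰.map f) h1
  let D : H := (InnerProductSpace.toDual ℂ H).symm (WeakDual.toStrongDual D')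
  refine ⟨D, fun φ hφ => ?_⟩
  set Φ : H := (hφ.cj.memLp 2).toLp _ with hΦ
  have h2 : Tendsto (fun t => inner ℂ (XH v g t) Φ) 𝒰 (𝓝 (inner ℂ D Φ)) := by
    have h3 : Tendsto (fun t => (f t) Φ) 𝒰 (𝓝 (D' Φ)) :=
      ((WeakDual.eval_continuous (𝕜 := ℂ) Φ).tendsto D').comp hD'
    have h4 : D' Φ = inner ℂ D Φ := by
      have h5 : InnerProductSpace.toDual ℂ H D = WeakDual.toStrongDual D' :=
        (InnerProductSpace.toDual ℂ H).apply_symm_apply _
      rw [← InnerProductSpace.toDual_apply_apply (𝕜 := ℂ), h5]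
      rfl
    rw [h4] at h3
    refine h3.congr fun t => ?_
    exact InnerProductSpace.toDual_apply_apply (𝕜 := ℂ)
  have h3 : ∀ x : H, inner ℂ x Φ = conj (∫ z, φ z * x z) := by
    intro x
    rw [← inner_conj_symm, inner_eq]
    congr 1
    refine integral_congr_ae ?_
    filter_upwards [(hφ.cj.memLp 2).coeFn_toLp] with z hz
    rw [hz, Complex.conj_conj]
  simp only [h3] at h2
  have h4 := (Complex.continuous_conj.tendsto _).comp h2
  simp only [Function.comp_def, Complex.conj_conj] at h4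
  have h5 := tendsto_nhds_unique h4 ((pair_XH_tendsto hφ v g).mono_left hU)
  rw [h5, neg_neg]

theorem fderiv_dir (φ : ℂ → ℂ) (z v : ℂ) :
    fderiv ℝ φ z v = v.re * fderiv ℝ φ z 1 + v.im * fderiv ℝ φ z Complex.I := by
  have e : v = v.re • (1 : ℂ) + v.im • Complex.I := by
    rw [Complex.real_smul, Complex.real_smul, mul_one, Complex.re_add_im]
  conv_lhs => rw [e]
  rw [map_add, map_smul, map_smul, Complex.real_smul, Complex.real_smul]

/-- a function is `W^{1,2}` if it has two weak partial derivatives in `L²` -/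
theorem W.of_partial {g a b : ℂ → ℂ} (hg : MemLp g 2 (volume : Measure ℂ))
    (ha : MemLp a 2 (volume : Measure ℂ)) (hb : MemLp b 2 (volume : Measure ℂ))
    (h1 : ∀ φ, Tst φ → ∫ z, fderiv ℝ φ z 1 * g z = - ∫ z, φ z * a z)
    (h2 : ∀ φ, Tst φ → ∫ z, fderiv ℝ φ z Complex.I * g z = - ∫ z, φ z * b z) :
    W g (fun z => (1 / 2) * (a z - Complex.I * b z)) (fun z => (1 / 2) * (a z + Complex.I * b z))
    where
  hu := hg
  hp := (ha.sub (hb.const_mul _)).const_mul _
  hq := (ha.add (hb.const_mul _)).const_mul _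
  eq := by
    intro φ hφ v
    have e1 : ∫ z, fderiv ℝ φ z v * g z = v.re * (∫ z, fderiv ℝ φ z 1 * g z) +
        v.im * (∫ z, fderiv ℝ φ z Complex.I * g z) := by
      rw [← integral_const_mul, ← integral_const_mul, ← integral_add]
      · refine integral_congr_ae (Eventually.of_forall fun z => ?_)
        simp only
        rw [fderiv_dir]
        ring
      · exact (int2 ((hφ.fderiv_apply 1).memLp 2) hg).const_mul _
      · exact (int2 ((hφ.fderiv_apply Complex.I).memLp 2) hg).const_mul _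
    have e2 : ∫ z, φ z * dd (fun z => (1 / 2) * (a z - Complex.I * b z))
        (fun z => (1 / 2) * (a z + Complex.I * b z)) v z =
        v.re * (∫ z, φ z * a z) + v.im * (∫ z, φ z * b z) := by
      rw [← integral_const_mul, ← integral_const_mul, ← integral_add]
      · refine integral_congr_ae (Eventually.of_forall fun z => ?_)
        simp only [dd]
        have e3 : conj v = v.re - v.im * Complex.I := by
          apply Complex.ext <;> simp
        have e4 : v = v.re + v.im * Complex.I := (Complex.re_add_im v).symm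
        rw [e3]
        conv_lhs => rw [e4]
        simp only [Complex.add_re, Complex.ofReal_re, Complex.mul_re, Complex.I_re, mul_zero,
          Complex.ofReal_im, Complex.I_im, mul_one, sub_self, add_zero, Complex.add_im,
          Complex.mul_im, zero_add]
        linear_combination (-(φ z * b z * v.im)) * Complex.I_sq
      · exact (int2 (hφ.memLp 2) ha).const_mul _
      · exact (int2 (hφ.memLp 2) hb).const_mul _
    rw [e1, e2, h1 φ hφ, h2 φ hφ]
    ring

/-- functions with bounded difference quotients are `W^{1,2}` -/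
theorem W.of_bdd {g : ℂ → ℂ} (hg : MemLp g 2 (volume : Measure ℂ)) {C δ : ℝ} (hδ : 0 < δ)
    (h : ∀ v : ℂ, v = 1 ∨ v = Complex.I → ∀ t : ℝ, t ≠ 0 → |t| < δ → nn (X v g t) ≤ C) :
    ∃ r s, W g r s := by
  have h1 : ∀ v : ℂ, v = 1 ∨ v = Complex.I → ∃ D : H, ∀ φ, Tst φ →
      ∫ z, fderiv ℝ φ z v * g z = - ∫ z, φ z * D z := by
    intro v hv
    obtain ⟨D, hD⟩ := weak_lim (hg.toLp g) v hδ (C := C) (fun t ht ht' => by
      rw [XH_toLp, norm_toLp]; exact h v hv t ht ht')
    refine ⟨D, fun φ hφ => ?_⟩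
    rw [← hD φ hφ]
    refine integral_congr_ae ?_
    filter_upwards [hg.coeFn_toLp] with z hz
    rw [hz]
  obtain ⟨a, ha⟩ := h1 1 (Or.inl rfl)
  obtain ⟨b, hb⟩ := h1 Complex.I (Or.inr rfl)
  exact ⟨_, _, W.of_partial hg (Lp.memLp a) (Lp.memLp b) ha hb⟩

theorem W.translate {u p q : ℂ → ℂ} (h : W u p q) (a : ℂ) :
    W (fun z => u (z + a)) (fun z => p (z + a)) (fun z => q (z + a)) where
  hu := memLp_tr h.hu a
  hp := memLp_tr h.hp a
  hq := memLp_tr h.hq a
  eq := by
    intro φ hφ v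
    have h1 := h.eq _ (hφ.translate a) v
    simp only [fderiv_tr hφ] at h1
    rw [← integral_add_right_eq_self (μ := (volume : Measure ℂ))
      (fun z => fderiv ℝ φ (z - a) v * u z) a,
      ← integral_add_right_eq_self (μ := (volume : Measure ℂ))
      (fun z => φ (z - a) * dd p q v z) a] at h1
    simp only [add_sub_cancel_right] at h1
    exact h1

theorem W.add {u p q u' p' q' : ℂ → ℂ} (h : W u p q) (h' : W u' p' q') :
    W (fun z => u z + u' z) (fun z => p z + p' z) (fun z => q z + q' z) where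
  hu := h.hu.add h'.hu
  hp := h.hp.add h'.hp
  hq := h.hq.add h'.hq
  eq := by
    intro φ hφ v
    have e1 : ∫ z, fderiv ℝ φ z v * (u z + u' z) =
        (∫ z, fderiv ℝ φ z v * u z) + (∫ z, fderiv ℝ φ z v * u' z) := by
      rw [← integral_add (int2 ((hφ.fderiv_apply v).memLp 2) h.hu)
        (int2 ((hφ.fderiv_apply v).memLp 2) h'.hu)]
      congr 1; funext z; ring
    have e2 : ∫ z, φ z * dd (fun z => p z + p' z) (fun z => q z + q' z) v z =
        (∫ z, φ z * dd p q v z) + (∫ z, φ z * dd p' q' v z) := by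
      rw [← integral_add (int2 (hφ.memLp 2) (h.hd v)) (int2 (hφ.memLp 2) (h'.hd v))]
      congr 1; funext z; simp only [dd]; ring
    rw [e1, e2, h.eq φ hφ v, h'.eq φ hφ v]
    ring

theorem W.const_mul {u p q : ℂ → ℂ} (h : W u p q) (c : ℂ) :
    W (fun z => c * u z) (fun z => c * p z) (fun z => c * q z) where
  hu := h.hu.const_mul c
  hp := h.hp.const_mul c
  hq := h.hq.const_mul c
  eq := by
    intro φ hφ v
    have e1 : ∫ z, fderiv ℝ φ z v * (c * u z) = c * ∫ z, fderiv ℝ φ z v * u z := by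
      rw [← integral_const_mul]; congr 1; funext z; ring
    have e2 : ∫ z, φ z * dd (fun z => c * p z) (fun z => c * q z) v z =
        c * ∫ z, φ z * dd p q v z := by
      rw [← integral_const_mul]; congr 1; funext z; simp only [dd]; ring
    rw [e1, e2, h.eq φ hφ v]
    ring

theorem W.sub {u p q u' p' q' : ℂ → ℂ} (h : W u p q) (h' : W u' p' q') :
    W (fun z => u z - u' z) (fun z => p z - p' z) (fun z => q z - q' z) := by
  have := h.add (h'.const_mul (-1))
  convert this using 1 <;> (funext z; ring)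

theorem W.X {u p q : ℂ → ℂ} (h : W u p q) (v : ℂ) (t : ℝ) :
    W (X v u t) (R1.X v p t) (R1.X v q t) :=
  ((h.translate ((t : ℂ) * v)).sub h).const_mul _

theorem W.congr {u p q u' p' q' : ℂ → ℂ} (h : W u p q) (h1 : u =ᵐ[volume] u')
    (h2 : p =ᵐ[volume] p') (h3 : q =ᵐ[volume] q') : W u' p' q' where
  hu := (memLp_congr_ae h1).1 h.hu
  hp := (memLp_congr_ae h2).1 h.hp
  hq := (memLp_congr_ae h3).1 h.hq
  eq := by
    intro φ hφ v
    have e1 : ∫ z, fderiv ℝ φ z v * u' z = ∫ z, fderiv ℝ φ z v * u z := by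
      refine integral_congr_ae ?_
      filter_upwards [h1] with z hz
      rw [hz]
    have e2 : ∫ z, φ z * dd p' q' v z = ∫ z, φ z * dd p q v z := by
      refine integral_congr_ae ?_
      filter_upwards [h2, h3] with z hz hz'
      rw [dd, dd, hz, hz']
    rw [e1, e2, h.eq φ hφ v]

theorem Tst.memLp_mul {η f : ℂ → ℂ} (hη : Tst η) (hf : MemLp f 2 (volume : Measure ℂ)) :
    MemLp (fun z => η z * f z) 2 (volume : Measure ℂ) := by
  obtain ⟨C, hC⟩ := hη.bdd
  exact memLp_bdd hη.continuous.aestronglyMeasurable hC hf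

theorem W.tmul {η u p q : ℂ → ℂ} (hη : Tst η) (h : W u p q) :
    W (fun z => η z * u z) (fun z => dz η z * u z + η z * p z)
      (fun z => dzb η z * u z + η z * q z) :=
  hη.W.mul h (hη.memLp_mul h.hu) ((hη.dz.memLp_mul h.hu).add (hη.memLp_mul h.hp))
    ((hη.dzb.memLp_mul h.hu).add (hη.memLp_mul h.hq))

/-- product of bounded `W^{1,2}` functions -/
theorem W.bmul {u p q u' p' q' : ℂ → ℂ} (h : W u p q) (h' : W u' p' q') {C C' : ℝ}
    (hC : ∀ z, ‖u z‖ ≤ C) (hC' : ∀ z, ‖u' z‖ ≤ C') :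
    W (fun z => u z * u' z) (fun z => p z * u' z + u z * p' z)
      (fun z => q z * u' z + u z * q' z) := by
  have e : ∀ f : ℂ → ℂ, MemLp f 2 (volume : Measure ℂ) →
      MemLp (fun z => f z * u' z) 2 (volume : Measure ℂ) := fun f hf => by
    have := memLp_bdd h'.hu.1 hC' hf
    convert this using 1
    funext z; ring
  exact h.mul h' (memLp_bdd h.hu.1 hC h'.hu) ((e p h.hp).add (memLp_bdd h.hu.1 hC h'.hp))
    ((e q h.hq).add (memLp_bdd h.hu.1 hC h'.hq))

/-- the linear `L²` estimate -/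
theorem W.beltrami {u p q : ℂ → ℂ} (h : W u p q) {μ : ℂ → ℂ}
    (hμ : AEStronglyMeasurable μ (volume : Measure ℂ)) {k : ℝ} (hk : ∀ z, ‖μ z‖ ≤ k) :
    (1 - k) * nn p ≤ nn (fun z => q z - μ z * p z) := by
  have h1 : nn p = nn q := by
    have := h.norm_eq
    rwa [norm_toLp, norm_toLp] at this
  have h2 : MemLp (fun z => μ z * p z) 2 (volume : Measure ℂ) := memLp_bdd hμ hk h.hp
  have h3 : nn q ≤ nn (fun z => q z - μ z * p z) + nn (fun z => μ z * p z) := by
    refine nn_tri (h.hq.sub h2) h2 (Eventually.of_forall fun z => ?_)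
    calc ‖q z‖ = ‖(q z - μ z * p z) + μ z * p z‖ := by congr 1; ring
      _ ≤ _ := norm_add_le _ _
  have h4 : nn (fun z => μ z * p z) ≤ k * nn p := by
    refine nn_le ((norm_nonneg _).trans (hk 0)) h.hp (Eventually.of_forall fun z => ?_)
    rw [norm_mul]
    exact mul_le_mul_of_nonneg_right (hk z) (norm_nonneg _)
  linarith

theorem W.nn_eq {u p q : ℂ → ℂ} (h : W u p q) : nn p = nn q := by
  have := h.norm_eq
  rwa [norm_toLp, norm_toLp] at this

theorem nn_rmul {c : ℝ} (hc : 0 ≤ c) (f : ℂ → ℂ) : nn (fun z => (c : ℂ) * f z) = c * nn f := by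
  rw [nn_const_mul, Complex.norm_real, Real.norm_eq_abs, abs_of_nonneg hc]

theorem nn_norms {P Q : ℂ → ℂ} (hP : MemLp P 2 (volume : Measure ℂ))
    (hQ : MemLp Q 2 (volume : Measure ℂ)) :
    nn (fun z => (‖P z‖ : ℂ) + (‖Q z‖ : ℂ)) ≤ nn P + nn Q := by
  refine nn_tri hP hQ (Eventually.of_forall fun z => ?_)
  rw [← Complex.ofReal_add, Complex.norm_real, Real.norm_eq_abs,
    abs_of_nonneg (add_nonneg (norm_nonneg _) (norm_nonneg _))]

theorem weight_pt {p q u F P Q m c : ℂ} {om M k : ℝ} (hk1 : k < 1) (hk : ‖m‖ ≤ k)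
    (hom0 : 0 ≤ om) (hom : ‖u - c‖ ≤ om) (hM : ‖q - m * p‖ ≤ M) :
    ‖(q * F + u * Q - c * Q) - m * (p * F + u * P - c * P)‖ ≤
      M * ‖F‖ + om * (‖P‖ + ‖Q‖) := by
  have b1 : (q * F + u * Q - c * Q) - m * (p * F + u * P - c * P) =
      (q - m * p) * F + (u - c) * (Q - m * P) := by ring
  rw [b1]
  refine (norm_add_le _ _).trans (add_le_add ?_ ?_)
  · rw [norm_mul]
    exact mul_le_mul_of_nonneg_right hM (norm_nonneg _)
  · rw [norm_mul]
    refine mul_le_mul hom ?_ (norm_nonneg _) hom0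
    calc ‖Q - m * P‖ ≤ ‖Q‖ + ‖m * P‖ := norm_sub_le _ _
      _ ≤ ‖Q‖ + 1 * ‖P‖ := by
          rw [norm_mul]
          have := mul_le_mul_of_nonneg_right (hk.trans hk1.le) (norm_nonneg P)
          linarith
      _ = ‖P‖ + ‖Q‖ := by ring

theorem weight1 {u p q F P Q : ℂ → ℂ} (hF : W F P Q) {μ : ℂ → ℂ} {k : ℝ} (hk1 : k < 1)
    (hk : ∀ z, ‖μ z‖ ≤ k) {S : Set ℂ} (hS : ∀ z ∉ S, F z = 0 ∧ P z = 0 ∧ Q z = 0)
    {c : ℂ} {om M : ℝ} (hom0 : 0 ≤ om) (hM0 : 0 ≤ M) (hom : ∀ z ∈ S, ‖u z - c‖ ≤ om)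
    (hM : ∀ᵐ z, z ∈ S → ‖q z - μ z * p z‖ ≤ M) :
    nn (fun z => (q z * F z + u z * Q z - c * Q z) -
      μ z * (p z * F z + u z * P z - c * P z)) ≤ M * nn F + 2 * (om * nn P) := by
  have a1 : nn (fun z => (q z * F z + u z * Q z - c * Q z) -
      μ z * (p z * F z + u z * P z - c * P z)) ≤
        nn (fun z => (M : ℂ) * F z) + nn (fun z => (om : ℂ) * ((‖P z‖ : ℂ) + (‖Q z‖ : ℂ))) := by
    have m1 : MemLp (fun z => (M : ℂ) * F z) 2 (volume : Measure ℂ) := hF.hu.const_mul (M : ℂ)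
    have m2 : MemLp (fun z => (‖P z‖ : ℂ)) 2 (volume : Measure ℂ) := hF.hp.norm.ofReal
    have m3 : MemLp (fun z => (‖Q z‖ : ℂ)) 2 (volume : Measure ℂ) := hF.hq.norm.ofReal
    have m4 : MemLp (fun z => (om : ℂ) * ((‖P z‖ : ℂ) + (‖Q z‖ : ℂ))) 2 (volume : Measure ℂ) :=
      (m2.add m3).const_mul (om : ℂ)
    refine nn_tri m1 m4 ?_
    filter_upwards [hM] with z hz
    have e1 : ‖(M : ℂ) * F z‖ = M * ‖F z‖ := by
      rw [norm_mul, Complex.norm_real, Real.norm_eq_abs, abs_of_nonneg hM0]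
    have e2 : ‖(om : ℂ) * ((‖P z‖ : ℂ) + (‖Q z‖ : ℂ))‖ = om * (‖P z‖ + ‖Q z‖) := by
      rw [norm_mul, Complex.norm_real, Real.norm_eq_abs, abs_of_nonneg hom0,
        ← Complex.ofReal_add, Complex.norm_real, Real.norm_eq_abs,
        abs_of_nonneg (add_nonneg (norm_nonneg _) (norm_nonneg _))]
    rw [e1, e2]
    by_cases hzS : z ∈ S
    · exact weight_pt hk1 (hk z) hom0 (hom z hzS) (hz hzS)
    · obtain ⟨b1, b2, b3⟩ := hS z hzS
      rw [b1, b2, b3]
      simp
  have a3 : nn (fun z => (om : ℂ) * ((‖P z‖ : ℂ) + (‖Q z‖ : ℂ))) ≤ om * (nn P + nn Q) := by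
    rw [nn_rmul hom0]
    exact mul_le_mul_of_nonneg_left (nn_norms hF.hp hF.hq) hom0
  rw [nn_rmul hM0] at a1
  rw [← hF.nn_eq] at a3
  linarith

/-- the weight `|∇u|²` is controlled by small oscillation of `u` -/
theorem W.weight {u p q F P Q : ℂ → ℂ} (h : W u p q) (hF : W F P Q) {B B' : ℝ}
    (hB : ∀ z, ‖u z‖ ≤ B) (hB' : ∀ z, ‖F z‖ ≤ B') {μ : ℂ → ℂ}
    (hμ : AEStronglyMeasurable μ (volume : Measure ℂ)) {k : ℝ} (hk1 : k < 1)
    (hk : ∀ z, ‖μ z‖ ≤ k) {S : Set ℂ} (hS : ∀ z ∉ S, F z = 0 ∧ P z = 0 ∧ Q z = 0)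
    {c : ℂ} {om M : ℝ} (hom0 : 0 ≤ om) (hM0 : 0 ≤ M) (hom : ∀ z ∈ S, ‖u z - c‖ ≤ om)
    (hM : ∀ᵐ z, z ∈ S → ‖q z - μ z * p z‖ ≤ M) :
    nn (fun z => p z * F z) ≤ 3 / (1 - k) * (M * nn F + om * nn P) := by
  have hk2 : 0 < 1 - k := by linarith
  have hG := (h.bmul hF hB hB').sub (hF.const_mul c)
  have h2 := weight1 hF hk1 hk hS hom0 hM0 hom hM
  have h1 := (hG.beltrami hμ hk).trans h2
  have e2 : MemLp (fun z => (u z - c) * P z) 2 (volume : Measure ℂ) := by
    refine ((memLp_bdd h.hu.1 hB hF.hp).sub (hF.hp.const_mul c)).ae_eq ?_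
    exact Eventually.of_forall fun z => by simp only [Pi.sub_apply]; ring
  have h3 : nn (fun z => p z * F z) ≤ nn (fun z => p z * F z + u z * P z - c * P z) +
      nn (fun z => (u z - c) * P z) := by
    refine nn_tri hG.hp e2 (Eventually.of_forall fun z => ?_)
    calc ‖p z * F z‖ = ‖(p z * F z + u z * P z - c * P z) - (u z - c) * P z‖ := by congr 1; ring
      _ ≤ _ := norm_sub_le _ _
  have h4 : nn (fun z => (u z - c) * P z) ≤ om * nn P := by
    refine nn_le hom0 hF.hp (Eventually.of_forall fun z => ?_)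
    by_cases hzS : z ∈ S
    · rw [norm_mul]; exact mul_le_mul_of_nonneg_right (hom z hzS) (norm_nonneg _)
    · rw [(hS z hzS).2.1]; simp
  have h5 : nn (fun z => p z * F z + u z * P z - c * P z) ≤
      (M * nn F + 2 * (om * nn P)) / (1 - k) := by
    rw [le_div_iff₀ hk2, mul_comm]
    exact h1
  have h7 : om * nn P ≤ (2 * (M * nn F) + om * nn P) / (1 - k) := by
    rw [le_div_iff₀ hk2]
    have h8 : 0 ≤ om * nn P := mul_nonneg hom0 (nn_nonneg _)
    have h9 : 0 ≤ M * nn F := mul_nonneg hM0 (nn_nonneg _)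
    have hk0 : 0 ≤ k := (norm_nonneg _).trans (hk 0)
    nlinarith
  calc nn (fun z => p z * F z) ≤ (M * nn F + 2 * (om * nn P)) / (1 - k) +
        (2 * (M * nn F) + om * nn P) / (1 - k) := by linarith
    _ = 3 / (1 - k) * (M * nn F + om * nn P) := by ring

end Vale.Agent.P247.H832.R1
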