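import Vale.Agent.P247.H832.R1D

/-!
# Interior regularity of quasilinear Beltrami systems (R1), part E

The localized system and its `W^{2,2}` estimate.
-/

namespace Vale.Agent.P247.H832.R1

open MeasureTheory Set Filter Topology Metric
open scoped ContDiff ComplexConjugate ENNReal

theorem nn_sum {κ : Type*} (s : Finset κ) {f : ℂ → ℂ} {g : κ → ℂ → ℂ}
    (hg : ∀ i ∈ s, MemLp (g i) 2 (volume : Measure ℂ))
    (H : ∀ᵐ z, ‖f z‖ ≤ ∑ i ∈ s, ‖g i z‖) : nn f ≤ ∑ i ∈ s, nn (g i) := by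
  classical
  induction s using Finset.induction_on generalizing f with
  | empty =>
    have : f =ᵐ[volume] fun _ => 0 := by
      filter_upwards [H] with z hz
      simpa using hz
    rw [nn_congr this]
    simp [nn]
  | insert i s hi ih =>
    have h1 : MemLp (fun z => ((∑ j ∈ s, ‖g j z‖ : ℝ) : ℂ)) 2 (volume : Measure ℂ) := by
      have : MemLp (fun z => ∑ j ∈ s, ‖g j z‖) 2 (volume : Measure ℂ) :=
        memLp_finsetSum s fun j hj => (hg j (Finset.mem_insert_of_mem hj)).norm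
      exact this.ofReal
    have h2 : nn f ≤ nn (g i) + nn (fun z => ((∑ j ∈ s, ‖g j z‖ : ℝ) : ℂ)) := by
      refine nn_tri (hg i (Finset.mem_insert_self _ _)) h1 ?_
      filter_upwards [H] with z hz
      rw [Complex.norm_real, Real.norm_eq_abs,
        abs_of_nonneg (Finset.sum_nonneg fun j _ => norm_nonneg _)]
      rw [Finset.sum_insert hi] at hz
      exact hz
    have h3 := ih (f := fun z => ((∑ j ∈ s, ‖g j z‖ : ℝ) : ℂ))
      (fun j hj => hg j (Finset.mem_insert_of_mem hj)) (Eventually.of_forall fun z => by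
        rw [Complex.norm_real, Real.norm_eq_abs,
          abs_of_nonneg (Finset.sum_nonneg fun j _ => norm_nonneg _)])
    rw [Finset.sum_insert hi]
    linarith

theorem ae_tr {p : ℂ → Prop} (h : ∀ᵐ z, p z) (a : ℂ) : ∀ᵐ z : ℂ, p (z + a) :=
  (measurePreserving_add_right (volume : Measure ℂ) a).quasiMeasurePreserving.ae h

variable {ι : Type*} [Fintype ι]

/-- the localized system -/
structure Loc (z0 : ℂ) (R k L M : ℝ) (u P Q a : ι → ℂ → ℂ) (μ : ℂ → ℂ) : Prop where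
  R0 : 0 < R
  k1 : k < 1
  L0 : 0 ≤ L
  M0 : 0 ≤ M
  w : ∀ j, W (u j) (P j) (Q j)
  cont : ∀ j, Continuous (u j)
  bdd : ∃ B, ∀ j z, ‖u j z‖ ≤ B
  μm : AEStronglyMeasurable μ (volume : Measure ℂ)
  μk : ∀ z, ‖μ z‖ ≤ k
  eq : ∀ j, ∀ᵐ z, z ∈ ball z0 R → Q j z = μ z * P j z + a j z
  aM : ∀ j, ∀ z ∈ ball z0 R, ‖a j z‖ ≤ M
  lipμ : ∀ z ∈ ball z0 R, ∀ z' ∈ ball z0 R,
    ‖μ z - μ z'‖ ≤ L * (‖z - z'‖ + ∑ i, ‖u i z - u i z'‖)
  lipa : ∀ j, ∀ z ∈ ball z0 R, ∀ z' ∈ ball z0 R,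
    ‖a j z - a j z'‖ ≤ L * (‖z - z'‖ + ∑ i, ‖u i z - u i z'‖)

variable {z0 : ℂ} {R k L M : ℝ} {u P Q a : ι → ℂ → ℂ} {μ : ℂ → ℂ}

theorem Loc.k0 (h : Loc z0 R k L M u P Q a μ) : 0 ≤ k := (norm_nonneg _).trans (h.μk 0)

/-- the equation of a difference quotient -/
theorem Loc.dqeq (h : Loc z0 R k L M u P Q a μ) (j : ι) (v : ℂ) {t : ℝ} (ht : t ≠ 0) :
    ∀ᵐ z, z ∈ ball z0 R → z + t * v ∈ ball z0 R →
      ‖X v (Q j) t z - μ z * X v (P j) t z‖ ≤
        L * (‖v‖ + ∑ i, ‖X v (u i) t z‖) * (‖P j (z + t * v)‖ + 1) := by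
  filter_upwards [h.eq j, ae_tr (h.eq j) ((t : ℂ) * v)] with z h1 h2 hz hz'
  have e : X v (Q j) t z - μ z * X v (P j) t z =
      (t : ℂ)⁻¹ * ((μ (z + t * v) - μ z) * P j (z + t * v) + (a j (z + t * v) - a j z)) := by
    simp only [X]
    rw [h1 hz, h2 hz']
    ring
  have ht' : 0 < |t| := abs_pos.2 ht
  rw [e, norm_mul, norm_inv, Complex.norm_real, Real.norm_eq_abs, inv_mul_le_iff₀ ht']
  have h3 := h.lipμ _ hz' _ hz
  have h4 := h.lipa j _ hz' _ hz
  have e2 : ‖z + t * v - z‖ + ∑ i, ‖u i (z + t * v) - u i z‖ =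
      |t| * (‖v‖ + ∑ i, ‖X v (u i) t z‖) := by
    rw [mul_add, Finset.mul_sum]
    congr 1
    · rw [add_sub_cancel_left, norm_mul, Complex.norm_real, Real.norm_eq_abs]
    · refine Finset.sum_congr rfl fun i _ => ?_
      rw [X, norm_mul, norm_inv, Complex.norm_real, Real.norm_eq_abs]
      field_simp
  rw [e2] at h3 h4
  calc ‖(μ (z + t * v) - μ z) * P j (z + t * v) + (a j (z + t * v) - a j z)‖
      ≤ ‖μ (z + t * v) - μ z‖ * ‖P j (z + t * v)‖ + ‖a j (z + t * v) - a j z‖ := by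
        refine (norm_add_le _ _).trans ?_
        rw [norm_mul]
    _ ≤ L * (|t| * (‖v‖ + ∑ i, ‖X v (u i) t z‖)) * ‖P j (z + t * v)‖ +
        L * (|t| * (‖v‖ + ∑ i, ‖X v (u i) t z‖)) := by
        refine add_le_add (mul_le_mul_of_nonneg_right h3 (norm_nonneg _)) h4
    _ = |t| * (L * (‖v‖ + ∑ i, ‖X v (u i) t z‖) * (‖P j (z + t * v)‖ + 1)) := by ring

theorem X_bdd {f : ℂ → ℂ} {B : ℝ} (hB : ∀ z, ‖f z‖ ≤ B) (v : ℂ) (t : ℝ) :
    ∀ z, ‖X v f t z‖ ≤ ‖(t : ℂ)⁻¹‖ * (B + B) := by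
  intro z
  rw [X, norm_mul]
  exact mul_le_mul_of_nonneg_left ((norm_sub_le _ _).trans (add_le_add (hB _) (hB _)))
    (norm_nonneg _)

theorem nn_X_le {u p q : ℂ → ℂ} (h : W u p q) (v : ℂ) {t : ℝ} (ht : t ≠ 0) :
    nn (X v u t) ≤ nn (dd p q v) := by
  rw [← norm_toLp (X_memLp h.hu v t), ← XH_toLp, XH, norm_smul, norm_inv, Complex.norm_real,
    Real.norm_eq_abs, inv_mul_le_iff₀ (abs_pos.2 ht)]
  have h1 := h.dq_norm ((t : ℂ) * v)
  refine h1.trans ?_
  have e : (h.hd ((t : ℂ) * v)).toLp (dd p q ((t : ℂ) * v)) = (t : ℂ) • (h.hd v).toLp _ := by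
    rw [← MemLp.toLp_const_smul]
    congr 1
    funext z
    rw [Pi.smul_apply, smul_eq_mul, dd_smul]
  rw [e, norm_smul, Complex.norm_real, Real.norm_eq_abs, norm_toLp]

theorem zero_off {η : ℂ → ℂ} {z : ℂ} (h : z ∉ tsupport η) :
    η z = 0 ∧ dz η z = 0 ∧ dzb η z = 0 := by
  have h2 : z ∉ tsupport (fderiv ℝ η) := fun h3 => h (tsupport_fderiv_subset (𝕜 := ℝ) h3)
  have h3 : fderiv ℝ η z = 0 := image_eq_zero_of_notMem_tsupport h2
  refine ⟨image_eq_zero_of_notMem_tsupport h, ?_, ?_⟩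
  · rw [dz, h3]; simp
  · rw [dzb, h3]; simp

/-- the weight inequality for the localized system -/
theorem Loc.weightF (h : Loc z0 R k L M u P Q a μ) {ρ om : ℝ} (hom0 : 0 ≤ om) {v : ℂ} {t : ℝ}
    (hR : ∀ z ∈ ball z0 ρ, z + t * v ∈ ball z0 R)
    (hom : ∀ j, ∀ z ∈ ball z0 ρ, ‖u j (z + t * v) - u j z0‖ ≤ om)
    {F PF QF : ℂ → ℂ} (hF : W F PF QF) {B' : ℝ} (hB' : ∀ z, ‖F z‖ ≤ B')
    (hS : ∀ z ∉ ball z0 ρ, F z = 0 ∧ PF z = 0 ∧ QF z = 0) (j : ι) :
    nn (fun z => P j (z + t * v) * F z) ≤ 3 / (1 - k) * (M * nn F + om * nn PF) := by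
  obtain ⟨B, hB⟩ := h.bdd
  refine ((h.w j).translate ((t : ℂ) * v)).weight hF (fun z => hB j _) hB'
    (μ := fun z => μ (z + t * v)) ?_ h.k1 (fun z => h.μk _) hS hom0 h.M0 (c := u j z0)
    (fun z hz => hom j z hz) ?_
  · exact h.μm.comp_measurePreserving (measurePreserving_add_right volume _)
  · filter_upwards [ae_tr (h.eq j) ((t : ℂ) * v)] with z h1 hz
    have h2 := hR z hz
    rw [h1 h2, add_sub_cancel_left]
    exact h.aM j _ h2

theorem Loc.est (h : Loc z0 R k L M u P Q a μ) {ρ om : ℝ} (hom0 : 0 ≤ om) {v : ℂ} (hv : ‖v‖ = 1)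
    {t : ℝ} (ht : t ≠ 0) (hρ : ball z0 ρ ⊆ ball z0 R)
    (hR : ∀ z ∈ ball z0 ρ, z + t * v ∈ ball z0 R)
    (hom : ∀ j, ∀ z ∈ ball z0 ρ, ‖u j (z + t * v) - u j z0‖ ≤ om)
    {η : ℂ → ℂ} (hη : Tst η) (hsup : tsupport η ⊆ ball z0 ρ) {E D Pn : ℝ}
    (hE : ∀ z, ‖η z‖ ≤ E ∧ ‖dz η z‖ ≤ E ∧ ‖dzb η z‖ ≤ E)
    (hD : ∀ j, nn (X v (u j) t) ≤ D) (hPn : ∀ j, nn (P j) ≤ Pn) (j : ι) :
    (1 - k) * nn (fun z => dz η z * X v (u j) t z + η z * X v (P j) t z) ≤
      (2 * E * D + L * (E * Pn) + L * nn η +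
        Fintype.card ι * (L * (3 / (1 - k) * (M * (E * D)))) + Fintype.card ι * (L * (E * D))) +
      L * (3 / (1 - k)) * om *
        ∑ i, nn (fun z => dz η z * X v (u i) t z + η z * X v (P i) t z) := by
  have hk2 : 0 < 1 - k := by linarith [h.k1]
  have hE0 : 0 ≤ E := (norm_nonneg _).trans (hE 0).1
  have hL0 := h.L0
  have hM0 := h.M0
  obtain ⟨B, hB⟩ := h.bdd
  set F : ι → ℂ → ℂ := fun i z => η z * X v (u i) t z with hF
  set PF : ι → ℂ → ℂ := fun i z => dz η z * X v (u i) t z + η z * X v (P i) t z with hPF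
  set QF : ι → ℂ → ℂ := fun i z => dzb η z * X v (u i) t z + η z * X v (Q i) t z with hQF
  have hWF : ∀ i, W (F i) (PF i) (QF i) := fun i => ((h.w i).X v t).tmul hη
  have hoff : ∀ i, ∀ z ∉ ball z0 ρ, F i z = 0 ∧ PF i z = 0 ∧ QF i z = 0 := by
    intro i z hz
    obtain ⟨a1, a2, a3⟩ := zero_off (η := η) (fun h' => hz (hsup h'))
    simp [hF, hPF, hQF, a1, a2, a3]
  have hFb : ∀ i z, ‖F i z‖ ≤ E * (‖(t : ℂ)⁻¹‖ * (B + B)) := by
    intro i z
    rw [hF, norm_mul]
    exact mul_le_mul (hE z).1 (X_bdd (hB i) v t z) (norm_nonneg _) hE0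
  have hnF : ∀ i, nn (F i) ≤ E * D := by
    intro i
    refine (nn_le hE0 (X_memLp (h.w i).hu v t) (Eventually.of_forall fun z => ?_)).trans
      (mul_le_mul_of_nonneg_left (hD i) hE0)
    rw [hF, norm_mul]
    exact mul_le_mul_of_nonneg_right (hE z).1 (norm_nonneg _)
  have hw : ∀ i, nn (fun z => P j (z + t * v) * F i z) ≤
      3 / (1 - k) * (M * (E * D) + om * nn (PF i)) := by
    intro i
    refine (h.weightF hom0 hR hom (hWF i) (hFb i) (hoff i) j).trans ?_
    refine mul_le_mul_of_nonneg_left ?_ (by positivity)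
    have := mul_le_mul_of_nonneg_left (hnF i) hM0
    linarith
  have h1 := (hWF j).beltrami h.μm h.μk
  -- the family of majorants
  set g : Fin 3 ⊕ (ι ⊕ ι) → ℂ → ℂ := Sum.elim
    (fun i z => if i = 0 then ((2 * E : ℝ) : ℂ) * X v (u j) t z else if i = 1 then
      ((L * E : ℝ) : ℂ) * P j (z + t * v) else (L : ℂ) * η z)
    (Sum.elim (fun i z => (L : ℂ) * (P j (z + t * v) * F i z)) (fun i z => (L : ℂ) * F i z)) with hg
  have hPt : MemLp (fun z => P j (z + t * v)) 2 (volume : Measure ℂ) := memLp_tr (h.w j).hp _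
  have hPtF : ∀ i, MemLp (fun z => P j (z + t * v) * F i z) 2 (volume : Measure ℂ) := by
    intro i
    refine (memLp_bdd (hWF i).hu.1 (hFb i) hPt).ae_eq (Eventually.of_forall fun z => ?_)
    simp only
    ring
  have hgm : ∀ i ∈ (Finset.univ : Finset (Fin 3 ⊕ (ι ⊕ ι))),
      MemLp (g i) 2 (volume : Measure ℂ) := by
    rintro (i | i | i) -
    · fin_cases i
      · exact (X_memLp (h.w j).hu v t).const_mul _
      · exact hPt.const_mul _
      · exact (hη.memLp 2).const_mul _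
    · exact (hPtF i).const_mul _
    · exact (hWF i).hu.const_mul _
  have h2 : nn (fun z => QF j z - μ z * PF j z) ≤ ∑ i, nn (g i) := by
    refine nn_sum _ hgm ?_
    filter_upwards [h.dqeq j v ht] with z hz
    rw [Fintype.sum_sum_type, Fintype.sum_sum_type, Fin.sum_univ_three]
    simp only [hg, Sum.elim_inl, Sum.elim_inr]
    by_cases hzS : z ∈ ball z0 ρ
    · have h3 := hz (hρ hzS) (hR z hzS)
      rw [hv] at h3
      have e : QF j z - μ z * PF j z = (dzb η z - μ z * dz η z) * X v (u j) t z +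
          η z * (X v (Q j) t z - μ z * X v (P j) t z) := by
        simp only [hQF, hPF]; ring
      have a1 : ‖(dzb η z - μ z * dz η z) * X v (u j) t z‖ ≤ 2 * E * ‖X v (u j) t z‖ := by
        rw [norm_mul]
        refine mul_le_mul_of_nonneg_right ?_ (norm_nonneg _)
        calc ‖dzb η z - μ z * dz η z‖ ≤ ‖dzb η z‖ + ‖μ z * dz η z‖ := norm_sub_le _ _
          _ ≤ E + 1 * E := by
              rw [norm_mul]
              exact add_le_add (hE z).2.2 (mul_le_mul ((h.μk z).trans h.k1.le) (hE z).2.1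
                (norm_nonneg _) zero_le_one)
          _ = 2 * E := by ring
      have a2 : ‖η z * (X v (Q j) t z - μ z * X v (P j) t z)‖ ≤
          L * E * ‖P j (z + t * v)‖ + L * ‖η z‖ +
          (∑ i, L * (‖P j (z + t * v)‖ * ‖F i z‖) + ∑ i, L * ‖F i z‖) := by
        rw [norm_mul]
        refine (mul_le_mul_of_nonneg_left h3 (norm_nonneg _)).trans ?_
        have e3 : ∑ i, ‖F i z‖ = ‖η z‖ * ∑ i, ‖X v (u i) t z‖ := by
          rw [Finset.mul_sum]
          exact Finset.sum_congr rfl fun i _ => by rw [hF, norm_mul]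
        rw [← Finset.mul_sum, ← Finset.mul_sum, ← Finset.mul_sum, e3]
        have e4 : L * ‖η z‖ * ‖P j (z + t * v)‖ ≤ L * E * ‖P j (z + t * v)‖ :=
          mul_le_mul_of_nonneg_right (mul_le_mul_of_nonneg_left (hE z).1 hL0) (norm_nonneg _)
        nlinarith
      rw [e]
      refine (norm_add_le _ _).trans ((add_le_add a1 a2).trans (le_of_eq ?_))
      simp only [norm_mul, Complex.norm_real, Real.norm_eq_abs, abs_of_nonneg hL0,
        abs_of_nonneg hE0, abs_two, if_true,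
        one_ne_zero, if_false, (by decide : (2 : Fin 3) ≠ 0), (by decide : (2 : Fin 3) ≠ 1)]
      ring
    · obtain ⟨a1, a2, a3⟩ := hoff j z hzS
      rw [a2, a3]
      simp only [mul_zero, sub_zero, norm_zero]
      positivity
  have h3 : ∑ i, nn (g i) ≤ 2 * E * D + L * (E * Pn) + L * nn η +
      (∑ i, L * (3 / (1 - k) * (M * (E * D) + om * nn (PF i))) + ∑ _i : ι, L * (E * D)) := by
    rw [Fintype.sum_sum_type, Fintype.sum_sum_type, Fin.sum_univ_three]
    simp only [hg, Sum.elim_inl, Sum.elim_inr]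
    have b0 : nn (fun z => if (0 : Fin 3) = 0 then ((2 * E : ℝ) : ℂ) * X v (u j) t z else
        if (0 : Fin 3) = 1 then ((L * E : ℝ) : ℂ) * P j (z + t * v) else (L : ℂ) * η z) ≤
        2 * E * D := by
      simp only [if_true]
      rw [nn_rmul (by positivity)]
      exact mul_le_mul_of_nonneg_left (hD j) (by positivity)
    have b1 : nn (fun z => if (1 : Fin 3) = 0 then ((2 * E : ℝ) : ℂ) * X v (u j) t z else
        if (1 : Fin 3) = 1 then ((L * E : ℝ) : ℂ) * P j (z + t * v) else (L : ℂ) * η z) ≤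
        L * (E * Pn) := by
      simp only [one_ne_zero, if_true, if_false]
      rw [nn_rmul (by positivity), nn_tr (h.w j).hp, mul_assoc]
      exact mul_le_mul_of_nonneg_left (mul_le_mul_of_nonneg_left (hPn j) hE0) hL0
    have b2 : nn (fun z => if (2 : Fin 3) = 0 then ((2 * E : ℝ) : ℂ) * X v (u j) t z else
        if (2 : Fin 3) = 1 then ((L * E : ℝ) : ℂ) * P j (z + t * v) else (L : ℂ) * η z) ≤
        L * nn η := by
      simp only [(by decide : (2 : Fin 3) ≠ 0), (by decide : (2 : Fin 3) ≠ 1), if_false]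
      rw [nn_rmul hL0]
    have b3 : ∑ i, nn (fun z => (L : ℂ) * (P j (z + t * v) * F i z)) ≤
        ∑ i, L * (3 / (1 - k) * (M * (E * D) + om * nn (PF i))) := by
      refine Finset.sum_le_sum fun i _ => ?_
      rw [nn_rmul hL0]
      exact mul_le_mul_of_nonneg_left (hw i) hL0
    have b4 : ∑ i, nn (fun z => (L : ℂ) * F i z) ≤ ∑ _i : ι, L * (E * D) := by
      refine Finset.sum_le_sum fun i _ => ?_
      rw [nn_rmul hL0]
      exact mul_le_mul_of_nonneg_left (hnF i) hL0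
    exact add_le_add (add_le_add (add_le_add b0 b1) b2) (add_le_add b3 b4)
  have h4 : (∑ i, L * (3 / (1 - k) * (M * (E * D) + om * nn (PF i))) + ∑ _i : ι, L * (E * D)) =
      Fintype.card ι * (L * (3 / (1 - k) * (M * (E * D)))) + Fintype.card ι * (L * (E * D)) +
      L * (3 / (1 - k)) * om * ∑ i, nn (PF i) := by
    rw [Finset.sum_const, nsmul_eq_mul, Finset.card_univ, Finset.mul_sum]
    have : ∀ i : ι, L * (3 / (1 - k) * (M * (E * D) + om * nn (PF i))) =
        L * (3 / (1 - k) * (M * (E * D))) + L * (3 / (1 - k)) * om * nn (PF i) := fun i => by ring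
    simp only [this]
    rw [Finset.sum_add_distrib, Finset.sum_const, nsmul_eq_mul, Finset.card_univ]
    ring
  change (1 - k) * nn (PF j) ≤ (2 * E * D + L * (E * Pn) + L * nn η +
        Fintype.card ι * (L * (3 / (1 - k) * (M * (E * D)))) + Fintype.card ι * (L * (E * D))) +
      L * (3 / (1 - k)) * om * ∑ i, nn (PF i)
  linarith

theorem Tst.lip {η : ℂ → ℂ} (hη : Tst η) : ∃ C, 0 ≤ C ∧ ∀ v : ℂ, ‖v‖ = 1 → ∀ t : ℝ, t ≠ 0 →
    ∀ z, ‖X v η t z‖ ≤ C := by
  obtain ⟨C, hC⟩ := (hη.smooth.of_le (by simp)).lipschitzWith_of_hasCompactSupport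
    hη.supp one_ne_zero
  refine ⟨C, C.2, fun v hv t ht z => ?_⟩
  have h1 := hC.dist_le_mul (z + t * v) z
  rw [dist_eq_norm, dist_eq_norm, add_sub_cancel_left, norm_mul, hv, mul_one, Complex.norm_real,
    Real.norm_eq_abs] at h1
  rw [X, norm_mul, norm_inv, Complex.norm_real, Real.norm_eq_abs,
    inv_mul_le_iff₀ (abs_pos.2 ht)]
  linarith

/-- local `W^{2,2}` regularity -/
theorem Loc.w22 (h : Loc z0 R k L M u P Q a μ) : ∃ ρ, 0 < ρ ∧ ρ ≤ R ∧ ∀ η, Tst η →
    tsupport η ⊆ ball z0 ρ → ∀ j, (∃ r s, W (fun z => η z * P j z) r s) ∧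
      (∃ r s, W (fun z => η z * Q j z) r s) := by
  have hk2 : 0 < 1 - k := by linarith [h.k1]
  have hL0 := h.L0
  have hM0 := h.M0
  set n : ℝ := (Fintype.card ι : ℝ) with hn
  have hn0 : 0 ≤ n := Nat.cast_nonneg _
  set K : ℝ := n * (L * (3 / (1 - k))) with hK
  have hK0 : 0 ≤ K := by positivity
  set om : ℝ := (1 - k) / (2 * (K + 1)) with hom
  have hom0 : 0 < om := by positivity
  have hKom : K * om ≤ (1 - k) / 2 := by
    rw [hom, mul_div_assoc', div_le_div_iff₀ (by positivity) (by norm_num)]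
    nlinarith
  -- the radius
  have h1 : ∃ r1, 0 < r1 ∧ r1 ≤ R ∧ ∀ j, ∀ z ∈ ball z0 r1, ‖u j z - u j z0‖ ≤ om := by
    have h2 : ∀ j, ∀ᶠ r in 𝓝[>] (0 : ℝ), ∀ z ∈ ball z0 r, ‖u j z - u j z0‖ ≤ om := by
      intro j
      obtain ⟨δ, hδ, hδ'⟩ := Metric.continuousAt_iff.1 (h.cont j).continuousAt om hom0
      filter_upwards [Ioo_mem_nhdsGT hδ] with r hr z hz
      rw [← dist_eq_norm]
      exact (hδ' (lt_trans (mem_ball.1 hz) hr.2)).le
    have h3 : ∀ᶠ r in 𝓝[>] (0 : ℝ), ∀ j, ∀ z ∈ ball z0 r, ‖u j z - u j z0‖ ≤ om :=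
      eventually_all.2 h2
    obtain ⟨r, hr, hr'⟩ := (h3.and (Ioo_mem_nhdsGT h.R0)).exists
    exact ⟨r, hr'.1, hr'.2.le, hr⟩
  obtain ⟨r1, hr1, hr1R, hosc⟩ := h1
  refine ⟨r1 / 2, by positivity, by linarith, fun η hη hsup => ?_⟩
  obtain ⟨E1, hE1⟩ := hη.bdd
  obtain ⟨E2, hE2⟩ := hη.dz.bdd
  obtain ⟨E3, hE3⟩ := hη.dzb.bdd
  set E : ℝ := max E1 (max E2 E3) with hE
  have hEE : ∀ z, ‖η z‖ ≤ E ∧ ‖dz η z‖ ≤ E ∧ ‖dzb η z‖ ≤ E := fun z =>
    ⟨(hE1 z).trans (le_max_left _ _), (hE2 z).trans ((le_max_left _ _).trans (le_max_right _ _)),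
      (hE3 z).trans ((le_max_right _ _).trans (le_max_right _ _))⟩
  have hE0 : 0 ≤ E := (norm_nonneg _).trans (hEE 0).1
  obtain ⟨C', hC'0, hC'⟩ := hη.lip
  set D : ℝ := ∑ i, (nn (dd (P i) (Q i) 1) + nn (dd (P i) (Q i) Complex.I)) with hD
  have hD' : ∀ v : ℂ, v = 1 ∨ v = Complex.I → ∀ j, nn (dd (P j) (Q j) v) ≤ D := by
    intro v hv j
    refine le_trans ?_ (Finset.single_le_sum (f := fun i => nn (dd (P i) (Q i) 1) +
      nn (dd (P i) (Q i) Complex.I)) (fun i _ => add_nonneg (nn_nonneg _) (nn_nonneg _))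
      (Finset.mem_univ j))
    rcases hv with rfl | rfl
    · exact le_add_of_nonneg_right (nn_nonneg _)
    · exact le_add_of_nonneg_left (nn_nonneg _)
  have hD0 : 0 ≤ D := Finset.sum_nonneg fun i _ => add_nonneg (nn_nonneg _) (nn_nonneg _)
  set Pn : ℝ := ∑ i, nn (P i) with hPn
  have hPn' : ∀ j, nn (P j) ≤ Pn := fun j =>
    Finset.single_le_sum (f := fun i => nn (P i)) (fun i _ => nn_nonneg _) (Finset.mem_univ j)
  set K1 : ℝ := 2 * E * D + L * (E * Pn) + L * nn η +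
        n * (L * (3 / (1 - k) * (M * (E * D)))) + n * (L * (E * D)) with hK1
  set N0 : ℝ := 2 * (n * K1) / (1 - k) with hN0
  have key : ∀ v : ℂ, v = 1 ∨ v = Complex.I → ∀ t : ℝ, t ≠ 0 → |t| < r1 / 2 →
      ∑ i, nn (fun z => dz η z * X v (u i) t z + η z * X v (P i) t z) ≤ N0 := by
    intro v hv t ht ht'
    have hv1 : ‖v‖ = 1 := by rcases hv with rfl | rfl <;> simp
    have hin : ∀ z ∈ ball z0 (r1 / 2), z + t * v ∈ ball z0 r1 := by
      intro z hz
      rw [mem_ball, dist_eq_norm] at hz ⊢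
      calc ‖z + t * v - z0‖ = ‖(z - z0) + t * v‖ := by congr 1; ring
        _ ≤ ‖z - z0‖ + ‖(t : ℂ) * v‖ := norm_add_le _ _
        _ < r1 := by
            rw [norm_mul, hv1, mul_one, Complex.norm_real, Real.norm_eq_abs]
            linarith
    have h2 := fun j => h.est hom0.le hv1 ht (ball_subset_ball (by linarith : r1 / 2 ≤ R))
      (fun z hz => ball_subset_ball hr1R (hin z hz))
      (fun j z hz => hosc j _ (hin z hz)) hη hsup hEE
      (fun j => (nn_X_le (h.w j) v ht).trans (hD' v hv j)) hPn' j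
    set S : ℝ := ∑ i, nn (fun z => dz η z * X v (u i) t z + η z * X v (P i) t z) with hS
    have h3 : (1 - k) * S ≤ n * (K1 + L * (3 / (1 - k)) * om * S) := by
      rw [hS, Finset.mul_sum, ← hS]
      refine (Finset.sum_le_sum fun j _ => h2 j).trans ?_
      rw [Finset.sum_const, nsmul_eq_mul, Finset.card_univ]
    have hS0 : 0 ≤ S := Finset.sum_nonneg fun i _ => nn_nonneg _
    have h4 : n * (K1 + L * (3 / (1 - k)) * om * S) = n * K1 + K * om * S := by
      rw [hK]; ring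
    have h5 : K * om * S ≤ (1 - k) / 2 * S := mul_le_mul_of_nonneg_right hKom hS0
    rw [hN0, le_div_iff₀ hk2]
    linarith
  intro j
  have hPb : ∀ v : ℂ, v = 1 ∨ v = Complex.I → ∀ t : ℝ, t ≠ 0 → |t| < r1 / 2 →
      nn (fun z => η z * X v (P j) t z) ≤ N0 + E * D ∧
      nn (fun z => η z * X v (Q j) t z) ≤ N0 + E * D := by
    intro v hv t ht ht'
    have h2 := key v hv t ht ht'
    have hW := ((h.w j).X v t).tmul hη
    have h3 : nn (fun z => dz η z * X v (u j) t z + η z * X v (P j) t z) ≤ N0 :=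
      (Finset.single_le_sum (f := fun i => nn (fun z => dz η z * X v (u i) t z +
        η z * X v (P i) t z)) (fun i _ => nn_nonneg _) (Finset.mem_univ j)).trans h2
    have hX : nn (X v (u j) t) ≤ D := (nn_X_le (h.w j) v ht).trans (hD' v hv j)
    constructor
    · have h4 : nn (fun z => η z * X v (P j) t z) ≤
          nn (fun z => dz η z * X v (u j) t z + η z * X v (P j) t z) +
          nn (fun z => dz η z * X v (u j) t z) := by
        refine nn_tri hW.hp (hη.dz.memLp_mul (X_memLp (h.w j).hu v t))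
          (Eventually.of_forall fun z => ?_)
        calc ‖η z * X v (P j) t z‖ = ‖(dz η z * X v (u j) t z + η z * X v (P j) t z) -
              dz η z * X v (u j) t z‖ := by congr 1; ring
          _ ≤ _ := norm_sub_le _ _
      have h5 : nn (fun z => dz η z * X v (u j) t z) ≤ E * D := by
        refine (nn_le hE0 (X_memLp (h.w j).hu v t) (Eventually.of_forall fun z => ?_)).trans
          (mul_le_mul_of_nonneg_left hX hE0)
        rw [norm_mul]
        exact mul_le_mul_of_nonneg_right (hEE z).2.1 (norm_nonneg _)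
      linarith
    · have h4 : nn (fun z => η z * X v (Q j) t z) ≤
          nn (fun z => dzb η z * X v (u j) t z + η z * X v (Q j) t z) +
          nn (fun z => dzb η z * X v (u j) t z) := by
        refine nn_tri hW.hq (hη.dzb.memLp_mul (X_memLp (h.w j).hu v t))
          (Eventually.of_forall fun z => ?_)
        calc ‖η z * X v (Q j) t z‖ = ‖(dzb η z * X v (u j) t z + η z * X v (Q j) t z) -
              dzb η z * X v (u j) t z‖ := by congr 1; ring
          _ ≤ _ := norm_sub_le _ _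
      have h5 : nn (fun z => dzb η z * X v (u j) t z) ≤ E * D := by
        refine (nn_le hE0 (X_memLp (h.w j).hu v t) (Eventually.of_forall fun z => ?_)).trans
          (mul_le_mul_of_nonneg_left hX hE0)
        rw [norm_mul]
        exact mul_le_mul_of_nonneg_right (hEE z).2.2 (norm_nonneg _)
      have h6 := hW.nn_eq
      linarith
  have hfin : ∀ f : ℂ → ℂ, MemLp f 2 (volume : Measure ℂ) →
      (∀ v : ℂ, v = 1 ∨ v = Complex.I → ∀ t : ℝ, t ≠ 0 → |t| < r1 / 2 →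
      nn (fun z => η z * X v f t z) ≤ N0 + E * D) → ∃ r s, W (fun z => η z * f z) r s := by
    intro f hf hb
    refine W.of_bdd (hη.memLp_mul hf) (C := N0 + E * D + C' * nn f)
      (by positivity : 0 < r1 / 2) fun v hv t ht ht' => ?_
    have hv1 : ‖v‖ = 1 := by rcases hv with rfl | rfl <;> simp
    have m1 : MemLp (fun z => X v η t z * f (z + t * v)) 2 (volume : Measure ℂ) :=
      memLp_bdd (X_memLp (hη.memLp 2) v t).1 (hC' v hv1 t ht) (memLp_tr hf _)
    have h2 : nn (X v (fun z => η z * f z) t) ≤ nn (fun z => η z * X v f t z) +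
        nn (fun z => X v η t z * f (z + t * v)) := by
      refine nn_tri (hη.memLp_mul (X_memLp hf v t)) m1 (Eventually.of_forall fun z => ?_)
      calc ‖X v (fun z => η z * f z) t z‖ = ‖η z * X v f t z + X v η t z * f (z + t * v)‖ := by
            congr 1; simp only [X]; ring
        _ ≤ _ := norm_add_le _ _
    have h3 : nn (fun z => X v η t z * f (z + t * v)) ≤ C' * nn f := by
      rw [← nn_tr hf ((t : ℂ) * v)]
      refine nn_le hC'0 (memLp_tr hf _) (Eventually.of_forall fun z => ?_)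
      rw [norm_mul]
      exact mul_le_mul_of_nonneg_right (hC' v hv1 t ht z) (norm_nonneg _)
    have h4 := hb v hv t ht ht'
    linarith
  exact ⟨hfin _ (h.w j).hp fun v hv t ht ht' => (hPb v hv t ht ht').1,
    hfin _ (h.w j).hq fun v hv t ht ht' => (hPb v hv t ht ht').2⟩

end Vale.Agent.P247.H832.R1
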