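import Vale.Agent.P247.H832.R1E

/-!
# Interior regularity of quasilinear Beltrami systems (R1), part F

Adapted radial kernels and the telescoping estimate.
-/

namespace Vale.Agent.P247.H832.R1

open MeasureTheory Set Filter Topology Metric
open scoped ContDiff ComplexConjugate ENNReal

/-- smooth step: `0` for `t ≤ 1/4`, `1` for `t ≥ 1` -/
noncomputable def Hs (t : ℝ) : ℝ := Real.smoothTransition ((4 * t - 1) / 3)

theorem Hs_smooth : ContDiff ℝ ∞ Hs :=
  Real.smoothTransition.contDiff.comp (by fun_prop)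

theorem Hs_zero {t : ℝ} (h : t ≤ 1 / 4) : Hs t = 0 :=
  Real.smoothTransition.zero_of_nonpos (by linarith)

theorem Hs_one {t : ℝ} (h : 1 ≤ t) : Hs t = 1 :=
  Real.smoothTransition.one_of_one_le (by linarith)

theorem Hs_mono : Monotone Hs := fun a b h =>
  Real.smoothTransition.monotone (by linarith)

/-- the difference of two scales, divided by `t` -/
noncomputable def Tq (t : ℝ) : ℝ := (Hs t - Hs (4 * t)) / t

theorem Tq_zero_low {t : ℝ} (h : t ≤ 1 / 16) : Tq t = 0 := by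
  rw [Tq, Hs_zero (by linarith), Hs_zero (by linarith)]; simp

theorem Tq_zero_high {t : ℝ} (h : 1 ≤ t) : Tq t = 0 := by
  rw [Tq, Hs_one h, Hs_one (by linarith)]; simp

theorem Tq_smooth : ContDiff ℝ ∞ Tq := by
  rw [contDiff_iff_contDiffAt]
  intro t
  by_cases h : t < 1 / 16
  · have : Tq =ᶠ[𝓝 t] fun _ => 0 := by
      filter_upwards [Iio_mem_nhds h] with s hs
      exact Tq_zero_low (le_of_lt hs)
    exact contDiffAt_const.congr_of_eventuallyEq this
  · have h0 : t ≠ 0 := by intro h'; rw [h'] at h; norm_num at h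
    have h1 : ContDiff ℝ ∞ fun t => Hs t - Hs (4 * t) :=
      Hs_smooth.sub (Hs_smooth.comp (by fun_prop))
    exact h1.contDiffAt.div contDiffAt_id h0

theorem Tq_mul (t : ℝ) : t * Tq t = Hs t - Hs (4 * t) := by
  by_cases h : t = 0
  · rw [h, zero_mul, mul_zero, sub_self]
  · rw [Tq]; field_simp

/-- the primitive of `Tq` vanishing for `t ≥ 1` -/
noncomputable def Sq (t : ℝ) : ℝ := ∫ s in (1 : ℝ)..t, Tq s

theorem Sq_deriv (t : ℝ) : HasDerivAt Sq (Tq t) t :=
  intervalIntegral.integral_hasDerivAt_right (Tq_smooth.continuous.intervalIntegrable _ _)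
    (Tq_smooth.continuous.stronglyMeasurableAtFilter _ _) Tq_smooth.continuous.continuousAt

theorem Sq_smooth : ContDiff ℝ ∞ Sq := by
  rw [contDiff_infty_iff_deriv]
  refine ⟨fun t => (Sq_deriv t).differentiableAt, ?_⟩
  have : deriv Sq = Tq := by
    funext t
    exact (Sq_deriv t).deriv
  rw [this]
  exact Tq_smooth

theorem Sq_zero {t : ℝ} (h : 1 ≤ t) : Sq t = 0 := by
  rw [Sq]
  have : ∀ s ∈ uIcc 1 t, Tq s = 0 := by
    intro s hs
    rw [uIcc_of_le h] at hs
    exact Tq_zero_high hs.1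
  rw [intervalIntegral.integral_congr (g := fun _ => 0) (fun s hs => this s hs)]
  simp

/-- squared modulus, real valued -/
noncomputable def sqm (w : ℂ) : ℝ := Complex.normSq w

theorem sqm_smooth : ContDiff ℝ ∞ sqm := by
  have : sqm = fun w : ℂ => w.re * w.re + w.im * w.im := by
    funext w; rw [sqm, Complex.normSq_apply]
  rw [this]
  have h1 : ContDiff ℝ ∞ fun w : ℂ => w.re := Complex.reCLM.contDiff
  have h2 : ContDiff ℝ ∞ fun w : ℂ => w.im := Complex.imCLM.contDiff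
  exact (h1.mul h1).add (h2.mul h2)

theorem sqm_hasFDerivAt (w : ℂ) : ∃ L : ℂ →L[ℝ] ℝ, HasFDerivAt sqm L w ∧
    ∀ v, ((L v : ℝ) : ℂ) = conj w * v + w * conj v := by
  have h1 : HasFDerivAt (fun w : ℂ => w.re) Complex.reCLM w := Complex.reCLM.hasFDerivAt
  have h2 : HasFDerivAt (fun w : ℂ => w.im) Complex.imCLM w := Complex.imCLM.hasFDerivAt
  have h3 := (h1.mul h1).add (h2.mul h2)
  have e : sqm = ((fun w : ℂ => w.re) * fun w : ℂ => w.re) +
      ((fun w : ℂ => w.im) * fun w : ℂ => w.im) := by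
    funext w; rw [sqm, Complex.normSq_apply]; rfl
  rw [e]
  refine ⟨_, h3, fun v => ?_⟩
  simp only [_root_.add_apply, _root_.smul_apply, Complex.reCLM_apply,
    Complex.imCLM_apply, smul_eq_mul]
  apply Complex.ext
  · simp; ring
  · simp; ring

theorem dz_of {f : ℂ → ℂ} {a b z : ℂ} {L : ℂ →L[ℝ] ℂ} (h : HasFDerivAt f L z)
    (h' : ∀ v, L v = a * v + b * conj v) : dz f z = a ∧ dzb f z = b := by
  rw [dz, dzb, h.fderiv, h', h', map_one, Complex.conj_I]
  constructor
  · linear_combination ((b - a) / 2) * Complex.I_sq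
  · linear_combination ((a - b) / 2) * Complex.I_sq

theorem fderiv_of_dz {f : ℂ → ℂ} {z : ℂ} (v : ℂ) :
    fderiv ℝ f z v = dz f z * v + dzb f z * conj v := (dd_dz f v z).symm

/-- radial functions -/
theorem radial_d {g : ℝ → ℝ} (hg : ContDiff ℝ ∞ g) (w : ℂ) :
    dz (fun w => (g (sqm w) : ℂ)) w = ((deriv g (sqm w) : ℝ) : ℂ) * conj w ∧
    dzb (fun w => (g (sqm w) : ℂ)) w = ((deriv g (sqm w) : ℝ) : ℂ) * w := by
  obtain ⟨L, hL, hL'⟩ := sqm_hasFDerivAt w
  have h1 : HasDerivAt g (deriv g (sqm w)) (sqm w) :=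
    (hg.differentiable (by simp) _).hasDerivAt
  have h2 := h1.comp_hasFDerivAt w hL
  have h3 : HasFDerivAt (fun w => (g (sqm w) : ℂ))
      (Complex.ofRealCLM.comp (deriv g (sqm w) • L)) w :=
    Complex.ofRealCLM.hasFDerivAt.comp w h2
  refine dz_of h3 fun v => ?_
  simp only [ContinuousLinearMap.comp_apply, _root_.smul_apply, smul_eq_mul,
    Complex.ofRealCLM_apply, Complex.ofReal_mul, hL']
  ring

theorem radial_smooth {g : ℝ → ℝ} (hg : ContDiff ℝ ∞ g) :
    ContDiff ℝ ∞ (fun w => (g (sqm w) : ℂ)) :=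
  Complex.ofRealCLM.contDiff.comp (hg.comp sqm_smooth)

theorem sqm_eq (w : ℂ) : sqm w = ‖w‖ ^ 2 := Complex.normSq_eq_norm_sq w

theorem supp_of_sqm {f : ℂ → ℂ} (h : ∀ w, 1 < ‖w‖ → f w = 0) : HasCompactSupport f := by
  refine HasCompactSupport.intro (isCompact_closedBall (0 : ℂ) 1) fun w hw => h w ?_
  rw [mem_closedBall_zero_iff] at hw
  exact not_le.1 hw

/-- the averaging kernel -/
noncomputable def Gk (w : ℂ) : ℂ := ((deriv Hs (sqm w) : ℝ) : ℂ)

theorem deriv_Hs_zero {t : ℝ} (h : 1 < t) : deriv Hs t = 0 := by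
  have : Hs =ᶠ[𝓝 t] fun _ => 1 := by
    filter_upwards [Ioi_mem_nhds h] with s hs
    exact Hs_one (le_of_lt hs)
  rw [this.deriv_eq, deriv_const]

theorem deriv_Hs_smooth : ContDiff ℝ ∞ (deriv Hs) :=
  (contDiff_infty_iff_deriv.1 Hs_smooth).2

theorem Gk_tst : Tst Gk where
  smooth := radial_smooth deriv_Hs_smooth
  supp := supp_of_sqm fun w hw => by
    rw [Gk, deriv_Hs_zero (by rw [sqm_eq]; nlinarith)]; simp

/-- the potential -/
noncomputable def Ψk (w : ℂ) : ℂ := conj w * ((Tq (sqm w) : ℝ) : ℂ)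

theorem Ψk_tst : Tst Ψk where
  smooth := (Complex.conjCLE.contDiff).mul (radial_smooth Tq_smooth)
  supp := supp_of_sqm fun w hw => by
    rw [Ψk, Tq_zero_high (by rw [sqm_eq]; nlinarith)]; simp

/-- the second potential -/
noncomputable def θk (w : ℂ) : ℂ := ((Sq (sqm w) : ℝ) : ℂ)

theorem θk_tst : Tst θk where
  smooth := radial_smooth Sq_smooth
  supp := supp_of_sqm fun w hw => by
    rw [θk, Sq_zero (by rw [sqm_eq]; nlinarith)]; simp

theorem θk_dz (w : ℂ) : dz θk w = Ψk w := by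
  have h := (radial_d Sq_smooth w).1
  have e : θk = fun w => (Sq (sqm w) : ℂ) := rfl
  rw [e, h, (Sq_deriv (sqm w)).deriv, Ψk]
  ring

theorem Ψk_dzb (w : ℂ) : dzb Ψk w = Gk w - 4 * Gk (2 * w) := by
  have h1 : HasFDerivAt (fun w : ℂ => conj w) (Complex.conjCLE : ℂ →L[ℝ] ℂ) w :=
    Complex.conjCLE.hasFDerivAt
  have h2 : HasFDerivAt (fun w => (Tq (sqm w) : ℂ)) (fderiv ℝ (fun w => (Tq (sqm w) : ℂ)) w) w :=
    ((radial_smooth Tq_smooth).differentiable (by simp) w).hasFDerivAt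
  have h3 := h1.mul h2
  have h4 : dzb (fun w => conj w * (Tq (sqm w) : ℂ)) w =
      conj w * dzb (fun w => (Tq (sqm w) : ℂ)) w + (Tq (sqm w) : ℂ) := by
    refine (dz_of (a := conj w * dz (fun w => (Tq (sqm w) : ℂ)) w) h3 fun v => ?_).2
    simp only [_root_.add_apply, _root_.smul_apply, smul_eq_mul]
    rw [fderiv_of_dz]
    simp only [ContinuousLinearEquiv.coe_coe, Complex.conjCLE_apply]
    ring
  have e : Ψk = fun w => conj w * (Tq (sqm w) : ℂ) := rfl
  rw [e, h4, (radial_d Tq_smooth w).2]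
  -- the radial identity (t T)' = H' - 4 H'(4 t)
  have h5 : HasDerivAt (fun t => t * Tq t) (1 * Tq (sqm w) + sqm w * deriv Tq (sqm w)) (sqm w) :=
    (hasDerivAt_id (sqm w)).mul (Tq_smooth.differentiable (by simp) _).hasDerivAt
  have h6 : HasDerivAt (fun t => Hs t - Hs (4 * t))
      (deriv Hs (sqm w) - deriv Hs (4 * sqm w) * 4) (sqm w) := by
    refine HasDerivAt.sub (Hs_smooth.differentiable (by simp) _).hasDerivAt ?_
    have h7 : HasDerivAt (fun t : ℝ => 4 * t) 4 (sqm w) := by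
      simpa using (hasDerivAt_id (sqm w)).const_mul 4
    exact (Hs_smooth.differentiable (by simp) _).hasDerivAt.comp (sqm w) h7
  have h8 : (fun t => t * Tq t) = fun t => Hs t - Hs (4 * t) := by
    funext t; exact Tq_mul t
  rw [h8] at h5
  have h9 := h5.unique h6
  have e1 : sqm (2 * w) = 4 * sqm w := by
    rw [sqm, sqm, Complex.normSq_mul]; norm_num
  have e2 : (conj w * w : ℂ) = ((sqm w : ℝ) : ℂ) := by
    rw [sqm, mul_comm, Complex.mul_conj]
  have e3 : ((1 * Tq (sqm w) + sqm w * deriv Tq (sqm w) : ℝ) : ℂ) =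
      ((deriv Hs (sqm w) - deriv Hs (4 * sqm w) * 4 : ℝ) : ℂ) := by rw [h9]
  push_cast at e3
  rw [Gk, Gk, e1]
  linear_combination e3 + ((deriv Tq (sqm w) : ℝ) : ℂ) * e2

end Vale.Agent.P247.H832.R1
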