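import Vale.Agent.P247.H832.R1F

/-!
# Interior regularity of quasilinear Beltrami systems (R1), part G

Adapted averages, the telescoping estimate and its consequences.
-/

namespace Vale.Agent.P247.H832.R1

open MeasureTheory Set Filter Topology Metric
open scoped ContDiff ComplexConjugate ENNReal

/-- the adapted linear coordinate -/
noncomputable def ka (ρ : ℝ) (ν x y : ℂ) : ℂ := ((ρ : ℂ)⁻¹) * ((y - x) + ν * conj (y - x))

theorem ka_lower {ρ k : ℝ} {ν : ℂ} (hρ : 0 < ρ) (hν : ‖ν‖ ≤ k) (x y : ℂ) :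
    (1 - k) * ‖y - x‖ ≤ ρ * ‖ka ρ ν x y‖ := by
  rw [ka, norm_mul, norm_inv, Complex.norm_real, Real.norm_eq_abs, abs_of_pos hρ,
    mul_inv_cancel_left₀ hρ.ne']
  have h1 : ‖y - x‖ - ‖ν * conj (y - x)‖ ≤ ‖(y - x) + ν * conj (y - x)‖ := by
    have := norm_sub_norm_le (y - x) (-(ν * conj (y - x)))
    rwa [norm_neg, sub_neg_eq_add] at this
  have h2 : ‖ν * conj (y - x)‖ ≤ k * ‖y - x‖ := by
    rw [norm_mul, RCLike.norm_conj]
    exact mul_le_mul_of_nonneg_right hν (norm_nonneg _)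
  linarith

theorem ka_supp {ρ k : ℝ} {ν x y : ℂ} (hρ : 0 < ρ) (hν : ‖ν‖ ≤ k) (hk : k < 1)
    (h : ρ / (1 - k) < ‖y - x‖) : 1 < ‖ka ρ ν x y‖ := by
  have h1 := ka_lower hρ hν x y
  rw [div_lt_iff₀ (by linarith)] at h
  by_contra h2
  push Not at h2
  nlinarith

theorem ka_hasFDerivAt (ρ : ℝ) (ν x y : ℂ) : ∃ L : ℂ →L[ℝ] ℂ, HasFDerivAt (ka ρ ν x) L y ∧
    ∀ v, L v = ((ρ : ℂ)⁻¹) * (v + ν * conj v) := by
  have h1 : HasFDerivAt (fun y : ℂ => y - x) (ContinuousLinearMap.id ℝ ℂ) y :=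
    (hasFDerivAt_id y).sub_const x
  have h2 : HasFDerivAt (fun y : ℂ => conj (y - x)) ((Complex.conjCLE : ℂ →L[ℝ] ℂ).comp
      (ContinuousLinearMap.id ℝ ℂ)) y := (Complex.conjCLE.hasFDerivAt (x := y - x)).comp y h1
  have h3 := (h1.add (h2.const_mul ν)).const_mul ((ρ : ℂ)⁻¹)
  refine ⟨_, h3, fun v => ?_⟩
  simp
  ring

theorem ka_smooth (ρ : ℝ) (ν x : ℂ) : ContDiff ℝ ∞ (ka ρ ν x) := by
  have h1 : ContDiff ℝ ∞ fun y : ℂ => y - x := contDiff_id.sub contDiff_const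
  have h2 : ContDiff ℝ ∞ fun y : ℂ => conj (y - x) := Complex.conjCLE.contDiff.comp h1
  exact contDiff_const.mul (h1.add (contDiff_const.mul h2))

theorem comp_ka {Φ : ℂ → ℂ} (hΦ : Tst Φ) (ρ : ℝ) (ν x y : ℂ) :
    dz (fun y => Φ (ka ρ ν x y)) y =
      (ρ : ℂ)⁻¹ * (dz Φ (ka ρ ν x y) + conj ν * dzb Φ (ka ρ ν x y)) ∧
    dzb (fun y => Φ (ka ρ ν x y)) y =
      (ρ : ℂ)⁻¹ * (ν * dz Φ (ka ρ ν x y) + dzb Φ (ka ρ ν x y)) := by
  obtain ⟨L, hL, hL'⟩ := ka_hasFDerivAt ρ ν x y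
  have h1 := (hΦ.smooth.differentiable (by simp) (ka ρ ν x y)).hasFDerivAt.comp y hL
  refine dz_of h1 fun v => ?_
  rw [ContinuousLinearMap.comp_apply, fderiv_of_dz, hL', map_mul, map_add, map_mul, map_inv₀,
    Complex.conj_ofReal, Complex.conj_conj]
  ring

/-- functions supported in the closed unit disc -/
def Sup1 (Φ : ℂ → ℂ) : Prop := ∀ w, 1 < ‖w‖ → Φ w = 0

theorem Gk_sup : Sup1 Gk := fun w hw => by
  rw [Gk, deriv_Hs_zero (by rw [sqm_eq]; nlinarith)]; simp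

theorem Ψk_sup : Sup1 Ψk := fun w hw => by
  rw [Ψk, Tq_zero_high (by rw [sqm_eq]; nlinarith)]; simp

theorem θk_sup : Sup1 θk := fun w hw => by
  rw [θk, Sq_zero (by rw [sqm_eq]; nlinarith)]; simp

theorem comp_ka_tst {Φ : ℂ → ℂ} (hΦ : Tst Φ) (hs : Sup1 Φ) {ρ : ℝ} {ν : ℂ} (hρ : 0 < ρ)
    (hν : ‖ν‖ < 1) (x : ℂ) : Tst (fun y => Φ (ka ρ ν x y)) where
  smooth := hΦ.smooth.comp (ka_smooth ρ ν x)
  supp := by
    refine HasCompactSupport.intro (isCompact_closedBall x (ρ / (1 - ‖ν‖))) fun y hy => ?_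
    refine hs _ (ka_supp hρ le_rfl hν ?_)
    rw [mem_closedBall, not_le, dist_eq_norm] at hy
    exact hy

theorem W.eqz {u p q : ℂ → ℂ} (h : W u p q) {φ : ℂ → ℂ} (hφ : Tst φ) :
    ∫ z, dz φ z * u z = - ∫ z, φ z * p z := by
  have h1 := h.eq φ hφ 1
  have h2 := h.eq φ hφ Complex.I
  have e1 : ∫ z, dz φ z * u z = (1 / 2) * (∫ z, fderiv ℝ φ z 1 * u z) -
      (Complex.I / 2) * (∫ z, fderiv ℝ φ z Complex.I * u z) := by
    rw [← integral_const_mul, ← integral_const_mul, ← integral_sub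
      ((int2 ((hφ.fderiv_apply 1).memLp 2) h.hu).const_mul _)
      ((int2 ((hφ.fderiv_apply Complex.I).memLp 2) h.hu).const_mul _)]
    congr 1; funext z; rw [dz]; ring
  have e2 : ∫ z, φ z * p z = (1 / 2) * (∫ z, φ z * dd p q 1 z) -
      (Complex.I / 2) * (∫ z, φ z * dd p q Complex.I z) := by
    rw [← integral_const_mul, ← integral_const_mul, ← integral_sub
      ((int2 (hφ.memLp 2) (h.hd 1)).const_mul _) ((int2 (hφ.memLp 2) (h.hd _)).const_mul _)]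
    congr 1; funext z; simp only [dd, map_one, Complex.conj_I]
    linear_combination (φ z * p z - φ z * q z) / 2 * Complex.I_sq
  rw [e1, e2, h1, h2]
  ring

theorem W.eqzb {u p q : ℂ → ℂ} (h : W u p q) {φ : ℂ → ℂ} (hφ : Tst φ) :
    ∫ z, dzb φ z * u z = - ∫ z, φ z * q z := by
  have h1 := h.eq φ hφ 1
  have h2 := h.eq φ hφ Complex.I
  have e1 : ∫ z, dzb φ z * u z = (1 / 2) * (∫ z, fderiv ℝ φ z 1 * u z) +
      (Complex.I / 2) * (∫ z, fderiv ℝ φ z Complex.I * u z) := by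
    rw [← integral_const_mul, ← integral_const_mul, ← integral_add
      ((int2 ((hφ.fderiv_apply 1).memLp 2) h.hu).const_mul _)
      ((int2 ((hφ.fderiv_apply Complex.I).memLp 2) h.hu).const_mul _)]
    congr 1; funext z; rw [dzb]; ring
  have e2 : ∫ z, φ z * q z = (1 / 2) * (∫ z, φ z * dd p q 1 z) +
      (Complex.I / 2) * (∫ z, φ z * dd p q Complex.I z) := by
    rw [← integral_const_mul, ← integral_const_mul, ← integral_add
      ((int2 (hφ.memLp 2) (h.hd 1)).const_mul _) ((int2 (hφ.memLp 2) (h.hd _)).const_mul _)]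
    congr 1; funext z; simp only [dd, map_one, Complex.conj_I]
    linear_combination (φ z * q z - φ z * p z) / 2 * Complex.I_sq
  rw [e1, e2, h1, h2]
  ring

/-- the adapted average -/
noncomputable def Av (ρ : ℝ) (ν x : ℂ) (u : ℂ → ℂ) : ℂ :=
  ((ρ : ℂ)⁻¹) ^ 2 * ∫ y, Gk (ka ρ ν x y) * u y

theorem norm_lt_of {ν : ℂ} {k : ℝ} (h : ‖ν‖ ≤ k) (hk : k < 1) : ‖ν‖ < 1 := lt_of_le_of_lt h hk

/-- the telescoping identity -/
theorem Av_sub {u p q : ℂ → ℂ} (h : W u p q) {ρ : ℝ} (hρ : 0 < ρ) {ν : ℂ} (hν : ‖ν‖ < 1) (x : ℂ) :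
    ((1 - ‖ν‖ ^ 2 : ℝ) : ℂ) * (Av ρ ν x u - Av (ρ / 2) ν x u) =
      - ((ρ : ℂ)⁻¹ * ∫ y, Ψk (ka ρ ν x y) * (q y - ν * p y)) := by
  have hΨ := comp_ka_tst Ψk_tst Ψk_sup hρ hν x
  have hG := comp_ka_tst Gk_tst Gk_sup hρ hν x
  have hG2 := comp_ka_tst Gk_tst Gk_sup (ρ := ρ / 2) (by positivity) hν x
  have hρ' : (ρ : ℂ) ≠ 0 := by exact_mod_cast hρ.ne'
  have e0 : ∀ y, ka (ρ / 2) ν x y = 2 * ka ρ ν x y := by
    intro y
    rw [ka, ka]
    push_cast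
    field_simp
  have hν2 : (conj ν * ν : ℂ) = ((‖ν‖ ^ 2 : ℝ) : ℂ) := by
    rw [mul_comm, Complex.mul_conj, Complex.normSq_eq_norm_sq]
  have h1 : ∀ y, dzb (fun y => Ψk (ka ρ ν x y)) y - ν * dz (fun y => Ψk (ka ρ ν x y)) y =
      (ρ : ℂ)⁻¹ * (((1 - ‖ν‖ ^ 2 : ℝ) : ℂ) * (Gk (ka ρ ν x y) - 4 * Gk (ka (ρ / 2) ν x y))) := by
    intro y
    rw [(comp_ka Ψk_tst ρ ν x y).1, (comp_ka Ψk_tst ρ ν x y).2, e0, ← Ψk_dzb]
    push_cast
    push_cast at hν2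
    linear_combination (-(ρ : ℂ)⁻¹ * dzb Ψk (ka ρ ν x y)) * hν2
  have h2 := h.eqz hΨ
  have h3 := h.eqzb hΨ
  have h4 : (∫ y, dzb (fun y => Ψk (ka ρ ν x y)) y * u y) -
      ν * (∫ y, dz (fun y => Ψk (ka ρ ν x y)) y * u y) =
      ∫ y, ((ρ : ℂ)⁻¹ * (((1 - ‖ν‖ ^ 2 : ℝ) : ℂ) *
        (Gk (ka ρ ν x y) - 4 * Gk (ka (ρ / 2) ν x y)))) * u y := by
    rw [← integral_const_mul, ← integral_sub (int2 (hΨ.dzb.memLp 2) h.hu)
      ((int2 (hΨ.dz.memLp 2) h.hu).const_mul _)]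
    refine integral_congr_ae (Eventually.of_forall fun y => ?_)
    simp only
    rw [← h1]
    ring
  have h5 : ∫ y, ((ρ : ℂ)⁻¹ * (((1 - ‖ν‖ ^ 2 : ℝ) : ℂ) *
        (Gk (ka ρ ν x y) - 4 * Gk (ka (ρ / 2) ν x y)))) * u y =
      (ρ : ℂ)⁻¹ * (((1 - ‖ν‖ ^ 2 : ℝ) : ℂ) * ((∫ y, Gk (ka ρ ν x y) * u y) -
        4 * ∫ y, Gk (ka (ρ / 2) ν x y) * u y)) := by
    rw [← integral_const_mul 4, ← integral_sub (int2 (hG.memLp 2) h.hu)
      ((int2 (hG2.memLp 2) h.hu).const_mul _), ← integral_const_mul, ← integral_const_mul]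
    congr 1; funext y; ring
  have h6 : ∫ y, Ψk (ka ρ ν x y) * (q y - ν * p y) =
      (∫ y, Ψk (ka ρ ν x y) * q y) - ν * ∫ y, Ψk (ka ρ ν x y) * p y := by
    rw [← integral_const_mul, ← integral_sub (int2 (hΨ.memLp 2) h.hq)
      ((int2 (hΨ.memLp 2) h.hp).const_mul _)]
    congr 1; funext y; ring
  rw [h5, h2, h3] at h4
  rw [h6, Av, Av]
  push_cast at h4 ⊢
  have hρ2 : (ρ : ℂ)⁻¹ * (ρ : ℂ) = 1 := inv_mul_cancel₀ hρ'
  have e5 : ((ρ : ℂ) / 2)⁻¹ ^ 2 = 4 * ((ρ : ℂ)⁻¹) ^ 2 := by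
    rw [inv_div]; field_simp; norm_num
  rw [e5]
  linear_combination (-(ρ : ℂ)⁻¹) * h4

/-- the localized `L²` norm -/
noncomputable def nB (x : ℂ) (r : ℝ) (f : ℂ → ℂ) : ℝ := nn ((closedBall x r).indicator f)

theorem nB_nonneg (x : ℂ) (r : ℝ) (f : ℂ → ℂ) : 0 ≤ nB x r f := nn_nonneg _

theorem nB_memLp {f : ℂ → ℂ} (hf : MemLp f 2 (volume : Measure ℂ)) (x : ℂ) (r : ℝ) :
    MemLp ((closedBall x r).indicator f) 2 (volume : Measure ℂ) :=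
  hf.indicator measurableSet_closedBall

theorem nB_le_nn {f : ℂ → ℂ} (hf : MemLp f 2 (volume : Measure ℂ)) (x : ℂ) (r : ℝ) :
    nB x r f ≤ nn f := by
  refine nn_mono hf (Eventually.of_forall fun z => ?_)
  exact norm_indicator_le_norm_self _ _

/-- comparison on a ball -/
theorem nB_le {f g : ℂ → ℂ} {c : ℝ} (hc : 0 ≤ c) (hg : MemLp g 2 (volume : Measure ℂ)) {x : ℂ}
    {r : ℝ} (h : ∀ᵐ z, z ∈ closedBall x r → ‖f z‖ ≤ c * ‖g z‖) : nB x r f ≤ c * nn g := by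
  refine nn_le hc hg ?_
  filter_upwards [h] with z hz
  by_cases hz' : z ∈ closedBall x r
  · rw [indicator_of_mem hz']; exact hz hz'
  · rw [indicator_of_notMem hz', norm_zero]; positivity

theorem nB_mono {f g : ℂ → ℂ} (hg : MemLp g 2 (volume : Measure ℂ)) {x y : ℂ}
    {r s : ℝ} (hs : closedBall x r ⊆ closedBall y s)
    (h : ∀ᵐ z, z ∈ closedBall x r → ‖f z‖ ≤ ‖g z‖) : nB x r f ≤ nB y s g := by
  refine nn_mono (nB_memLp hg y s) ?_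
  filter_upwards [h] with z hz
  by_cases hz' : z ∈ closedBall x r
  · rw [indicator_of_mem hz', indicator_of_mem (hs hz')]; exact hz hz'
  · rw [indicator_of_notMem hz', norm_zero]; exact norm_nonneg _

theorem nB_tri {f g h : ℂ → ℂ} (hg : MemLp g 2 (volume : Measure ℂ))
    (hh : MemLp h 2 (volume : Measure ℂ)) {x : ℂ} {r : ℝ}
    (H : ∀ᵐ z, z ∈ closedBall x r → ‖f z‖ ≤ ‖g z‖ + ‖h z‖) :
    nB x r f ≤ nB x r g + nB x r h := by
  refine nn_tri (nB_memLp hg x r) (nB_memLp hh x r) ?_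
  filter_upwards [H] with z hz
  by_cases hz' : z ∈ closedBall x r
  · rw [indicator_of_mem hz', indicator_of_mem hz', indicator_of_mem hz']; exact hz hz'
  · rw [indicator_of_notMem hz', norm_zero]; positivity

theorem nn_supp {g : ℂ → ℂ} {C r : ℝ} {x : ℂ} (hr : 0 ≤ r) (hC : ∀ y, ‖g y‖ ≤ C)
    (h0 : ∀ y ∉ closedBall x r, g y = 0) : nn g ≤ C * (Real.sqrt Real.pi * r) := by
  have hC0 : 0 ≤ C := (norm_nonneg _).trans (hC 0)
  have hfin : volume (closedBall x r) ≠ ⊤ := (isCompact_closedBall x r).measure_lt_top.ne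
  have h1 : MemLp ((closedBall x r).indicator fun _ => (1 : ℂ)) 2 (volume : Measure ℂ) :=
    memLp_indicator_const 2 measurableSet_closedBall 1 (Or.inr hfin)
  have h2 : nn g ≤ C * nn ((closedBall x r).indicator fun _ => (1 : ℂ)) := by
    refine nn_le hC0 h1 (Eventually.of_forall fun y => ?_)
    by_cases hy : y ∈ closedBall x r
    · rw [indicator_of_mem hy, norm_one, mul_one]; exact hC y
    · rw [indicator_of_notMem hy, h0 y hy]; simp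
  refine h2.trans (mul_le_mul_of_nonneg_left (le_of_eq ?_) hC0)
  rw [nn, eLpNorm_indicator_const measurableSet_closedBall (by norm_num) (by norm_num)]
  simp only [enorm_one, one_mul, ENNReal.toReal_ofNat, one_div]
  rw [Complex.volume_closedBall, ← ENNReal.toReal_rpow, ENNReal.toReal_mul, ENNReal.toReal_pow,
    ENNReal.toReal_ofReal hr, ENNReal.coe_toReal, ← one_div, ← Real.sqrt_eq_rpow,
    mul_comm (r ^ 2), Real.sqrt_mul' _ (sq_nonneg r), Real.sqrt_sq hr]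
  rfl

theorem int_ball {Φ f : ℂ → ℂ} (hΦ : MemLp Φ 2 (volume : Measure ℂ))
    (hf : MemLp f 2 (volume : Measure ℂ)) {x : ℂ} {r : ℝ} (h0 : ∀ y ∉ closedBall x r, Φ y = 0) :
    ‖∫ y, Φ y * f y‖ ≤ nn Φ * nB x r f := by
  have e : ∫ y, Φ y * f y = ∫ y, Φ y * (closedBall x r).indicator f y := by
    congr 1
    funext y
    by_cases hy : y ∈ closedBall x r
    · rw [indicator_of_mem hy]
    · rw [h0 y hy]; simp
  rw [e]
  exact cs' hΦ (nB_memLp hf x r)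

/-- the telescoping estimate (K) -/
theorem Av_tel {k : ℝ} (hk : k < 1) (hk0 : 0 ≤ k) : ∃ C, 0 ≤ C ∧ ∀ {u p q : ℂ → ℂ}, W u p q →
    ∀ {ρ : ℝ}, 0 < ρ → ∀ {ν : ℂ}, ‖ν‖ ≤ k → ∀ x : ℂ,
    ‖Av ρ ν x u - Av (ρ / 2) ν x u‖ ≤ C * nB x (ρ / (1 - k)) (fun y => q y - ν * p y) := by
  obtain ⟨CΨ, hCΨ⟩ := Ψk_tst.bdd
  have hCΨ0 : 0 ≤ CΨ := (norm_nonneg _).trans (hCΨ 0)
  have hk1 : 0 < 1 - k := by linarith
  have hk2 : 0 < 1 - k ^ 2 := by nlinarith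
  refine ⟨CΨ * (Real.sqrt Real.pi / (1 - k)) / (1 - k ^ 2), by positivity, ?_⟩
  intro u p q h ρ hρ ν hν x
  have hν1 : ‖ν‖ < 1 := norm_lt_of hν hk
  have h1 := Av_sub h hρ hν1 x
  have hoff : ∀ y ∉ closedBall x (ρ / (1 - k)), Ψk (ka ρ ν x y) = 0 := by
    intro y hy
    rw [mem_closedBall, not_le, dist_eq_norm] at hy
    exact Ψk_sup _ (ka_supp hρ hν hk hy)
  have hm : MemLp (fun y => q y - ν * p y) 2 (volume : Measure ℂ) := h.hq.sub (h.hp.const_mul ν)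
  have h2 := int_ball ((comp_ka_tst Ψk_tst Ψk_sup hρ hν1 x).memLp 2) hm hoff
  have h3 : nn (fun y => Ψk (ka ρ ν x y)) ≤ CΨ * (Real.sqrt Real.pi * (ρ / (1 - k))) :=
    nn_supp (by positivity) (fun y => hCΨ _) hoff
  set N := nB x (ρ / (1 - k)) (fun y => q y - ν * p y) with hN
  have hN0 : 0 ≤ N := nB_nonneg _ _ _
  have h4 : (1 - ‖ν‖ ^ 2) * ‖Av ρ ν x u - Av (ρ / 2) ν x u‖ ≤
      CΨ * (Real.sqrt Real.pi / (1 - k)) * N := by
    have h5 := congrArg norm h1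
    rw [norm_mul, Complex.norm_real, Real.norm_eq_abs,
      abs_of_pos (by nlinarith [norm_nonneg ν] : 0 < 1 - ‖ν‖ ^ 2), norm_neg, norm_mul, norm_inv,
      Complex.norm_real, Real.norm_eq_abs, abs_of_pos hρ] at h5
    rw [h5, inv_mul_le_iff₀ hρ]
    refine h2.trans ((mul_le_mul_of_nonneg_right h3 hN0).trans (le_of_eq ?_))
    ring
  have h6 : 1 - k ^ 2 ≤ 1 - ‖ν‖ ^ 2 := by nlinarith [norm_nonneg ν]
  rw [div_mul_eq_mul_div, le_div_iff₀ hk2]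
  have h7 := mul_le_mul_of_nonneg_right h6 (norm_nonneg (Av ρ ν x u - Av (ρ / 2) ν x u))
  linarith

end Vale.Agent.P247.H832.R1
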