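import Vale.Agent.P247.H832.R1G

/-!
# Interior regularity of quasilinear Beltrami systems (R1), part H

Limits of adapted averages; the modulus of continuity of functions with `W^{1,2}` gradient.
-/

namespace Vale.Agent.P247.H832.R1

open MeasureTheory Set Filter Topology Metric
open scoped ContDiff ComplexConjugate ENNReal

/-- the mass of the adapted kernel -/
noncomputable def ms (ν : ℂ) : ℂ := ∫ y, Gk (y + ν * conj y)

theorem ka_scale {ρ : ℝ} (hρ : 0 < ρ) (ν x y : ℂ) :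
    ka ρ ν x (x + ρ * y) = y + ν * conj y := by
  have hρ' : (ρ : ℂ) ≠ 0 := by exact_mod_cast hρ.ne'
  rw [ka, add_sub_cancel_left, map_mul, Complex.conj_ofReal]
  field_simp

theorem Av_eq {ρ : ℝ} (hρ : 0 < ρ) (ν x : ℂ) (u : ℂ → ℂ) :
    Av ρ ν x u = ∫ y, Gk (y + ν * conj y) * u (x + ρ * y) := by
  have h1 := Measure.integral_comp_smul (volume : Measure ℂ)
    (fun y => Gk (ka ρ ν x (x + y)) * u (x + y)) ρ
  rw [Complex.finrank_real_complex, abs_of_pos (by positivity)] at h1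
  have h2 : ∫ y, Gk (ka ρ ν x (x + y)) * u (x + y) = ∫ y, Gk (ka ρ ν x y) * u y :=
    integral_add_left_eq_self (μ := (volume : Measure ℂ)) (fun y => Gk (ka ρ ν x y) * u y) x
  rw [h2] at h1
  rw [Av]
  have h3 : ((ρ : ℂ)⁻¹) ^ 2 * ∫ y, Gk (ka ρ ν x y) * u y =
      (ρ ^ 2)⁻¹ • ∫ y, Gk (ka ρ ν x y) * u y := by
    rw [Complex.real_smul]; push_cast; ring
  rw [h3, ← h1]
  congr 1
  funext y
  rw [Complex.real_smul, ka_scale hρ]

theorem kern_tst {ν : ℂ} (hν : ‖ν‖ < 1) : Tst (fun y => Gk (y + ν * conj y)) := by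
  have h := comp_ka_tst Gk_tst Gk_sup (ρ := 1) one_pos hν 0
  convert h using 3
  rw [ka]; simp

theorem kern_supp {k : ℝ} {ν : ℂ} (hν : ‖ν‖ ≤ k) (hk : k < 1) {y : ℂ} (hy : 1 / (1 - k) < ‖y‖) :
    Gk (y + ν * conj y) = 0 := by
  have h := ka_supp (x := 0) (y := y) one_pos hν hk (by simpa using hy)
  have e : ka 1 ν 0 y = y + ν * conj y := by rw [ka]; simp
  rw [e] at h
  exact Gk_sup _ h

theorem Av_lim {u : ℂ → ℂ} {x ν : ℂ} (hν : ‖ν‖ < 1) (hu : ContinuousAt u x)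
    (hm : AEStronglyMeasurable u (volume : Measure ℂ)) {ρ : ℝ} (hρ : 0 < ρ) :
    Tendsto (fun n : ℕ => Av (ρ / 2 ^ n) ν x u) atTop (𝓝 (ms ν * u x)) := by
  rw [Metric.tendsto_atTop]
  intro ε hε
  set I : ℝ := ∫ y, ‖Gk (y + ν * conj y)‖ with hI
  have hI0 : 0 ≤ I := integral_nonneg fun y => norm_nonneg _
  have hKi := (kern_tst hν).integrable
  obtain ⟨δ, hδ, hδ'⟩ := Metric.continuousAt_iff.1 hu (ε / (2 * (I + 1))) (by positivity)
  set R : ℝ := 1 / (1 - ‖ν‖) with hR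
  have hR0 : 0 < R := by rw [hR]; exact one_div_pos.2 (by linarith)
  have h1 : Tendsto (fun n : ℕ => ρ / 2 ^ n * (R + 1)) atTop (𝓝 0) := by
    have h2 : Tendsto (fun n : ℕ => ρ * (R + 1) * (1 / 2 : ℝ) ^ n) atTop (𝓝 (ρ * (R + 1) * 0)) :=
      (tendsto_pow_atTop_nhds_zero_of_lt_one (by norm_num) (by norm_num)).const_mul _
    rw [mul_zero] at h2
    refine h2.congr fun n => ?_
    rw [one_div_pow]; ring
  obtain ⟨N, hN⟩ := (eventually_atTop.1 (h1.eventually (Iio_mem_nhds hδ)))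
  refine ⟨N, fun n hn => ?_⟩
  have hn' := hN n hn
  have hρn : 0 < ρ / 2 ^ n := by positivity
  rw [dist_eq_norm, Av_eq hρn]
  set r := ρ / 2 ^ n with hr
  have hpt : ∀ y, ‖Gk (y + ν * conj y) * u (x + r * y) - Gk (y + ν * conj y) * u x‖ ≤
      ‖Gk (y + ν * conj y)‖ * (ε / (2 * (I + 1))) := by
    intro y
    rw [← mul_sub, norm_mul]
    by_cases hy : ‖y‖ ≤ R
    · refine mul_le_mul_of_nonneg_left ?_ (norm_nonneg _)
      rw [← dist_eq_norm]
      refine (hδ' ?_).le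
      rw [dist_eq_norm, add_sub_cancel_left, norm_mul, Complex.norm_real, Real.norm_eq_abs,
        abs_of_pos hρn]
      calc r * ‖y‖ ≤ r * (R + 1) := mul_le_mul_of_nonneg_left (by linarith) hρn.le
        _ < δ := hn'
    · rw [kern_supp le_rfl hν (not_le.1 hy)]
      simp
  have hmeas : AEStronglyMeasurable (fun y : ℂ => u (x + r * y)) (volume : Measure ℂ) := by
    have h3 : (fun y : ℂ => x + r * y) = fun y : ℂ => x + r • y := by
      funext y; rw [Complex.real_smul]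
    have hq : Measure.QuasiMeasurePreserving (fun y : ℂ => x + r * y) volume volume := by
      rw [h3]
      refine (measurePreserving_add_left (volume : Measure ℂ) x).quasiMeasurePreserving.comp ?_
      refine ⟨(continuous_const_smul r).measurable, ?_⟩
      rw [Measure.map_addHaar_smul _ hρn.ne']
      exact Measure.smul_absolutelyContinuous
    exact hm.comp_quasiMeasurePreserving hq
  have hdiff : Integrable (fun y => Gk (y + ν * conj y) * u (x + r * y) -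
      Gk (y + ν * conj y) * u x) := by
    refine Integrable.mono' (hKi.norm.mul_const (ε / (2 * (I + 1)))) ?_
      (Eventually.of_forall hpt)
    exact (hKi.1.mul hmeas).sub (hKi.1.mul_const _)
  have hint : Integrable (fun y => Gk (y + ν * conj y) * u (x + r * y)) := by
    have := hdiff.add (hKi.mul_const (u x))
    refine this.congr (Eventually.of_forall fun y => ?_)
    simp
  rw [ms, ← integral_mul_const, ← integral_sub hint (hKi.mul_const _)]
  have h4 : ‖∫ y, (Gk (y + ν * conj y) * u (x + r * y) - Gk (y + ν * conj y) * u x)‖ ≤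
      I * (ε / (2 * (I + 1))) := by
    refine (norm_integral_le_of_norm_le (hKi.norm.mul_const (ε / (2 * (I + 1))))
      (Eventually.of_forall hpt)).trans ?_
    rw [integral_mul_const]
  refine lt_of_le_of_lt h4 ?_
  rw [mul_div_assoc', div_lt_iff₀ (by positivity)]
  nlinarith

theorem Gk_nonneg (w : ℂ) : 0 ≤ (Gk w).re ∧ (Gk w).im = 0 := by
  rw [Gk, Complex.ofReal_re, Complex.ofReal_im]
  exact ⟨Hs_mono.deriv_nonneg, rfl⟩

theorem exists_G : ∃ w0 : ℂ, ∃ r c : ℝ, 0 < r ∧ 0 < c ∧ ∀ w ∈ ball w0 r, c ≤ (Gk w).re := by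
  obtain ⟨t, ht, ht'⟩ := exists_deriv_eq_slope Hs (by norm_num : (1 / 4 : ℝ) < 1)
    Hs_smooth.continuous.continuousOn (Hs_smooth.differentiable (by simp)).differentiableOn
  rw [Hs_one le_rfl, Hs_zero le_rfl] at ht'
  have ht0 : 0 < t := lt_trans (by norm_num) ht.1
  have h1 : (Gk (Real.sqrt t : ℂ)).re = deriv Hs t := by
    rw [Gk, Complex.ofReal_re, sqm_eq, Complex.norm_real, Real.norm_eq_abs,
      abs_of_nonneg (Real.sqrt_nonneg _), Real.sq_sqrt ht0.le]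
  have h2 : 1 < (Gk (Real.sqrt t : ℂ)).re := by rw [h1, ht']; norm_num
  have h3 : ContinuousAt (fun w => (Gk w).re) (Real.sqrt t : ℂ) :=
    (Complex.continuous_re.comp Gk_tst.continuous).continuousAt
  obtain ⟨r, hr, hr'⟩ := Metric.eventually_nhds_iff_ball.1 (h3.eventually (lt_mem_nhds h2))
  exact ⟨_, r, 1, hr, one_pos, fun w hw => (hr' w hw).le⟩

/-- the mass is bounded below -/
theorem ms_lower {k : ℝ} (hk : k < 1) : ∃ m0, 0 < m0 ∧ ∀ ν : ℂ, ‖ν‖ ≤ k → m0 ≤ ‖ms ν‖ := by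
  obtain ⟨w0, r, c, hr, hc, hG⟩ := exists_G
  refine ⟨c * (volume (ball (0 : ℂ) (r / 2))).toReal, ?_, fun ν hν => ?_⟩
  · have : 0 < volume (ball (0 : ℂ) (r / 2)) := measure_ball_pos _ _ (by positivity)
    have h2 : volume (ball (0 : ℂ) (r / 2)) ≠ ⊤ := measure_ball_lt_top.ne
    exact mul_pos hc (ENNReal.toReal_pos this.ne' h2)
  · have hν1 : ‖ν‖ < 1 := norm_lt_of hν hk
    have hKi := (kern_tst hν1).integrable
    set z1 : ℂ := ((1 - ‖ν‖ ^ 2 : ℝ) : ℂ)⁻¹ * (w0 - ν * conj w0) with hz1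
    have hne : ((1 - ‖ν‖ ^ 2 : ℝ) : ℂ) ≠ 0 := by
      have : 0 < 1 - ‖ν‖ ^ 2 := by nlinarith [norm_nonneg ν]
      exact_mod_cast this.ne'
    have h1 : z1 + ν * conj z1 = w0 := by
      rw [hz1, map_mul, map_inv₀, Complex.conj_ofReal, map_sub, map_mul, Complex.conj_conj]
      have hν2 : (ν * conj ν : ℂ) = ((‖ν‖ ^ 2 : ℝ) : ℂ) := by
        rw [Complex.mul_conj, Complex.normSq_eq_norm_sq]
      field_simp
      push_cast at hν2 ⊢
      linear_combination (-w0) * hν2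
    have h2 : ∀ z ∈ ball z1 (r / 2), c ≤ (Gk (z + ν * conj z)).re := by
      intro z hz
      refine hG _ ?_
      rw [mem_ball, dist_eq_norm] at hz ⊢
      have e : z + ν * conj z - w0 = (z - z1) + ν * conj (z - z1) := by
        rw [← h1, map_sub]; ring
      rw [e]
      calc ‖(z - z1) + ν * conj (z - z1)‖ ≤ ‖z - z1‖ + ‖ν * conj (z - z1)‖ := norm_add_le _ _
        _ ≤ ‖z - z1‖ + 1 * ‖z - z1‖ := by
            rw [norm_mul, RCLike.norm_conj]
            have := mul_le_mul_of_nonneg_right hν1.le (norm_nonneg (z - z1))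
            linarith
        _ < r := by linarith
    have h3 : c * (volume (ball (0 : ℂ) (r / 2))).toReal ≤ (ms ν).re := by
      have e1 : (ms ν).re = ∫ y, (Gk (y + ν * conj y)).re := by
        rw [ms]
        exact (Complex.reCLM.integral_comp_comm hKi).symm
      have e2 : c * (volume (ball (0 : ℂ) (r / 2))).toReal = ∫ _y in ball z1 (r / 2), c := by
        rw [setIntegral_const, smul_eq_mul, mul_comm, Measure.real,
          Measure.addHaar_ball_center volume z1 (r / 2)]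
      rw [e1, e2]
      have h4 : ∫ _y in ball z1 (r / 2), c ≤ ∫ y in ball z1 (r / 2), (Gk (y + ν * conj y)).re := by
        refine setIntegral_mono_on ?_ hKi.re.integrableOn measurableSet_ball h2
        exact integrableOn_const measure_ball_lt_top.ne
      refine h4.trans ?_
      exact setIntegral_le_integral hKi.re (Eventually.of_forall fun y => (Gk_nonneg _).1)
    exact h3.trans ((le_abs_self _).trans (Complex.abs_re_le_norm _))

/-- telescoping -/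
theorem Av_tel0 {u : ℂ → ℂ} {x ν : ℂ} (hν : ‖ν‖ < 1) (hu : ContinuousAt u x)
    (hm : AEStronglyMeasurable u (volume : Measure ℂ)) {ρ : ℝ} (hρ : 0 < ρ) {C r : ℝ} (hr : r < 1)
    (h : ∀ n : ℕ, ‖Av (ρ / 2 ^ n) ν x u - Av (ρ / 2 ^ n / 2) ν x u‖ ≤ C * r ^ n) :
    ‖Av ρ ν x u - ms ν * u x‖ ≤ C / (1 - r) := by
  have h1 := dist_le_of_le_geometric_of_tendsto₀ (f := fun n : ℕ => Av (ρ / 2 ^ n) ν x u) r C hr
    (fun n => by
      rw [dist_eq_norm]
      have := h n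
      rw [div_div, ← pow_succ] at this
      exact this) (Av_lim hν hu hm hρ)
  simpa [dist_eq_norm] using h1

theorem Av_congr {ρ k : ℝ} {ν x : ℂ} (hρ : 0 < ρ) (hν : ‖ν‖ ≤ k) (hk : k < 1) {f g : ℂ → ℂ}
    (h : ∀ᵐ y, y ∈ closedBall x (ρ / (1 - k)) → f y = g y) : Av ρ ν x f = Av ρ ν x g := by
  rw [Av, Av]
  congr 1
  refine integral_congr_ae ?_
  filter_upwards [h] with y hy
  by_cases hy' : y ∈ closedBall x (ρ / (1 - k))
  · rw [hy hy']
  · rw [mem_closedBall, not_le, dist_eq_norm] at hy'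
    rw [Gk_sup _ (ka_supp hρ hν hk hy')]
    simp

theorem Av_bound {k : ℝ} (hk : k < 1) (hk0 : 0 ≤ k) : ∃ C, 0 ≤ C ∧ ∀ {f : ℂ → ℂ},
    MemLp f 2 (volume : Measure ℂ) → ∀ {ρ : ℝ}, 0 < ρ → ∀ {ν : ℂ}, ‖ν‖ ≤ k → ∀ x : ℂ,
    ‖Av ρ ν x f‖ ≤ C / ρ * nB x (ρ / (1 - k)) f := by
  obtain ⟨CG, hCG⟩ := Gk_tst.bdd
  have hCG0 : 0 ≤ CG := (norm_nonneg _).trans (hCG 0)
  have hk1 : 0 < 1 - k := by linarith
  refine ⟨CG * (Real.sqrt Real.pi / (1 - k)), by positivity, ?_⟩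
  intro f hf ρ hρ ν hν x
  have hν1 : ‖ν‖ < 1 := norm_lt_of hν hk
  have hoff : ∀ y ∉ closedBall x (ρ / (1 - k)), Gk (ka ρ ν x y) = 0 := by
    intro y hy
    rw [mem_closedBall, not_le, dist_eq_norm] at hy
    exact Gk_sup _ (ka_supp hρ hν hk hy)
  have h2 := int_ball ((comp_ka_tst Gk_tst Gk_sup hρ hν1 x).memLp 2) hf hoff
  have h3 : nn (fun y => Gk (ka ρ ν x y)) ≤ CG * (Real.sqrt Real.pi * (ρ / (1 - k))) :=
    nn_supp (by positivity) (fun y => hCG _) hoff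
  have hN0 : 0 ≤ nB x (ρ / (1 - k)) f := nB_nonneg _ _ _
  rw [Av, norm_mul, norm_pow, norm_inv, Complex.norm_real, Real.norm_eq_abs, abs_of_pos hρ]
  calc (ρ⁻¹) ^ 2 * ‖∫ y, Gk (ka ρ ν x y) * f y‖ ≤
        (ρ⁻¹) ^ 2 * (CG * (Real.sqrt Real.pi * (ρ / (1 - k))) * nB x (ρ / (1 - k)) f) := by
        refine mul_le_mul_of_nonneg_left ?_ (by positivity)
        exact h2.trans (mul_le_mul_of_nonneg_right h3 hN0)
    _ = CG * (Real.sqrt Real.pi / (1 - k)) / ρ * nB x (ρ / (1 - k)) f := by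
        field_simp

/-- averages of `W^{1,2}` functions grow at most like the number of scales -/
theorem Av_log {g r s : ℂ → ℂ} (h : W g r s) {ρ0 : ℝ} (hρ0 : 0 < ρ0) : ∃ A B, 0 ≤ A ∧ 0 ≤ B ∧
    ∀ (n : ℕ) (x : ℂ), ‖Av (ρ0 / 2 ^ n) 0 x g‖ ≤ A + n * B := by
  obtain ⟨C1, hC1, h1⟩ := Av_bound (k := 0) (by norm_num) le_rfl
  obtain ⟨C2, hC2, h2⟩ := Av_tel (k := 0) (by norm_num) le_rfl
  refine ⟨C1 / ρ0 * nn g, C2 * nn s, mul_nonneg (by positivity) (nn_nonneg _),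
    mul_nonneg hC2 (nn_nonneg _), fun n x => ?_⟩
  induction n with
  | zero =>
    have := h1 h.hu hρ0 (ν := 0) (by simp) x
    simp only [pow_zero, div_one, Nat.cast_zero, zero_mul, add_zero]
    exact this.trans (mul_le_mul_of_nonneg_left (nB_le_nn h.hu _ _) (by positivity))
  | succ n ih =>
    have h3 := h2 h (ρ := ρ0 / 2 ^ n) (by positivity) (ν := 0) (by simp) x
    have h4 : nB x (ρ0 / 2 ^ n / (1 - 0)) (fun y => s y - 0 * r y) ≤ nn s := by
      have e : (fun y => s y - 0 * r y) = s := by funext y; ring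
      rw [e]
      exact nB_le_nn h.hq _ _
    have h5 : ρ0 / 2 ^ (n + 1) = ρ0 / 2 ^ n / 2 := by rw [pow_succ, div_div]
    rw [h5]
    have h6 : ‖Av (ρ0 / 2 ^ n / 2) 0 x g‖ ≤ ‖Av (ρ0 / 2 ^ n) 0 x g‖ +
        ‖Av (ρ0 / 2 ^ n) 0 x g - Av (ρ0 / 2 ^ n / 2) 0 x g‖ := by
      have := norm_sub_norm_le (Av (ρ0 / 2 ^ n / 2) 0 x g) (Av (ρ0 / 2 ^ n) 0 x g)
      rw [norm_sub_rev] at this
      linarith
    have h7 := h3.trans (mul_le_mul_of_nonneg_left h4 hC2)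
    push_cast
    linarith

/-- second order telescoping -/
theorem Av_tel2 {u p q g r s : ℂ → ℂ} (h : W u p q) (hg : W g r s) {x : ℂ} {ρ : ℝ} (hρ : 0 < ρ)
    (he : ∀ᵐ y, y ∈ closedBall x ρ → q y = g y) {Cθ : ℝ} (hθ : ∀ w, ‖θk w‖ ≤ Cθ) :
    ‖Av ρ 0 x u - Av (ρ / 2) 0 x u‖ ≤ Cθ * Real.sqrt Real.pi * nn r * ρ := by
  have hρ' : (ρ : ℂ) ≠ 0 := by exact_mod_cast hρ.ne'
  have h1 := Av_sub h hρ (ν := 0) (by simp) x
  have hsup : ∀ Φ : ℂ → ℂ, Sup1 Φ → ∀ y ∉ closedBall x ρ, Φ (ka ρ 0 x y) = 0 := by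
    intro Φ hΦ y hy
    rw [mem_closedBall, not_le, dist_eq_norm] at hy
    refine hΦ _ (ka_supp (k := 0) hρ (by simp) (by norm_num) ?_)
    simpa using hy
  have hθt := comp_ka_tst θk_tst θk_sup hρ (ν := 0) (by simp) x
  have h2 : ∫ y, Ψk (ka ρ 0 x y) * (q y - 0 * p y) =
      (ρ : ℂ) * ∫ y, dz (fun y => θk (ka ρ 0 x y)) y * g y := by
    rw [← integral_const_mul]
    refine integral_congr_ae ?_
    filter_upwards [he] with y hy
    have e1 : dz (fun y => θk (ka ρ 0 x y)) y = (ρ : ℂ)⁻¹ * Ψk (ka ρ 0 x y) := by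
      rw [(comp_ka θk_tst ρ 0 x y).1, θk_dz]; simp
    rw [e1]
    by_cases hy' : y ∈ closedBall x ρ
    · rw [hy hy']; field_simp; ring
    · rw [hsup Ψk Ψk_sup y hy']; simp
  rw [h2, hg.eqz hθt] at h1
  have h3 : Av ρ 0 x u - Av (ρ / 2) 0 x u = ∫ y, θk (ka ρ 0 x y) * r y := by
    rw [norm_zero] at h1
    push_cast at h1
    have h4 : (ρ : ℂ)⁻¹ * ((ρ : ℂ) * -∫ y, θk (ka ρ 0 x y) * r y) =
        -∫ y, θk (ka ρ 0 x y) * r y := by
      field_simp
    rw [h4] at h1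
    linear_combination h1
  rw [h3]
  have h4 := int_ball (hθt.memLp 2) hg.hp (hsup θk θk_sup)
  have h5 : nn (fun y => θk (ka ρ 0 x y)) ≤ Cθ * (Real.sqrt Real.pi * ρ) :=
    nn_supp hρ.le (fun y => hθ _) (hsup θk θk_sup)
  refine h4.trans ((mul_le_mul h5 (nB_le_nn hg.hp _ _) (nB_nonneg _ _ _) ?_).trans (le_of_eq ?_))
  · exact (nn_nonneg _).trans h5
  · ring

/-- averages are Lipschitz in the centre -/
theorem Av_lip {u p q : ℂ → ℂ} (h : W u p q) {ρ : ℝ} (hρ : 0 < ρ) (x v : ℂ) {K : ℝ}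
    (hK : ∀ s ∈ Icc (0 : ℝ) 1, ‖Av ρ 0 (x + s * v) p‖ ≤ K ∧ ‖Av ρ 0 (x + s * v) q‖ ≤ K) :
    ‖Av ρ 0 (x + v) u - Av ρ 0 x u‖ ≤ 2 * K * ‖v‖ := by
  have hφ := comp_ka_tst Gk_tst Gk_sup hρ (ν := 0) (by simp) x
  have hsh : ∀ (s : ℝ) (y : ℂ), ka ρ 0 (x + s * v) y = ka ρ 0 x (y - s * v) := by
    intro s y
    rw [ka, ka]
    simp only [zero_mul, add_zero]
    ring
  have hAv : ∀ (s : ℝ) (f : ℂ → ℂ), Av ρ 0 (x + s * v) f =
      ((ρ : ℂ)⁻¹) ^ 2 * ∫ z, Gk (ka ρ 0 x (z - s * v)) * f z := by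
    intro s f
    rw [Av]
    simp only [hsh]
  have hd : ∀ s : ℝ, HasDerivAt (fun s : ℝ => Av ρ 0 (x + s * v) u)
      (((ρ : ℂ)⁻¹) ^ 2 * ∫ z, Gk (ka ρ 0 x (z - s * v)) * dd p q v z) s := by
    intro s
    have h1 := (pair_hasDeriv h hφ v s).const_mul (((ρ : ℂ)⁻¹) ^ 2)
    simp only [hAv]
    exact h1
  have hb : ∀ s ∈ Ico (0 : ℝ) 1,
      ‖((ρ : ℂ)⁻¹) ^ 2 * ∫ z, Gk (ka ρ 0 x (z - s * v)) * dd p q v z‖ ≤ 2 * K * ‖v‖ := by
    intro s hs
    have e : ((ρ : ℂ)⁻¹) ^ 2 * ∫ z, Gk (ka ρ 0 x (z - s * v)) * dd p q v z =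
        Av ρ 0 (x + s * v) p * v + Av ρ 0 (x + s * v) q * conj v := by
      rw [hAv, hAv]
      have ht := hφ.translate (s * v)
      have e1 : ∫ z, Gk (ka ρ 0 x (z - s * v)) * dd p q v z =
          (∫ z, Gk (ka ρ 0 x (z - s * v)) * p z) * v +
          (∫ z, Gk (ka ρ 0 x (z - s * v)) * q z) * conj v := by
        rw [← integral_mul_const, ← integral_mul_const, ← integral_add
          ((int2 (ht.memLp 2) h.hp).mul_const _) ((int2 (ht.memLp 2) h.hq).mul_const _)]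
        congr 1; funext z; simp only [dd]; ring
      rw [e1]
      ring
    rw [e]
    obtain ⟨b1, b2⟩ := hK s ⟨hs.1, hs.2.le⟩
    calc _ ≤ ‖Av ρ 0 (x + s * v) p * v‖ + ‖Av ρ 0 (x + s * v) q * conj v‖ := norm_add_le _ _
      _ ≤ K * ‖v‖ + K * ‖v‖ := by
          rw [norm_mul, norm_mul, RCLike.norm_conj]
          exact add_le_add (mul_le_mul_of_nonneg_right b1 (norm_nonneg _))
            (mul_le_mul_of_nonneg_right b2 (norm_nonneg _))
      _ = 2 * K * ‖v‖ := by ring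
  have := norm_image_sub_le_of_norm_deriv_le_segment_01' (fun s _ => (hd s).hasDerivWithinAt) hb
  simpa using this

end Vale.Agent.P247.H832.R1
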