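import Vale.Agent.P247.H832.R1H

/-!
# Interior regularity of quasilinear Beltrami systems (R1), part I

The modulus of continuity of functions with `W^{1,2}` gradient.
-/

namespace Vale.Agent.P247.H832.R1

open MeasureTheory Set Filter Topology Metric
open scoped ContDiff ComplexConjugate ENNReal

theorem nat_le_geom : ∃ b : ℝ, 0 ≤ b ∧ ∀ n : ℕ, (n : ℝ) ≤ b * ((2 : ℝ) ^ n) ^ (1 / 4 : ℝ) := by
  set a : ℝ := (2 : ℝ) ^ (1 / 4 : ℝ) with ha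
  have ha1 : 1 < a := Real.one_lt_rpow (by norm_num) (by norm_num)
  have ha0 : 0 < a - 1 := by linarith
  refine ⟨(a - 1)⁻¹, by positivity, fun n => ?_⟩
  have h1 := one_add_mul_le_pow (by linarith : (-2 : ℝ) ≤ a - 1) n
  rw [add_sub_cancel] at h1
  have h2 : a ^ n = ((2 : ℝ) ^ n) ^ (1 / 4 : ℝ) := by
    rw [ha, ← Real.rpow_natCast, ← Real.rpow_natCast, ← Real.rpow_mul (by norm_num),
      ← Real.rpow_mul (by norm_num), mul_comm]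
  rw [← h2, inv_mul_eq_div, le_div_iff₀ ha0]
  linarith

/-- functions with `W^{1,2}` gradient are almost Lipschitz -/
theorem modulus {u p q g1 r1 s1 g2 r2 s2 : ℂ → ℂ} (h : W u p q) (h1 : W g1 r1 s1)
    (h2 : W g2 r2 s2) {z0 : ℂ} {R : ℝ} (hR : 0 < R) (hu : ∀ x ∈ ball z0 R, ContinuousAt u x)
    (e1 : ∀ᵐ y, y ∈ ball z0 R → p y = g1 y) (e2 : ∀ᵐ y, y ∈ ball z0 R → q y = g2 y) :
    ∃ C, 0 ≤ C ∧ ∀ x ∈ ball z0 (R / 8), ∀ x' ∈ ball z0 (R / 8),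
      ‖u x - u x'‖ ≤ C * ‖x - x'‖ ^ (3 / 4 : ℝ) := by
  obtain ⟨m0, hm0, hm⟩ := ms_lower (k := 0) (by norm_num)
  have hm' : m0 ≤ ‖ms 0‖ := hm 0 (by simp)
  obtain ⟨Cθ, hCθ⟩ := θk_tst.bdd
  have hCθ0 : 0 ≤ Cθ := (norm_nonneg _).trans (hCθ 0)
  set ρ0 : ℝ := R / 4 with hρ0
  have hρ00 : 0 < ρ0 := by positivity
  obtain ⟨A1, B1, hA1, hB1, hL1⟩ := Av_log h1 hρ00
  obtain ⟨A2, B2, hA2, hB2, hL2⟩ := Av_log h2 hρ00
  obtain ⟨b, hb0, hb⟩ := nat_le_geom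
  set C1 : ℝ := Cθ * Real.sqrt Real.pi * nn r2 with hC1
  have hC10 : 0 ≤ C1 := mul_nonneg (by positivity) (nn_nonneg _)
  have hnp : ∀ n : ℕ, 0 < ρ0 / 2 ^ n := fun n => by positivity
  have hnle : ∀ n : ℕ, ρ0 / 2 ^ n ≤ ρ0 := fun n => by
    rw [div_le_iff₀ (by positivity)]
    have : (1 : ℝ) ≤ 2 ^ n := one_le_pow₀ (by norm_num)
    nlinarith
  have hsub : ∀ x ∈ ball z0 (R / 8), ∀ ρ ≤ ρ0, closedBall x ρ ⊆ ball z0 R := by
    intro x hx ρ hρ y hy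
    rw [mem_ball] at hx ⊢
    rw [mem_closedBall] at hy
    have := dist_triangle y x z0
    linarith
  have hA : ∀ x ∈ ball z0 (R / 8), ∀ n : ℕ,
      ‖Av (ρ0 / 2 ^ n) 0 x u - ms 0 * u x‖ ≤ 2 * C1 * (ρ0 / 2 ^ n) := by
    intro x hx n
    have hxR : x ∈ ball z0 R := ball_subset_ball (by linarith) hx
    have h3 := Av_tel0 (u := u) (ν := 0) (by simp) (hu x hxR) h.hu.1 (hnp n)
      (C := C1 * (ρ0 / 2 ^ n)) (r := 1 / 2) (by norm_num) (fun m => ?_)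
    · refine h3.trans (le_of_eq ?_)
      ring
    · have hm1 : ρ0 / 2 ^ n / 2 ^ m ≤ ρ0 := by
        rw [div_div, ← pow_add]; exact hnle _
      have h4 := Av_tel2 h h2 (x := x) (ρ := ρ0 / 2 ^ n / 2 ^ m) (by positivity) (by
        filter_upwards [e2] with y hy hy'
        exact hy (hsub x hx _ hm1 hy')) hCθ
      refine h4.trans (le_of_eq ?_)
      rw [one_div_pow]
      ring
  have hP : ∀ x ∈ ball z0 (R / 8), ∀ n : ℕ, ‖Av (ρ0 / 2 ^ n) 0 x p‖ ≤ A1 + n * B1 ∧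
      ‖Av (ρ0 / 2 ^ n) 0 x q‖ ≤ A2 + n * B2 := by
    intro x hx n
    have hcl : ρ0 / 2 ^ n / (1 - 0) ≤ ρ0 := by rw [sub_zero, div_one]; exact hnle n
    constructor
    · rw [Av_congr (k := 0) (hnp n) (by simp) (by norm_num) (f := p) (g := g1)]
      · exact hL1 n x
      · filter_upwards [e1] with y hy hy'
        exact hy (hsub x hx _ hcl hy')
    · rw [Av_congr (k := 0) (hnp n) (by simp) (by norm_num) (f := q) (g := g2)]
      · exact hL2 n x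
      · filter_upwards [e2] with y hy hy'
        exact hy (hsub x hx _ hcl hy')
  set Ct : ℝ := (8 * C1 + 2 * (A1 + A2) + 2 * ((B1 + B2) * b)) * ρ0 ^ (1 / 4 : ℝ) / m0 with hCt
  have hCt0 : 0 ≤ Ct := by positivity
  refine ⟨Ct, hCt0, fun x hx x' hx' => ?_⟩
  by_cases hxx : x = x'
  · rw [hxx, sub_self, norm_zero]
    positivity
  set δ : ℝ := ‖x - x'‖ with hδ
  have hδ0 : 0 < δ := norm_pos_iff.2 (sub_ne_zero.2 hxx)
  have hδρ : δ ≤ ρ0 := by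
    have := dist_triangle x z0 x'
    rw [mem_ball] at hx hx'
    rw [dist_comm z0 x'] at this
    rw [hδ, ← dist_eq_norm]
    linarith
  obtain ⟨n, hn1, hn2⟩ := exists_nat_pow_near_of_lt_one (x := δ / ρ0) (y := 1 / 2)
    (by positivity) ((div_le_one hρ00).2 hδρ) (by norm_num) (by norm_num)
  rw [one_div_pow, lt_div_iff₀ hρ00] at hn1
  rw [one_div_pow, div_le_iff₀ hρ00] at hn2
  have hn1' : ρ0 / 2 ^ n ≤ 2 * δ := by
    have : 1 / 2 ^ (n + 1) * ρ0 = ρ0 / 2 ^ n / 2 := by rw [pow_succ]; field_simp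
    linarith
  have hn2' : δ * 2 ^ n ≤ ρ0 := by
    have h3 : 1 / 2 ^ n * ρ0 * 2 ^ n = ρ0 := by field_simp
    have h4 := mul_le_mul_of_nonneg_right hn2 (by positivity : (0 : ℝ) ≤ 2 ^ n)
    linarith
  -- compare the averages
  have hlip : ‖Av (ρ0 / 2 ^ n) 0 x u - Av (ρ0 / 2 ^ n) 0 x' u‖ ≤
      2 * (A1 + A2 + n * (B1 + B2)) * δ := by
    have h3 := Av_lip h (hnp n) x' (x - x') (K := A1 + A2 + n * (B1 + B2)) (fun s hs => by
      have hin : x' + s * (x - x') ∈ ball z0 (R / 8) := by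
        have hc := (convex_ball z0 (R / 8)).add_smul_sub_mem hx' hx hs
        rwa [Complex.real_smul] at hc
      obtain ⟨c1, c2⟩ := hP _ hin n
      have hnn : (0 : ℝ) ≤ n := Nat.cast_nonneg n
      have d1 : 0 ≤ n * B1 := mul_nonneg hnn hB1
      have d2 : 0 ≤ n * B2 := mul_nonneg hnn hB2
      constructor <;> nlinarith)
    rwa [add_sub_cancel] at h3
  have h5 : m0 * ‖u x - u x'‖ ≤ 8 * C1 * δ + 2 * (A1 + A2 + n * (B1 + B2)) * δ := by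
    have h6 : m0 * ‖u x - u x'‖ ≤ ‖ms 0 * u x - ms 0 * u x'‖ := by
      rw [← mul_sub, norm_mul]
      exact mul_le_mul_of_nonneg_right hm' (norm_nonneg _)
    have h7 := hA x hx n
    have h8 := hA x' hx' n
    have h9 : ‖ms 0 * u x - ms 0 * u x'‖ ≤ ‖Av (ρ0 / 2 ^ n) 0 x u - ms 0 * u x‖ +
        ‖Av (ρ0 / 2 ^ n) 0 x u - Av (ρ0 / 2 ^ n) 0 x' u‖ +
        ‖Av (ρ0 / 2 ^ n) 0 x' u - ms 0 * u x'‖ := by
      have e : ms 0 * u x - ms 0 * u x' = -(Av (ρ0 / 2 ^ n) 0 x u - ms 0 * u x) +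
        (Av (ρ0 / 2 ^ n) 0 x u - Av (ρ0 / 2 ^ n) 0 x' u) +
        (Av (ρ0 / 2 ^ n) 0 x' u - ms 0 * u x') := by ring
      rw [e]
      refine (norm_add₃_le).trans ?_
      rw [norm_neg]
    have h10 : 2 * C1 * (ρ0 / 2 ^ n) ≤ 4 * C1 * δ := by
      have := mul_le_mul_of_nonneg_left hn1' (by positivity : 0 ≤ 2 * C1)
      linarith
    linarith
  -- powers
  have hδ4 : 0 < δ ^ (1 / 4 : ℝ) := Real.rpow_pos_of_pos hδ0 _
  have hρ4 : δ ^ (1 / 4 : ℝ) ≤ ρ0 ^ (1 / 4 : ℝ) :=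
    Real.rpow_le_rpow hδ0.le hδρ (by norm_num)
  have hsplit : δ = δ ^ (3 / 4 : ℝ) * δ ^ (1 / 4 : ℝ) := by
    rw [← Real.rpow_add hδ0]; norm_num
  have hδ34 : 0 < δ ^ (3 / 4 : ℝ) := Real.rpow_pos_of_pos hδ0 _
  have h11 : δ ≤ ρ0 ^ (1 / 4 : ℝ) * δ ^ (3 / 4 : ℝ) := by
    conv_lhs => rw [hsplit]
    rw [mul_comm]
    exact mul_le_mul_of_nonneg_right hρ4 hδ34.le
  have h12 : (n : ℝ) * δ ≤ b * (ρ0 ^ (1 / 4 : ℝ) * δ ^ (3 / 4 : ℝ)) := by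
    have h13 : ((2 : ℝ) ^ n) ^ (1 / 4 : ℝ) * δ ^ (1 / 4 : ℝ) ≤ ρ0 ^ (1 / 4 : ℝ) := by
      rw [← Real.mul_rpow (by positivity) hδ0.le]
      exact Real.rpow_le_rpow (by positivity) (by linarith) (by norm_num)
    calc (n : ℝ) * δ ≤ b * ((2 : ℝ) ^ n) ^ (1 / 4 : ℝ) * δ :=
          mul_le_mul_of_nonneg_right (hb n) hδ0.le
      _ = b * ((((2 : ℝ) ^ n) ^ (1 / 4 : ℝ) * δ ^ (1 / 4 : ℝ)) * δ ^ (3 / 4 : ℝ)) := by
          conv_lhs => rw [hsplit]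
          ring
      _ ≤ _ := mul_le_mul_of_nonneg_left (mul_le_mul_of_nonneg_right h13 hδ34.le) hb0
  have h14 : m0 * ‖u x - u x'‖ ≤ (8 * C1 + 2 * (A1 + A2) + 2 * ((B1 + B2) * b)) *
      (ρ0 ^ (1 / 4 : ℝ) * δ ^ (3 / 4 : ℝ)) := by
    refine h5.trans ?_
    have h15 : 8 * C1 * δ + 2 * (A1 + A2 + n * (B1 + B2)) * δ =
        (8 * C1 + 2 * (A1 + A2)) * δ + 2 * (B1 + B2) * (n * δ) := by ring
    rw [h15]
    have h16 := mul_le_mul_of_nonneg_left h11 (by positivity : 0 ≤ 8 * C1 + 2 * (A1 + A2))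
    have h17 := mul_le_mul_of_nonneg_left h12 (by positivity : 0 ≤ 2 * (B1 + B2))
    linarith
  rw [hCt, div_mul_eq_mul_div, le_div_iff₀ hm0]
  linarith

end Vale.Agent.P247.H832.R1
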