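import Vale.Agent.P247.H832.R1I

/-!
# Interior regularity of quasilinear Beltrami systems (R1), part J

Decay estimates for the localized system.
-/

namespace Vale.Agent.P247.H832.R1

open MeasureTheory Set Filter Topology Metric
open scoped ContDiff ComplexConjugate ENNReal

/-- integral form of the difference quotient -/
theorem XH_int {u p q : ℂ → ℂ} (h : W u p q) (v : ℂ) {t : ℝ} (ht : t ≠ 0) :
    XH v (h.hu.toLp u) t = ∫ s in (0 : ℝ)..1, τ ((s : ℂ) * ((t : ℂ) * v)) ((h.hd v).toLp _) := by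
  rw [XH, h.dq]
  have e : (h.hd ((t : ℂ) * v)).toLp (dd p q ((t : ℂ) * v)) = (t : ℂ) • (h.hd v).toLp _ := by
    rw [← MemLp.toLp_const_smul]
    congr 1
    funext z
    rw [Pi.smul_apply, smul_eq_mul, dd_smul]
  rw [e]
  simp only [map_smul]
  rw [intervalIntegral.integral_smul, smul_smul, inv_mul_cancel₀ (by exact_mod_cast ht), one_smul]

theorem ind_bdd (x : ℂ) (r : ℝ) : ∀ z, ‖(closedBall x r).indicator (fun _ => (1 : ℂ)) z‖ ≤ 1 := by
  intro z
  by_cases hz : z ∈ closedBall x r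
  · rw [indicator_of_mem hz, norm_one]
  · rw [indicator_of_notMem hz, norm_zero]; exact zero_le_one

theorem ind_meas (x : ℂ) (r : ℝ) :
    AEStronglyMeasurable ((closedBall x r).indicator fun _ => (1 : ℂ)) (volume : Measure ℂ) :=
  aestronglyMeasurable_const.indicator measurableSet_closedBall

theorem nB_eq {f : ℂ → ℂ} (hf : MemLp f 2 (volume : Measure ℂ)) (x : ℂ) (r : ℝ) :
    ‖mulB _ (ind_meas x r) 1 (ind_bdd x r) (hf.toLp f)‖ = nB x r f := by
  rw [Lp.norm_def, nB, nn]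
  congr 1
  refine eLpNorm_congr_ae ?_
  filter_upwards [mulB_coe _ (ind_meas x r) 1 (ind_bdd x r) (hf.toLp f), hf.coeFn_toLp] with z h1 h2
  rw [h1, h2]
  by_cases hz : z ∈ closedBall x r
  · rw [indicator_of_mem hz, indicator_of_mem hz, one_mul]
  · rw [indicator_of_notMem hz, indicator_of_notMem hz, zero_mul]

/-- local bound of difference quotients -/
theorem nB_X_le {u p q : ℂ → ℂ} (h : W u p q) (v : ℂ) {t : ℝ} (ht : t ≠ 0) {x : ℂ} {r K : ℝ}
    (hK : ∀ s ∈ Icc (0 : ℝ) 1, nB x r (fun z => dd p q v (z + s * (t * v))) ≤ K) :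
    nB x r (X v u t) ≤ K := by
  rw [← nB_eq (X_memLp h.hu v t), ← XH_toLp h.hu, XH_int h v ht]
  set T := mulB _ (ind_meas x r) 1 (ind_bdd x r)
  have hc : Continuous fun s : ℝ => τ ((s : ℂ) * ((t : ℂ) * v)) ((h.hd v).toLp (dd p q v)) :=
    (τ_cont _).comp (by fun_prop)
  rw [← ContinuousLinearMap.intervalIntegral_comp_comm T (hc.intervalIntegrable _ _)]
  refine (intervalIntegral.norm_integral_le_of_norm_le_const (C := K) fun s hs => ?_).trans
    (by simp)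
  rw [τ_toLp, nB_eq]
  rw [uIoc_of_le zero_le_one] at hs
  exact hK s ⟨hs.1.le, hs.2⟩

/-- a cut-off function: `1` for `|w| ≤ 1/2`, `0` for `|w| ≥ 1` -/
noncomputable def χk (w : ℂ) : ℂ := ((1 - Hs (sqm w) : ℝ) : ℂ)

theorem χk_sup : Sup1 χk := fun w hw => by
  rw [χk, Hs_one (by rw [sqm_eq]; nlinarith)]; simp

theorem χk_tst : Tst χk where
  smooth := radial_smooth (g := fun t => 1 - Hs t) (contDiff_const.sub Hs_smooth)
  supp := supp_of_sqm χk_sup

theorem χk_one {w : ℂ} (h : ‖w‖ ≤ 1 / 2) : χk w = 1 := by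
  rw [χk, Hs_zero]
  · simp
  · rw [sqm_eq]
    nlinarith [norm_nonneg w]

/-- the scaled cut-off -/
noncomputable def ch (ρ : ℝ) (x y : ℂ) : ℂ := χk (ka ρ 0 x y)

theorem ka0 (ρ : ℝ) (x y : ℂ) : ka ρ 0 x y = (ρ : ℂ)⁻¹ * (y - x) := by
  rw [ka]; simp

theorem norm_ka0 {ρ : ℝ} (hρ : 0 < ρ) (x y : ℂ) : ‖ka ρ 0 x y‖ = ‖y - x‖ / ρ := by
  rw [ka0, norm_mul, norm_inv, Complex.norm_real, Real.norm_eq_abs, abs_of_pos hρ]
  field_simp

theorem ch_tst {ρ : ℝ} (hρ : 0 < ρ) (x : ℂ) : Tst (ch ρ x) :=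
  comp_ka_tst χk_tst χk_sup hρ (by simp) x

theorem ch_one {ρ : ℝ} (hρ : 0 < ρ) {x y : ℂ} (h : y ∈ closedBall x (ρ / 2)) : ch ρ x y = 1 := by
  refine χk_one ?_
  rw [mem_closedBall, dist_eq_norm] at h
  rw [norm_ka0 hρ, div_le_iff₀ hρ]
  linarith

theorem ch_sup {ρ : ℝ} (hρ : 0 < ρ) (x : ℂ) : ∀ y ∉ closedBall x ρ,
    ch ρ x y = 0 ∧ dz (ch ρ x) y = 0 ∧ dzb (ch ρ x) y = 0 := by
  intro y hy
  have h1 : tsupport (ch ρ x) ⊆ closedBall x ρ := by
    refine closure_minimal ?_ isClosed_closedBall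
    intro z hz
    by_contra h2
    rw [mem_closedBall, not_le, dist_eq_norm] at h2
    apply hz
    refine χk_sup _ ?_
    rw [norm_ka0 hρ, lt_div_iff₀ hρ]
    linarith
  exact zero_off fun h => hy (h1 h)

/-- uniform bounds of the scaled cut-off -/
theorem ch_bdd : ∃ C, 0 ≤ C ∧ ∀ ρ : ℝ, 0 < ρ → ∀ x y : ℂ,
    ‖ch ρ x y‖ ≤ C ∧ ‖dz (ch ρ x) y‖ ≤ C / ρ ∧ ‖dzb (ch ρ x) y‖ ≤ C / ρ := by
  obtain ⟨C1, h1⟩ := χk_tst.bdd
  obtain ⟨C2, h2⟩ := χk_tst.dz.bdd
  obtain ⟨C3, h3⟩ := χk_tst.dzb.bdd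
  set C := max C1 (max C2 C3) with hC
  have h1' : ∀ z, ‖χk z‖ ≤ C := fun z => (h1 z).trans (le_max_left _ _)
  have h2' : ∀ z, ‖dz χk z‖ ≤ C := fun z =>
    (h2 z).trans ((le_max_left _ _).trans (le_max_right _ _))
  have h3' : ∀ z, ‖dzb χk z‖ ≤ C := fun z =>
    (h3 z).trans ((le_max_right _ _).trans (le_max_right _ _))
  refine ⟨C, (norm_nonneg _).trans (h1' 0), fun ρ hρ x y => ⟨h1' _, ?_, ?_⟩⟩
  · have e : dz (ch ρ x) y = (ρ : ℂ)⁻¹ * dz χk (ka ρ 0 x y) := by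
      have := (comp_ka χk_tst ρ 0 x y).1
      rw [map_zero, zero_mul, add_zero] at this
      exact this
    rw [e, norm_mul, norm_inv, Complex.norm_real, Real.norm_eq_abs, abs_of_pos hρ,
      inv_mul_eq_div]
    exact div_le_div_of_nonneg_right (h2' _) hρ.le
  · have e : dzb (ch ρ x) y = (ρ : ℂ)⁻¹ * dzb χk (ka ρ 0 x y) := by
      have := (comp_ka χk_tst ρ 0 x y).2
      rw [zero_mul, zero_add] at this
      exact this
    rw [e, norm_mul, norm_inv, Complex.norm_real, Real.norm_eq_abs, abs_of_pos hρ,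
      inv_mul_eq_div]
    exact div_le_div_of_nonneg_right (h3' _) hρ.le

variable {ι : Type*} [Fintype ι] {z0 : ℂ} {R k L M : ℝ} {u P Q a : ι → ℂ → ℂ} {μ : ℂ → ℂ}

/-- the weight inequality for the localized system -/
theorem Loc.weightS (h : Loc z0 R k L M u P Q a μ) {S : Set ℂ} {om : ℝ} (hom0 : 0 ≤ om) {b : ℂ}
    (hR : ∀ z ∈ S, z + b ∈ ball z0 R) (j : ι) {c : ℂ}
    (hom : ∀ z ∈ S, ‖u j (z + b) - c‖ ≤ om)
    {F PF QF : ℂ → ℂ} (hF : W F PF QF) {B' : ℝ} (hB' : ∀ z, ‖F z‖ ≤ B')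
    (hS : ∀ z ∉ S, F z = 0 ∧ PF z = 0 ∧ QF z = 0) :
    nn (fun z => P j (z + b) * F z) ≤ 3 / (1 - k) * (M * nn F + om * nn PF) := by
  obtain ⟨B, hB⟩ := h.bdd
  refine ((h.w j).translate b).weight hF (fun z => hB j _) hB'
    (μ := fun z => μ (z + b)) ?_ h.k1 (fun z => h.μk _) hS hom0 h.M0 (c := c)
    (fun z hz => hom z hz) ?_
  · exact h.μm.comp_measurePreserving (measurePreserving_add_right volume _)
  · filter_upwards [ae_tr (h.eq j) b] with z h1 hz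
    have h2 := hR z hz
    rw [h1 h2, add_sub_cancel_left]
    exact h.aM j _ h2

/-- the localized system together with the information obtained from `W^{2,2}` -/
structure Loc2 (z0 : ℂ) (R k L M K N : ℝ) (u P Q a : ι → ℂ → ℂ) (μ : ℂ → ℂ) : Prop extends
    Loc z0 R k L M u P Q a μ where
  K0 : 0 ≤ K
  N0 : 0 ≤ N
  hol : ∀ j, ∀ x ∈ ball z0 R, ∀ x' ∈ ball z0 R, ‖u j x - u j x'‖ ≤ K * ‖x - x'‖ ^ (3 / 4 : ℝ)
  dq : ∀ j, ∀ v : ℂ, ‖v‖ = 1 → ∀ t : ℝ, t ≠ 0 → ∀ x r, closedBall x r ⊆ ball z0 R →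
    (∀ z ∈ closedBall x r, z + t * v ∈ ball z0 R) →
    nB x r (X v (P j) t) ≤ N ∧ nB x r (X v (Q j) t) ≤ N

theorem Loc.restrict (h : Loc z0 R k L M u P Q a μ) {r : ℝ} (hr : 0 < r) (hr' : r ≤ R) :
    Loc z0 r k L M u P Q a μ where
  R0 := hr
  k1 := h.k1
  L0 := h.L0
  M0 := h.M0
  w := h.w
  cont := h.cont
  bdd := h.bdd
  μm := h.μm
  μk := h.μk
  eq := fun j => by
    filter_upwards [h.eq j] with z hz hz'
    exact hz (ball_subset_ball hr' hz')
  aM := fun j z hz => h.aM j z (ball_subset_ball hr' hz)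
  lipμ := fun z hz z' hz' => h.lipμ z (ball_subset_ball hr' hz) z' (ball_subset_ball hr' hz')
  lipa := fun j z hz z' hz' =>
    h.lipa j z (ball_subset_ball hr' hz) z' (ball_subset_ball hr' hz')

theorem Loc.loc2 (h : Loc z0 R k L M u P Q a μ) : ∃ r K N, 0 < r ∧ r ≤ R ∧
    Loc2 z0 r k L M K N u P Q a μ := by
  obtain ⟨ρ, hρ, hρR, hW⟩ := h.w22
  have hsupp : tsupport (ch (ρ / 2) z0) ⊆ ball z0 ρ := by
    have h1 : tsupport (ch (ρ / 2) z0) ⊆ closedBall z0 (ρ / 2) := by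
      refine closure_minimal ?_ isClosed_closedBall
      intro z hz
      by_contra h2
      exact hz (ch_sup (by positivity) z0 z h2).1
    exact h1.trans (closedBall_subset_ball (by linarith))
  have hW' := hW (ch (ρ / 2) z0) (ch_tst (by positivity) z0) hsupp
  choose h1 h2 using hW'
  choose r1 s1 hw1 using h1
  choose r2 s2 hw2 using h2
  have hone : ∀ z ∈ ball z0 (ρ / 4), ch (ρ / 2) z0 z = 1 := fun z hz => by
    refine ch_one (by positivity) (ball_subset_closedBall ?_)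
    have : ρ / 2 / 2 = ρ / 4 := by ring
    rw [this]; exact hz
  have hmod : ∀ j, ∃ C, 0 ≤ C ∧ ∀ x ∈ ball z0 (ρ / 4 / 8), ∀ x' ∈ ball z0 (ρ / 4 / 8),
      ‖u j x - u j x'‖ ≤ C * ‖x - x'‖ ^ (3 / 4 : ℝ) := by
    intro j
    refine modulus (h.w j) (hw1 j) (hw2 j) (by positivity : 0 < ρ / 4)
      (fun x _ => (h.cont j).continuousAt) (Eventually.of_forall fun y hy => ?_)
      (Eventually.of_forall fun y hy => ?_)
    · rw [hone y hy, one_mul]
    · rw [hone y hy, one_mul]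
  choose C hC0 hC using hmod
  set K : ℝ := ∑ j, C j with hK
  have hCK : ∀ j, C j ≤ K := fun j =>
    Finset.single_le_sum (f := C) (fun i _ => hC0 i) (Finset.mem_univ j)
  set N : ℝ := ∑ j, ((nn (r1 j) + nn (s1 j)) + (nn (r2 j) + nn (s2 j))) with hN
  have hNj : ∀ j, (nn (r1 j) + nn (s1 j)) + (nn (r2 j) + nn (s2 j)) ≤ N := fun j =>
    Finset.single_le_sum (f := fun j => (nn (r1 j) + nn (s1 j)) + (nn (r2 j) + nn (s2 j)))
      (fun i _ => add_nonneg (add_nonneg (nn_nonneg _) (nn_nonneg _))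
        (add_nonneg (nn_nonneg _) (nn_nonneg _))) (Finset.mem_univ j)
  have hddle : ∀ {g r s : ℂ → ℂ}, W g r s → ∀ v : ℂ, ‖v‖ = 1 → nn (dd r s v) ≤ nn r + nn s := by
    intro g r s hg v hv
    refine nn_tri hg.hp hg.hq (Eventually.of_forall fun z => ?_)
    rw [dd]
    refine (norm_add_le _ _).trans ?_
    rw [norm_mul, norm_mul, RCLike.norm_conj, hv, mul_one, mul_one]
  have hXb : ∀ {f g r s : ℂ → ℂ}, W g r s → (∀ z ∈ ball z0 (ρ / 4), g z = f z) →
      ∀ v : ℂ, ‖v‖ = 1 → ∀ t : ℝ, t ≠ 0 → ∀ x r', closedBall x r' ⊆ ball z0 (ρ / 4 / 8) →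
      (∀ z ∈ closedBall x r', z + t * v ∈ ball z0 (ρ / 4 / 8)) →
      nB x r' (X v f t) ≤ nn r + nn s := by
    intro f g r s hg hfg v hv t ht x r' hc hc'
    have hsub : ball z0 (ρ / 4 / 8) ⊆ ball z0 (ρ / 4) := ball_subset_ball (by linarith)
    have e : nB x r' (X v f t) ≤ nB x r' (X v g t) := by
      refine nB_mono (X_memLp hg.hu v t) subset_rfl (Eventually.of_forall fun z hz => ?_)
      rw [X, X, hfg _ (hsub (hc hz)), hfg _ (hsub (hc' z hz))]
    exact e.trans ((nB_le_nn (X_memLp hg.hu v t) _ _).trans ((nn_X_le hg v ht).trans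
      (hddle hg v hv)))
  refine ⟨ρ / 4 / 8, K, N, by positivity, by linarith, ?_⟩
  refine { toLoc := h.restrict (by positivity) (by linarith), K0 := ?_, N0 := ?_, hol := ?_,
           dq := ?_ }
  · exact Finset.sum_nonneg fun i _ => hC0 i
  · exact Finset.sum_nonneg fun i _ => add_nonneg (add_nonneg (nn_nonneg _) (nn_nonneg _))
        (add_nonneg (nn_nonneg _) (nn_nonneg _))
  · intro j x hx x' hx'
    exact (hC j x hx x' hx').trans (mul_le_mul_of_nonneg_right (hCK j) (by positivity))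
  · intro j v hv t ht x r' hc hc'
    have b1 := hXb (f := P j) (hw1 j) (fun z hz => by rw [hone z hz, one_mul]) v hv t ht x r' hc hc'
    have b2 := hXb (f := Q j) (hw2 j) (fun z hz => by rw [hone z hz, one_mul]) v hv t ht x r' hc hc'
    have b3 := hNj j
    have c1 := nn_nonneg (r1 j)
    have c2 := nn_nonneg (s1 j)
    have c3 := nn_nonneg (r2 j)
    have c4 := nn_nonneg (s2 j)
    constructor <;> linarith

end Vale.Agent.P247.H832.R1
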