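import Vale.Agent.P247.H832.R1J

/-!
# Interior regularity of quasilinear Beltrami systems (R1), part K

Decay estimates for the localized system, continued.
-/

namespace Vale.Agent.P247.H832.R1

open MeasureTheory Set Filter Topology Metric
open scoped ContDiff ComplexConjugate ENNReal

variable {ι : Type*} [Fintype ι] {z0 : ℂ} {R k L M K N : ℝ} {u P Q a : ι → ℂ → ℂ} {μ : ℂ → ℂ}

theorem inR {z0 x b z : ℂ} {R ρ : ℝ} (hx : x ∈ ball z0 (R / 4)) (hρ : ρ ≤ R / 4)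
    (hb : ‖b‖ ≤ R / 4) (hz : z ∈ closedBall x ρ) : z + b ∈ ball z0 R := by
  rw [mem_ball, dist_eq_norm] at hx ⊢
  rw [mem_closedBall, dist_eq_norm] at hz
  have hR : 0 < R := by
    have := norm_nonneg (x - z0)
    linarith
  calc ‖z + b - z0‖ = ‖(z - x) + (x - z0) + b‖ := by congr 1; ring
    _ ≤ ‖z - x‖ + ‖x - z0‖ + ‖b‖ := norm_add₃_le
    _ < R := by linarith

theorem nn_ch : ∃ C, 0 ≤ C ∧ ∀ ρ : ℝ, 0 < ρ → ∀ x : ℂ,
    nn (ch ρ x) ≤ C * ρ ∧ nn (dz (ch ρ x)) ≤ C := by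
  obtain ⟨C, hC0, hC⟩ := ch_bdd
  refine ⟨C * Real.sqrt Real.pi, by positivity, fun ρ hρ x => ⟨?_, ?_⟩⟩
  · have := nn_supp hρ.le (fun y => (hC ρ hρ x y).1) (fun y hy => (ch_sup hρ x y hy).1)
    linarith
  · have := nn_supp hρ.le (fun y => (hC ρ hρ x y).2.1) (fun y hy => (ch_sup hρ x y hy).2.1)
    refine this.trans (le_of_eq ?_)
    field_simp

theorem nB_half {f : ℂ → ℂ} (hf : MemLp f 2 (volume : Measure ℂ)) {ρ : ℝ} (hρ : 0 < ρ) (x : ℂ) :
    nB x (ρ / 2) f ≤ nn (fun z => f z * ch ρ x z) := by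
  have hm : MemLp (fun z => f z * ch ρ x z) 2 (volume : Measure ℂ) := by
    refine ((ch_tst hρ x).memLp_mul hf).ae_eq (Eventually.of_forall fun z => ?_)
    simp only
    ring
  have := nB_le (f := f) (x := x) (r := ρ / 2) zero_le_one hm (Eventually.of_forall fun z hz => by
    rw [ch_one hρ hz, mul_one, one_mul])
  rwa [one_mul] at this

/-- decay of the gradient -/
theorem Loc2.decayP (h : Loc2 z0 R k L M K N u P Q a μ) (hR1 : R ≤ 1) : ∃ C, 0 ≤ C ∧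
    ∀ x ∈ ball z0 (R / 4), ∀ ρ, 0 < ρ → ρ ≤ R / 4 → ∀ b : ℂ, ‖b‖ ≤ R / 4 → ∀ j,
      nB x (ρ / 2) (fun z => P j (z + b)) ≤ C * ρ ^ (3 / 4 : ℝ) := by
  obtain ⟨C, hC0, hC⟩ := nn_ch
  have hk : 0 < 1 - k := by linarith [h.k1]
  have hM0 := h.M0
  have hK0 := h.K0
  refine ⟨3 / (1 - k) * (M * C + K * C), by positivity, ?_⟩
  intro x hx ρ hρ hρR b hb j
  have hρ1 : ρ ≤ 1 := by linarith [h.R0]
  refine (nB_half (memLp_tr (h.w j).hp b) hρ x).trans ?_
  obtain ⟨B', hB'⟩ := (ch_tst hρ x).bdd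
  have hin : ∀ z ∈ closedBall x ρ, z + b ∈ ball z0 R := fun z hz => inR hx hρR hb hz
  have h1 := h.weightS (S := closedBall x ρ) (om := K * ρ ^ (3 / 4 : ℝ)) (by positivity) (b := b)
    hin j (c := u j (x + b))
    (fun z hz => by
      refine (h.hol j _ (hin z hz) _ (hin x (mem_closedBall_self hρ.le))).trans ?_
      refine mul_le_mul_of_nonneg_left ?_ hK0
      refine Real.rpow_le_rpow (norm_nonneg _) ?_ (by norm_num)
      rw [mem_closedBall, dist_eq_norm] at hz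
      rwa [add_sub_add_right_eq_sub])
    (ch_tst hρ x).W hB' (fun z hz => ch_sup hρ x z hz)
  refine h1.trans ?_
  obtain ⟨c1, c2⟩ := hC ρ hρ x
  have hρ34 : ρ ≤ ρ ^ (3 / 4 : ℝ) := by
    conv_lhs => rw [← Real.rpow_one ρ]
    exact Real.rpow_le_rpow_of_exponent_ge hρ hρ1 (by norm_num)
  have hp : 0 ≤ ρ ^ (3 / 4 : ℝ) := by positivity
  have ea : 3 / (1 - k) * (M * C + K * C) * ρ ^ (3 / 4 : ℝ) =
      3 / (1 - k) * ((M * C + K * C) * ρ ^ (3 / 4 : ℝ)) := by ring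
  rw [ea]
  refine mul_le_mul_of_nonneg_left ?_ (by positivity)
  have a1 : M * nn (ch ρ x) ≤ M * C * ρ ^ (3 / 4 : ℝ) := by
    have := mul_le_mul_of_nonneg_left c1 hM0
    have h2 : M * (C * ρ) ≤ M * (C * ρ ^ (3 / 4 : ℝ)) :=
      mul_le_mul_of_nonneg_left (mul_le_mul_of_nonneg_left hρ34 hC0) hM0
    linarith
  have a2 : K * ρ ^ (3 / 4 : ℝ) * nn (dz (ch ρ x)) ≤ K * C * ρ ^ (3 / 4 : ℝ) := by
    have := mul_le_mul_of_nonneg_left c2 (by positivity : 0 ≤ K * ρ ^ (3 / 4 : ℝ))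
    linarith
  linarith

theorem nB_const {c r : ℝ} (hc : 0 ≤ c) (hr : 0 ≤ r) (x : ℂ) :
    nB x r (fun _ => (c : ℂ)) ≤ c * (Real.sqrt Real.pi * r) := by
  refine nn_supp (g := (closedBall x r).indicator fun _ => (c : ℂ)) hr (fun y => ?_)
    (fun y hy => by rw [indicator_of_notMem hy])
  refine (norm_indicator_le_norm_self _ _).trans ?_
  rw [Complex.norm_real, Real.norm_eq_abs, abs_of_nonneg hc]

theorem nB_const_mul (c : ℂ) (x : ℂ) (r : ℝ) (f : ℂ → ℂ) :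
    nB x r (fun z => c * f z) = ‖c‖ * nB x r f := by
  rw [nB, nB, ← nn_const_mul]
  congr 1
  funext z
  by_cases hz : z ∈ closedBall x r
  · rw [indicator_of_mem hz, indicator_of_mem hz]
  · rw [indicator_of_notMem hz, indicator_of_notMem hz, mul_zero]

/-- comparison with a sum on a ball; no integrability outside the ball is needed -/
theorem nB_sum {κ : Type*} (s : Finset κ) {f : ℂ → ℂ} {g : κ → ℂ → ℂ} {x : ℂ} {r : ℝ}
    (hg : ∀ i ∈ s, MemLp ((closedBall x r).indicator (g i)) 2 (volume : Measure ℂ))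
    (H : ∀ᵐ z, z ∈ closedBall x r → ‖f z‖ ≤ ∑ i ∈ s, ‖g i z‖) :
    nB x r f ≤ ∑ i ∈ s, nB x r (g i) := by
  refine nn_sum s hg ?_
  filter_upwards [H] with z hz
  by_cases hz' : z ∈ closedBall x r
  · simp only [indicator_of_mem hz']
    exact hz hz'
  · rw [indicator_of_notMem hz', norm_zero]
    exact Finset.sum_nonneg fun i _ => norm_nonneg _

theorem memLp_ball_const (c : ℂ) (x : ℂ) (r : ℝ) :
    MemLp ((closedBall x r).indicator fun _ => c) 2 (volume : Measure ℂ) :=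
  memLp_indicator_const 2 measurableSet_closedBall c
    (Or.inr (isCompact_closedBall x r).measure_lt_top.ne)

/-- decay of `Q` -/
theorem Loc2.decayQ (h : Loc2 z0 R k L M K N u P Q a μ) (hR1 : R ≤ 1) : ∃ C, 0 ≤ C ∧
    ∀ x ∈ ball z0 (R / 4), ∀ ρ, 0 < ρ → ρ ≤ R / 4 → ∀ b : ℂ, ‖b‖ ≤ R / 4 → ∀ j,
      nB x (ρ / 2) (fun z => Q j (z + b)) ≤ C * ρ ^ (3 / 4 : ℝ) := by
  obtain ⟨C, hC0, hC⟩ := h.decayP hR1
  have hM0 := h.M0
  refine ⟨C + M * Real.sqrt Real.pi, by positivity, ?_⟩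
  intro x hx ρ hρ hρR b hb j
  have hρ1 : ρ ≤ 1 := by linarith [h.R0]
  have hρ34 : ρ ≤ ρ ^ (3 / 4 : ℝ) := by
    conv_lhs => rw [← Real.rpow_one ρ]
    exact Real.rpow_le_rpow_of_exponent_ge hρ hρ1 (by norm_num)
  have h1 := hC x hx ρ hρ hρR b hb j
  have h2 : nB x (ρ / 2) (fun z => Q j (z + b)) ≤
      ∑ i : Fin 2, nB x (ρ / 2) ((![fun z => P j (z + b), fun _ => (M : ℂ)] : Fin 2 → ℂ → ℂ) i) := by
    refine nB_sum _ ?_ ?_
    · intro i _
      fin_cases i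
      · exact nB_memLp (memLp_tr (h.w j).hp b) _ _
      · exact memLp_ball_const _ _ _
    · filter_upwards [ae_tr (h.eq j) b] with z hz hz'
      have hzz : z ∈ closedBall x ρ := closedBall_subset_closedBall (by linarith) hz'
      have h3 := hz (inR hx hρR hb hzz)
      rw [Fin.sum_univ_two]
      simp only [Matrix.cons_val_zero, Matrix.cons_val_one]
      rw [h3, Complex.norm_real, Real.norm_eq_abs, abs_of_nonneg hM0]
      refine (norm_add_le _ _).trans (add_le_add ?_ (h.aM j _ (inR hx hρR hb hzz)))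
      rw [norm_mul]
      calc ‖μ (z + b)‖ * ‖P j (z + b)‖ ≤ 1 * ‖P j (z + b)‖ :=
            mul_le_mul_of_nonneg_right ((h.μk _).trans h.k1.le) (norm_nonneg _)
        _ = _ := one_mul _
  rw [Fin.sum_univ_two] at h2
  simp only [Matrix.cons_val_zero, Matrix.cons_val_one] at h2
  have h4 := nB_const hM0 (by positivity : 0 ≤ ρ / 2) x
  have h5 : M * (Real.sqrt Real.pi * (ρ / 2)) ≤ M * Real.sqrt Real.pi * ρ ^ (3 / 4 : ℝ) := by
    have : 0 ≤ M * Real.sqrt Real.pi := by positivity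
    have h6 := mul_le_mul_of_nonneg_left hρ34 this
    nlinarith
  linarith

/-- decay of difference quotients -/
theorem Loc2.decayX (h : Loc2 z0 R k L M K N u P Q a μ) (hR1 : R ≤ 1) : ∃ C, 0 ≤ C ∧
    ∀ x ∈ ball z0 (R / 4), ∀ ρ, 0 < ρ → ρ ≤ R / 4 → ∀ v : ℂ, ‖v‖ = 1 → ∀ t : ℝ, t ≠ 0 →
      |t| ≤ R / 4 → ∀ j, nB x (ρ / 2) (X v (u j) t) ≤ C * ρ ^ (3 / 4 : ℝ) := by
  obtain ⟨C1, hC1, h1⟩ := h.decayP hR1
  obtain ⟨C2, hC2, h2⟩ := h.decayQ hR1
  refine ⟨C1 + C2, by positivity, ?_⟩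
  intro x hx ρ hρ hρR v hv t ht htR j
  refine nB_X_le (h.w j) v ht fun s hs => ?_
  have hb : ‖(s : ℂ) * ((t : ℂ) * v)‖ ≤ R / 4 := by
    rw [norm_mul, norm_mul, hv, mul_one, Complex.norm_real, Complex.norm_real, Real.norm_eq_abs,
      Real.norm_eq_abs, abs_of_nonneg hs.1]
    calc s * |t| ≤ 1 * |t| := mul_le_mul_of_nonneg_right hs.2 (abs_nonneg _)
      _ ≤ R / 4 := by linarith
  have a1 := h1 x hx ρ hρ hρR _ hb j
  have a2 := h2 x hx ρ hρ hρR _ hb j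
  have a3 : nB x (ρ / 2) (fun z => dd (P j) (Q j) v (z + s * (t * v))) ≤
      nB x (ρ / 2) (fun z => P j (z + s * (t * v))) +
      nB x (ρ / 2) (fun z => Q j (z + s * (t * v))) := by
    refine nB_tri (memLp_tr (h.w j).hp _) (memLp_tr (h.w j).hq _) (Eventually.of_forall
      fun z _ => ?_)
    rw [dd]
    refine (norm_add_le _ _).trans ?_
    rw [norm_mul, norm_mul, RCLike.norm_conj, hv, mul_one, mul_one]
  linarith

end Vale.Agent.P247.H832.R1
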