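import Vale.Agent.P247.H832.R1K

/-!
# Interior regularity of quasilinear Beltrami systems (R1), part L

Uniform approximation of difference quotients by averages.
-/

namespace Vale.Agent.P247.H832.R1

open MeasureTheory Set Filter Topology Metric
open scoped ContDiff ComplexConjugate ENNReal

variable {ι : Type*} [Fintype ι] {z0 : ℂ} {R k L M K N : ℝ} {u P Q a : ι → ℂ → ℂ} {μ : ℂ → ℂ}

theorem rpow_two_mul {ρ : ℝ} (hρ : 0 < ρ) : (2 * ρ) ^ (3 / 4 : ℝ) ≤ 2 * ρ ^ (3 / 4 : ℝ) := by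
  rw [Real.mul_rpow (by norm_num) hρ.le]
  refine mul_le_mul_of_nonneg_right ?_ (by positivity)
  conv_rhs => rw [← Real.rpow_one 2]
  exact Real.rpow_le_rpow_of_exponent_le (by norm_num) (by norm_num)

theorem rpow_34_12 {ρ : ℝ} (hρ : 0 < ρ) (hρ1 : ρ ≤ 1) : ρ ^ (3 / 4 : ℝ) ≤ ρ ^ (1 / 2 : ℝ) :=
  Real.rpow_le_rpow_of_exponent_ge hρ hρ1 (by norm_num)

theorem norm_tv {v : ℂ} (hv : ‖v‖ = 1) {t : ℝ} : ‖(t : ℂ) * v‖ = |t| := by
  rw [norm_mul, hv, mul_one, Complex.norm_real, Real.norm_eq_abs]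

/-- decay of the products -/
theorem Loc2.decayWP (h : Loc2 z0 R k L M K N u P Q a μ) (hR1 : R ≤ 1) : ∃ C, 0 ≤ C ∧
    ∀ x ∈ ball z0 (R / 4), ∀ ρ, 0 < ρ → ρ ≤ R / 8 → ∀ v : ℂ, ‖v‖ = 1 → ∀ t : ℝ, t ≠ 0 →
      |t| ≤ R / 4 → ∀ i j, nB x (ρ / 2) (fun z => X v (u i) t z * P j (z + t * v)) ≤
        C * ρ ^ (1 / 2 : ℝ) := by
  obtain ⟨C1, hC1, h1⟩ := h.decayX hR1
  obtain ⟨C2, hC2, h2⟩ := ch_bdd
  obtain ⟨B, hB⟩ := h.bdd
  have hk : 0 < 1 - k := by linarith [h.k1]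
  have hM0 := h.M0
  have hK0 := h.K0
  have hN0 := h.N0
  refine ⟨3 / (1 - k) * (M * (C2 * (2 * C1)) + K * (C2 * (2 * C1) + C2 * N)), by positivity, ?_⟩
  intro x hx ρ hρ hρR v hv t ht htR i j
  have hρ1 : ρ ≤ 1 := by linarith [h.R0]
  have hb : ‖(t : ℂ) * v‖ ≤ R / 4 := by rw [norm_tv hv]; exact htR
  have hR4 : ρ ≤ R / 4 := by linarith [h.R0]
  have hin : ∀ z ∈ closedBall x ρ, z + t * v ∈ ball z0 R := fun z hz => inR hx hR4 hb hz
  have hin0 : closedBall x ρ ⊆ ball z0 R := fun z hz => by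
    have := inR (b := 0) hx hR4 (by rw [norm_zero]; linarith [h.R0]) hz
    rwa [add_zero] at this
  have hw := (h.w i).X v t
  have hF := hw.tmul (ch_tst hρ x)
  have hBt : ∀ z, ‖ch ρ x z * X v (u i) t z‖ ≤ C2 * (‖(t : ℂ)⁻¹‖ * (B + B)) := fun z => by
    rw [norm_mul]
    exact mul_le_mul (h2 ρ hρ x z).1 (X_bdd (hB i) v t z) (norm_nonneg _) hC2
  have h3 := h.weightS (S := closedBall x ρ) (om := K * ρ ^ (3 / 4 : ℝ)) (by positivity)
    (b := t * v) hin j (c := u j (x + t * v))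
    (fun z hz => by
      refine (h.hol j _ (hin z hz) _ (hin x (mem_closedBall_self hρ.le))).trans ?_
      refine mul_le_mul_of_nonneg_left ?_ hK0
      refine Real.rpow_le_rpow (norm_nonneg _) ?_ (by norm_num)
      rw [mem_closedBall, dist_eq_norm] at hz
      rwa [add_sub_add_right_eq_sub])
    hF hBt (fun z hz => by
      obtain ⟨b1, b2, b3⟩ := ch_sup hρ x z hz
      simp [b1, b2, b3])
  have hX := h1 x hx (2 * ρ) (by positivity) (by linarith) v hv t ht htR i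
  rw [mul_div_cancel_left₀ ρ (by norm_num : (2 : ℝ) ≠ 0)] at hX
  have hX' : nB x ρ (X v (u i) t) ≤ 2 * C1 * ρ ^ (3 / 4 : ℝ) := by
    have := mul_le_mul_of_nonneg_left (rpow_two_mul hρ) hC1
    linarith
  -- the three norms
  have mX : MemLp (X v (u i) t) 2 (volume : Measure ℂ) := hw.hu
  have mP : MemLp (X v (P i) t) 2 (volume : Measure ℂ) := hw.hp
  have n1 : nn (fun z => ch ρ x z * X v (u i) t z) ≤ C2 * nB x ρ (X v (u i) t) := by
    refine nn_le hC2 (nB_memLp mX x ρ) (Eventually.of_forall fun z => ?_)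
    by_cases hz : z ∈ closedBall x ρ
    · rw [indicator_of_mem hz, norm_mul]
      exact mul_le_mul_of_nonneg_right (h2 ρ hρ x z).1 (norm_nonneg _)
    · rw [(ch_sup hρ x z hz).1, indicator_of_notMem hz]; simp
  have n2 : nn (fun z => dz (ch ρ x) z * X v (u i) t z) ≤ C2 / ρ * nB x ρ (X v (u i) t) := by
    refine nn_le (by positivity) (nB_memLp mX x ρ) (Eventually.of_forall fun z => ?_)
    by_cases hz : z ∈ closedBall x ρ
    · rw [indicator_of_mem hz, norm_mul]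
      exact mul_le_mul_of_nonneg_right (h2 ρ hρ x z).2.1 (norm_nonneg _)
    · rw [(ch_sup hρ x z hz).2.1, indicator_of_notMem hz]; simp
  have n3 : nn (fun z => ch ρ x z * X v (P i) t z) ≤ C2 * nB x ρ (X v (P i) t) := by
    refine nn_le hC2 (nB_memLp mP x ρ) (Eventually.of_forall fun z => ?_)
    by_cases hz : z ∈ closedBall x ρ
    · rw [indicator_of_mem hz, norm_mul]
      exact mul_le_mul_of_nonneg_right (h2 ρ hρ x z).1 (norm_nonneg _)
    · rw [(ch_sup hρ x z hz).1, indicator_of_notMem hz]; simp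
  have n4 : nB x ρ (X v (P i) t) ≤ N := (h.dq i v hv t ht x ρ hin0 hin).1
  have n5 : nn (fun z => dz (ch ρ x) z * X v (u i) t z + ch ρ x z * X v (P i) t z) ≤
      C2 / ρ * (2 * C1 * ρ ^ (3 / 4 : ℝ)) + C2 * N := by
    refine (nn_add ((ch_tst hρ x).dz.memLp_mul mX) ((ch_tst hρ x).memLp_mul mP)).trans ?_
    have c1 := mul_le_mul_of_nonneg_left hX' (by positivity : 0 ≤ C2 / ρ)
    have c2 := mul_le_mul_of_nonneg_left n4 hC2
    linarith
  have hm : MemLp (fun z => X v (u i) t z * P j (z + t * v)) 2 (volume : Measure ℂ) := by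
    exact memLp_bdd mX.1 (X_bdd (hB i) v t) (memLp_tr (h.w j).hp _)
  have h4 := nB_half hm hρ x
  have e4 : nn (fun z => X v (u i) t z * P j (z + t * v) * ch ρ x z) =
      nn (fun z => P j (z + t * v) * (ch ρ x z * X v (u i) t z)) := by
    congr 1; funext z; ring
  rw [e4] at h4
  refine h4.trans (h3.trans ?_)
  have hp : 0 < ρ ^ (1 / 2 : ℝ) := Real.rpow_pos_of_pos hρ _
  have hp34 : 0 < ρ ^ (3 / 4 : ℝ) := Real.rpow_pos_of_pos hρ _
  have hcmp := rpow_34_12 hρ hρ1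
  have hmul : ρ ^ (3 / 4 : ℝ) * (ρ⁻¹ * ρ ^ (3 / 4 : ℝ)) = ρ ^ (1 / 2 : ℝ) := by
    rw [← Real.rpow_neg_one, ← Real.rpow_add hρ, ← Real.rpow_add hρ]; norm_num
  have ea : 3 / (1 - k) * (M * (C2 * (2 * C1)) + K * (C2 * (2 * C1) + C2 * N)) *
      ρ ^ (1 / 2 : ℝ) = 3 / (1 - k) * ((M * (C2 * (2 * C1)) + K * (C2 * (2 * C1) + C2 * N)) *
      ρ ^ (1 / 2 : ℝ)) := by ring
  rw [ea]
  refine mul_le_mul_of_nonneg_left ?_ (by positivity)
  have a1 : M * nn (fun z => ch ρ x z * X v (u i) t z) ≤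
      M * (C2 * (2 * C1)) * ρ ^ (1 / 2 : ℝ) := by
    have c1 := n1.trans (mul_le_mul_of_nonneg_left hX' hC2)
    have c2 := mul_le_mul_of_nonneg_left c1 hM0
    have c3 := mul_le_mul_of_nonneg_left hcmp (by positivity : 0 ≤ M * (C2 * (2 * C1)))
    linarith
  have a2 : K * ρ ^ (3 / 4 : ℝ) *
      nn (fun z => dz (ch ρ x) z * X v (u i) t z + ch ρ x z * X v (P i) t z) ≤
      K * (C2 * (2 * C1) + C2 * N) * ρ ^ (1 / 2 : ℝ) := by
    have c1 := mul_le_mul_of_nonneg_left n5 (by positivity : 0 ≤ K * ρ ^ (3 / 4 : ℝ))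
    have e5 : K * ρ ^ (3 / 4 : ℝ) * (C2 / ρ * (2 * C1 * ρ ^ (3 / 4 : ℝ)) + C2 * N) =
        K * (C2 * (2 * C1)) * (ρ ^ (3 / 4 : ℝ) * (ρ⁻¹ * ρ ^ (3 / 4 : ℝ))) +
          K * (C2 * N) * ρ ^ (3 / 4 : ℝ) := by
      rw [div_eq_mul_inv]; ring
    rw [e5, hmul] at c1
    have c3 := mul_le_mul_of_nonneg_left hcmp (by positivity : 0 ≤ K * (C2 * N))
    linarith
  linarith

/-- decay of the right hand side of the equation of a difference quotient -/
theorem Loc2.decayG (h : Loc2 z0 R k L M K N u P Q a μ) (hR1 : R ≤ 1) : ∃ C, 0 ≤ C ∧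
    ∀ x ∈ ball z0 (R / 4), ∀ ρ, 0 < ρ → ρ ≤ R / 8 → ∀ v : ℂ, ‖v‖ = 1 → ∀ t : ℝ, t ≠ 0 →
      |t| ≤ R / 4 → ∀ j, nB x (ρ / 2) (fun z => X v (Q j) t z - μ z * X v (P j) t z) ≤
        C * ρ ^ (1 / 2 : ℝ) := by
  obtain ⟨C1, hC1, h1⟩ := h.decayX hR1
  obtain ⟨C2, hC2, h2⟩ := h.decayP hR1
  obtain ⟨C3, hC3, h3⟩ := h.decayWP hR1
  have hL0 := h.L0
  refine ⟨L * C2 + L * Real.sqrt Real.pi + (Fintype.card ι * (L * C3) +
    Fintype.card ι * (L * C1)), by positivity, ?_⟩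
  intro x hx ρ hρ hρR v hv t ht htR j
  have hρ1 : ρ ≤ 1 := by linarith [h.R0]
  have hb : ‖(t : ℂ) * v‖ ≤ R / 4 := by rw [norm_tv hv]; exact htR
  have hR4 : ρ ≤ R / 4 := by linarith [h.R0]
  obtain ⟨B, hB⟩ := h.bdd
  set g : Fin 2 ⊕ (ι ⊕ ι) → ℂ → ℂ := Sum.elim
    (![fun z => (L : ℂ) * P j (z + t * v), fun _ => (L : ℂ)])
    (Sum.elim (fun i z => (L : ℂ) * (X v (u i) t z * P j (z + t * v)))
      (fun i z => (L : ℂ) * X v (u i) t z)) with hg
  have hgm : ∀ i ∈ (Finset.univ : Finset (Fin 2 ⊕ (ι ⊕ ι))),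
      MemLp ((closedBall x (ρ / 2)).indicator (g i)) 2 (volume : Measure ℂ) := by
    rintro (i | i | i) -
    · fin_cases i
      · exact nB_memLp ((memLp_tr (h.w j).hp _).const_mul _) _ _
      · exact memLp_ball_const _ _ _
    · exact nB_memLp ((memLp_bdd (X_memLp (h.w i).hu v t).1 (X_bdd (hB i) v t)
        (memLp_tr (h.w j).hp _)).const_mul _) _ _
    · exact nB_memLp ((X_memLp (h.w i).hu v t).const_mul _) _ _
  have h4 : nB x (ρ / 2) (fun z => X v (Q j) t z - μ z * X v (P j) t z) ≤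
      ∑ i, nB x (ρ / 2) (g i) := by
    refine nB_sum _ hgm ?_
    filter_upwards [h.dqeq j v ht] with z hz hz'
    have hzz : z ∈ closedBall x ρ := closedBall_subset_closedBall (by linarith) hz'
    have hz0 : z ∈ ball z0 R := by
      have := inR (b := 0) hx hR4 (by rw [norm_zero]; linarith [h.R0]) hzz
      rwa [add_zero] at this
    have h5 := hz hz0 (inR hx hR4 hb hzz)
    rw [hv] at h5
    refine h5.trans (le_of_eq ?_)
    rw [Fintype.sum_sum_type, Fintype.sum_sum_type, Fin.sum_univ_two]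
    simp only [hg, Sum.elim_inl, Sum.elim_inr, Matrix.cons_val_zero, Matrix.cons_val_one, norm_mul,
      Complex.norm_real, Real.norm_eq_abs, abs_of_nonneg hL0]
    rw [← Finset.mul_sum, ← Finset.mul_sum, ← Finset.sum_mul]
    ring
  rw [Fintype.sum_sum_type, Fintype.sum_sum_type, Fin.sum_univ_two] at h4
  simp only [hg, Sum.elim_inl, Sum.elim_inr, Matrix.cons_val_zero, Matrix.cons_val_one,
    nB_const_mul, Complex.norm_real, Real.norm_eq_abs, abs_of_nonneg hL0] at h4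
  have hp : 0 < ρ ^ (1 / 2 : ℝ) := Real.rpow_pos_of_pos hρ _
  have hcmp := rpow_34_12 hρ hρ1
  have hρ12 : ρ ≤ ρ ^ (1 / 2 : ℝ) := by
    conv_lhs => rw [← Real.rpow_one ρ]
    exact Real.rpow_le_rpow_of_exponent_ge hρ hρ1 (by norm_num)
  have b0 : L * nB x (ρ / 2) (fun z => P j (z + t * v)) ≤ L * C2 * ρ ^ (1 / 2 : ℝ) := by
    have c1 := mul_le_mul_of_nonneg_left (h2 x hx ρ hρ hR4 _ hb j) hL0
    have c2 := mul_le_mul_of_nonneg_left hcmp (by positivity : 0 ≤ L * C2)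
    linarith
  have b1 : nB x (ρ / 2) (fun _ => (L : ℂ)) ≤ L * Real.sqrt Real.pi * ρ ^ (1 / 2 : ℝ) := by
    have c1 := nB_const hL0 (by positivity : 0 ≤ ρ / 2) x
    have c2 := mul_le_mul_of_nonneg_left hρ12 (by positivity : 0 ≤ L * Real.sqrt Real.pi)
    have c3 : 0 ≤ L * Real.sqrt Real.pi * ρ := by positivity
    linarith
  have b2 : ∑ i, L * nB x (ρ / 2) (fun z => X v (u i) t z * P j (z + t * v)) ≤
      Fintype.card ι * (L * C3) * ρ ^ (1 / 2 : ℝ) := by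
    refine (Finset.sum_le_sum fun i _ => mul_le_mul_of_nonneg_left
      (h3 x hx ρ hρ hρR v hv t ht htR i j) hL0).trans ?_
    rw [Finset.sum_const, nsmul_eq_mul, Finset.card_univ]
    exact le_of_eq (by ring)
  have b3 : ∑ i, L * nB x (ρ / 2) (X v (u i) t) ≤
      Fintype.card ι * (L * C1) * ρ ^ (1 / 2 : ℝ) := by
    refine (Finset.sum_le_sum fun i _ => (mul_le_mul_of_nonneg_left
      ((h1 x hx ρ hρ hR4 v hv t ht htR i).trans (mul_le_mul_of_nonneg_left hcmp hC1)) hL0)).trans ?_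
    rw [Finset.sum_const, nsmul_eq_mul, Finset.card_univ]
    exact le_of_eq (by ring)
  linarith

/-- frozen coefficient -/
theorem Loc2.decayH (h : Loc2 z0 R k L M K N u P Q a μ) (hR1 : R ≤ 1) : ∃ C, 0 ≤ C ∧
    ∀ x ∈ ball z0 (R / 4), ∀ ρ, 0 < ρ → ρ ≤ R / 8 → ∀ v : ℂ, ‖v‖ = 1 → ∀ t : ℝ, t ≠ 0 →
      |t| ≤ R / 4 → ∀ j, nB x (ρ / 2) (fun z => X v (Q j) t z - μ x * X v (P j) t z) ≤
        C * ρ ^ (1 / 2 : ℝ) := by
  obtain ⟨C, hC, h1⟩ := h.decayG hR1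
  have hL0 := h.L0
  have hK0 := h.K0
  have hN0 := h.N0
  refine ⟨C + L * (1 + Fintype.card ι * K) * N, by positivity, ?_⟩
  intro x hx ρ hρ hρR v hv t ht htR j
  have hρ1 : ρ ≤ 1 := by linarith [h.R0]
  have hb : ‖(t : ℂ) * v‖ ≤ R / 4 := by rw [norm_tv hv]; exact htR
  have hR4 : ρ ≤ R / 4 := by linarith [h.R0]
  have hin0 : ∀ z ∈ closedBall x ρ, z ∈ ball z0 R := fun z hz => by
    have := inR (b := 0) hx hR4 (by rw [norm_zero]; linarith [h.R0]) hz
    rwa [add_zero] at this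
  have hhalf : ∀ z ∈ closedBall x (ρ / 2), z ∈ closedBall x ρ := fun z hz =>
    closedBall_subset_closedBall (by linarith) hz
  set c : ℝ := L * (1 + Fintype.card ι * K) * ρ ^ (3 / 4 : ℝ) with hc
  have hc0 : 0 ≤ c := by positivity
  have mP : MemLp (X v (P j) t) 2 (volume : Measure ℂ) := X_memLp (h.w j).hp v t
  have mQ : MemLp (X v (Q j) t) 2 (volume : Measure ℂ) := X_memLp (h.w j).hq v t
  have m1 : MemLp (fun z => X v (Q j) t z - μ z * X v (P j) t z) 2 (volume : Measure ℂ) :=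
    mQ.sub (memLp_bdd h.μm h.μk mP)
  have h2 : nB x (ρ / 2) (fun z => X v (Q j) t z - μ x * X v (P j) t z) ≤
      nB x (ρ / 2) (fun z => X v (Q j) t z - μ z * X v (P j) t z) +
      nB x (ρ / 2) (fun z => (c : ℂ) * X v (P j) t z) := by
    refine nB_tri m1 (mP.const_mul _) (Eventually.of_forall fun z hz => ?_)
    have e : X v (Q j) t z - μ x * X v (P j) t z =
        (X v (Q j) t z - μ z * X v (P j) t z) + (μ z - μ x) * X v (P j) t z := by ring
    rw [e]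
    refine (norm_add_le _ _).trans (add_le_add le_rfl ?_)
    rw [norm_mul, norm_mul, Complex.norm_real, Real.norm_eq_abs, abs_of_nonneg hc0]
    refine mul_le_mul_of_nonneg_right ?_ (norm_nonneg _)
    have hz0 := hin0 z (hhalf z hz)
    have hx0 := hin0 x (mem_closedBall_self hρ.le)
    refine (h.lipμ z hz0 x hx0).trans ?_
    have hzx : ‖z - x‖ ≤ ρ := by
      have := hhalf z hz
      rwa [mem_closedBall, dist_eq_norm] at this
    have hzx34 : ‖z - x‖ ^ (3 / 4 : ℝ) ≤ ρ ^ (3 / 4 : ℝ) :=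
      Real.rpow_le_rpow (norm_nonneg _) hzx (by norm_num)
    have hρ34 : ρ ≤ ρ ^ (3 / 4 : ℝ) := by
      conv_lhs => rw [← Real.rpow_one ρ]
      exact Real.rpow_le_rpow_of_exponent_ge hρ hρ1 (by norm_num)
    have h3 : ∑ i, ‖u i z - u i x‖ ≤ Fintype.card ι * K * ρ ^ (3 / 4 : ℝ) := by
      refine (Finset.sum_le_sum fun i _ => (h.hol i z hz0 x hx0).trans
        (mul_le_mul_of_nonneg_left hzx34 hK0)).trans ?_
      rw [Finset.sum_const, nsmul_eq_mul, Finset.card_univ]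
      exact le_of_eq (by ring)
    rw [hc, mul_assoc]
    refine mul_le_mul_of_nonneg_left ?_ hL0
    linarith
  rw [nB_const_mul, Complex.norm_real, Real.norm_eq_abs, abs_of_nonneg hc0] at h2
  have h3 := h1 x hx ρ hρ hρR v hv t ht htR j
  have h4 : nB x (ρ / 2) (X v (P j) t) ≤ N := by
    refine (h.dq j v hv t ht x (ρ / 2) (fun z hz => hin0 z (hhalf z hz)) (fun z hz => ?_)).1
    exact inR hx hR4 hb (hhalf z hz)
  have h5 : c * nB x (ρ / 2) (X v (P j) t) ≤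
      L * (1 + Fintype.card ι * K) * N * ρ ^ (1 / 2 : ℝ) := by
    have c1 := mul_le_mul_of_nonneg_left h4 hc0
    have c2 := mul_le_mul_of_nonneg_left (rpow_34_12 hρ hρ1)
      (by positivity : 0 ≤ L * (1 + Fintype.card ι * K) * N)
    rw [hc] at c1 ⊢
    linarith
  have e1 : nB x (ρ / 2) (fun z => X v (P j) t z) = nB x (ρ / 2) (X v (P j) t) := rfl
  rw [e1] at h2
  linarith

end Vale.Agent.P247.H832.R1
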