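import Vale.Agent.P247.H832.R1L

/-!
# Interior regularity of quasilinear Beltrami systems (R1), part M

Continuity of the gradient; classical differentiability.
-/

namespace Vale.Agent.P247.H832.R1

open MeasureTheory Set Filter Topology Metric
open scoped ContDiff ComplexConjugate ENNReal

theorem qmp {r : ℝ} (hr : 0 < r) (x : ℂ) :
    Measure.QuasiMeasurePreserving (fun y : ℂ => x + r * y) volume volume := by
  have h3 : (fun y : ℂ => x + r * y) = fun y : ℂ => x + r • y := by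
    funext y; rw [Complex.real_smul]
  rw [h3]
  refine (measurePreserving_add_left (volume : Measure ℂ) x).quasiMeasurePreserving.comp ?_
  refine ⟨(continuous_const_smul r).measurable, ?_⟩
  rw [Measure.map_addHaar_smul _ hr.ne']
  exact Measure.smul_absolutelyContinuous

theorem Av_close {f : ℂ → ℂ} (hf : MemLp f 2 (volume : Measure ℂ)) {ρ : ℝ} (hρ : 0 < ρ)
    {y c : ℂ} {ε : ℝ} (hε : 0 ≤ ε) (h : ∀ᵐ z, z ∈ closedBall y ρ → ‖f z - c‖ ≤ ε) :
    ‖Av ρ 0 y f - ms 0 * c‖ ≤ (∫ w, ‖Gk w‖) * ε := by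
  have hKi : Integrable Gk := Gk_tst.integrable
  have e1 : Av ρ 0 y f = ∫ w, Gk w * f (y + ρ * w) := by
    rw [Av_eq hρ]; simp
  have e2 : ms 0 = ∫ w, Gk w := by rw [ms]; simp
  have hpt : ∀ᵐ w, ‖Gk w * f (y + ρ * w) - Gk w * c‖ ≤ ‖Gk w‖ * ε := by
    filter_upwards [(qmp hρ y).ae h] with w hw
    rw [← mul_sub, norm_mul]
    by_cases hw1 : ‖w‖ ≤ 1
    · refine mul_le_mul_of_nonneg_left (hw ?_) (norm_nonneg _)
      rw [mem_closedBall, dist_eq_norm, add_sub_cancel_left, norm_mul, Complex.norm_real,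
        Real.norm_eq_abs, abs_of_pos hρ]
      nlinarith
    · rw [Gk_sup w (not_le.1 hw1)]
      simp
  have hmeas : AEStronglyMeasurable (fun w : ℂ => f (y + ρ * w)) (volume : Measure ℂ) :=
    hf.1.comp_quasiMeasurePreserving (qmp hρ y)
  have hdiff : Integrable (fun w => Gk w * f (y + ρ * w) - Gk w * c) :=
    Integrable.mono' (hKi.norm.mul_const ε) ((hKi.1.mul hmeas).sub (hKi.1.mul_const _)) hpt
  have hint : Integrable (fun w => Gk w * f (y + ρ * w)) := by
    have := hdiff.add (hKi.mul_const c)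
    refine this.congr (Eventually.of_forall fun w => ?_)
    simp
  rw [e1, e2, ← integral_mul_const, ← integral_sub hint (hKi.mul_const _)]
  refine (norm_integral_le_of_norm_le (hKi.norm.mul_const ε) hpt).trans ?_
  rw [integral_mul_const]

/-- the real linear map `v ↦ a v + b conj v` -/
noncomputable def Lab (a b : ℂ) : ℂ →L[ℝ] ℂ :=
  ContinuousLinearMap.mul ℝ ℂ a + (ContinuousLinearMap.mul ℝ ℂ b).comp
    (Complex.conjCLE : ℂ →L[ℝ] ℂ)

theorem Lab_apply (a b v : ℂ) : Lab a b v = a * v + b * conj v := by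
  simp [Lab]

/-- a `W^{1,2}` function with continuous gradient is differentiable -/
theorem W.hasFDerivAt {u p q p' q' : ℂ → ℂ} (h : W u p q) {S : Set ℂ} (hS : IsOpen S)
    (hu : ∀ x ∈ S, ContinuousAt u x) (hp : ContinuousOn p' S) (hq : ContinuousOn q' S)
    (ep : ∀ᵐ z, z ∈ S → p z = p' z) (eq : ∀ᵐ z, z ∈ S → q z = q' z) {x : ℂ} (hx : x ∈ S) :
    HasFDerivAt u (Lab (p' x) (q' x)) x := by
  obtain ⟨m0, hm0, hm⟩ := ms_lower (k := 0) (by norm_num)
  have hm' : m0 ≤ ‖ms 0‖ := hm 0 (by simp)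
  set I : ℝ := ∫ w, ‖Gk w‖ with hI
  have hI0 : 0 ≤ I := integral_nonneg fun w => norm_nonneg _
  rw [hasFDerivAt_iff_isLittleO_nhds_zero, Asymptotics.isLittleO_iff]
  intro c hc
  set ε : ℝ := c * m0 / (2 * (I + 1)) with hε
  have hε0 : 0 < ε := by positivity
  -- a ball on which p', q' are nearly constant
  have h1 : ∀ᶠ z in 𝓝 x, z ∈ S ∧ ‖p' z - p' x‖ ≤ ε ∧ ‖q' z - q' x‖ ≤ ε := by
    have a1 := (hp.continuousAt (hS.mem_nhds hx))
    have a2 := (hq.continuousAt (hS.mem_nhds hx))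
    filter_upwards [hS.mem_nhds hx, a1.eventually (closedBall_mem_nhds (p' x) hε0),
      a2.eventually (closedBall_mem_nhds (q' x) hε0)] with z b1 b2 b3
    rw [dist_eq_norm] at b2 b3
    exact ⟨b1, b2, b3⟩
  obtain ⟨δ, hδ, hδ'⟩ := Metric.eventually_nhds_iff_ball.1 h1
  filter_upwards [ball_mem_nhds (0 : ℂ) (by positivity : 0 < δ / 2)] with v hv
  rw [mem_ball_zero_iff] at hv
  have hxv : x + v ∈ S := (hδ' _ (by
    rw [mem_ball, dist_eq_norm, add_sub_cancel_left]; linarith)).1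
  -- the estimate for averages
  have key : ∀ ρ, 0 < ρ → ρ < δ / 2 →
      ‖Av ρ 0 (x + v) u - Av ρ 0 x u - ms 0 * Lab (p' x) (q' x) v‖ ≤ 2 * (I * ε) * ‖v‖ := by
    intro ρ hρ hρδ
    have hφ := comp_ka_tst Gk_tst Gk_sup hρ (ν := 0) (by simp) x
    have hsh : ∀ (s : ℝ) (y : ℂ), ka ρ 0 (x + s * v) y = ka ρ 0 x (y - s * v) := by
      intro s y
      rw [ka, ka]
      simp only [zero_mul, add_zero]
      ring
    have hAv : ∀ (s : ℝ) (f : ℂ → ℂ), Av ρ 0 (x + s * v) f =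
        ((ρ : ℂ)⁻¹) ^ 2 * ∫ z, Gk (ka ρ 0 x (z - s * v)) * f z := by
      intro s f
      rw [Av]
      simp only [hsh]
    have hd : ∀ s : ℝ, HasDerivAt (fun s : ℝ => Av ρ 0 (x + s * v) u -
        (s : ℂ) * (ms 0 * Lab (p' x) (q' x) v))
        ((((ρ : ℂ)⁻¹) ^ 2 * ∫ z, Gk (ka ρ 0 x (z - s * v)) * dd p q v z) -
          ms 0 * Lab (p' x) (q' x) v) s := by
      intro s
      have h1 := (pair_hasDeriv h hφ v s).const_mul (((ρ : ℂ)⁻¹) ^ 2)
      have h2 : HasDerivAt (fun s : ℝ => (s : ℂ) * (ms 0 * Lab (p' x) (q' x) v))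
          (ms 0 * Lab (p' x) (q' x) v) s := by
        simpa using (Complex.ofRealCLM.hasDerivAt (x := s)).mul_const
          (ms 0 * Lab (p' x) (q' x) v)
      simp only [hAv]
      exact h1.sub h2
    have hb : ∀ s ∈ Ico (0 : ℝ) 1,
        ‖(((ρ : ℂ)⁻¹) ^ 2 * ∫ z, Gk (ka ρ 0 x (z - s * v)) * dd p q v z) -
          ms 0 * Lab (p' x) (q' x) v‖ ≤ 2 * (I * ε) * ‖v‖ := by
      intro s hs
      have e : ((ρ : ℂ)⁻¹) ^ 2 * ∫ z, Gk (ka ρ 0 x (z - s * v)) * dd p q v z =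
          Av ρ 0 (x + s * v) p * v + Av ρ 0 (x + s * v) q * conj v := by
        rw [hAv, hAv]
        have ht := hφ.translate (s * v)
        have e1 : ∫ z, Gk (ka ρ 0 x (z - s * v)) * dd p q v z =
            (∫ z, Gk (ka ρ 0 x (z - s * v)) * p z) * v +
            (∫ z, Gk (ka ρ 0 x (z - s * v)) * q z) * conj v := by
          rw [← integral_mul_const, ← integral_mul_const, ← integral_add
            ((int2 (ht.memLp 2) h.hp).mul_const _) ((int2 (ht.memLp 2) h.hq).mul_const _)]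
          congr 1; funext z; simp only [dd]; ring
        rw [e1]
        ring
      have hin : ∀ z ∈ closedBall (x + s * v) ρ, z ∈ ball x δ := by
        intro z hz
        rw [mem_closedBall, dist_eq_norm] at hz
        rw [mem_ball, dist_eq_norm]
        have hsv : ‖(s : ℂ) * v‖ ≤ ‖v‖ := by
          rw [norm_mul, Complex.norm_real, Real.norm_eq_abs, abs_of_nonneg hs.1]
          have := mul_le_mul_of_nonneg_right hs.2.le (norm_nonneg v)
          linarith
        calc ‖z - x‖ = ‖(z - (x + s * v)) + s * v‖ := by congr 1; ring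
          _ ≤ ‖z - (x + s * v)‖ + ‖(s : ℂ) * v‖ := norm_add_le _ _
          _ < δ := by linarith
      have c1 : ‖Av ρ 0 (x + s * v) p - ms 0 * p' x‖ ≤ I * ε := by
        refine Av_close h.hp hρ hε0.le ?_
        filter_upwards [ep] with z hz hz'
        obtain ⟨d1, d2, d3⟩ := hδ' z (hin z hz')
        rw [hz d1]; exact d2
      have c2 : ‖Av ρ 0 (x + s * v) q - ms 0 * q' x‖ ≤ I * ε := by
        refine Av_close h.hq hρ hε0.le ?_
        filter_upwards [eq] with z hz hz'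
        obtain ⟨d1, d2, d3⟩ := hδ' z (hin z hz')
        rw [hz d1]; exact d3
      rw [e, Lab_apply]
      have e2 : Av ρ 0 (x + s * v) p * v + Av ρ 0 (x + s * v) q * conj v -
          ms 0 * (p' x * v + q' x * conj v) = (Av ρ 0 (x + s * v) p - ms 0 * p' x) * v +
          (Av ρ 0 (x + s * v) q - ms 0 * q' x) * conj v := by ring
      rw [e2]
      refine (norm_add_le _ _).trans ?_
      rw [norm_mul, norm_mul, RCLike.norm_conj]
      have d1 := mul_le_mul_of_nonneg_right c1 (norm_nonneg v)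
      have d2 := mul_le_mul_of_nonneg_right c2 (norm_nonneg v)
      linarith
    have h5 := norm_image_sub_le_of_norm_deriv_le_segment_01'
      (fun s _ => (hd s).hasDerivWithinAt) hb
    have e5 : Av ρ 0 (x + (1 : ℝ) * v) u - ((1 : ℝ) : ℂ) * (ms 0 * Lab (p' x) (q' x) v) -
        (Av ρ 0 (x + (0 : ℝ) * v) u - ((0 : ℝ) : ℂ) * (ms 0 * Lab (p' x) (q' x) v)) =
        Av ρ 0 (x + v) u - Av ρ 0 x u - ms 0 * Lab (p' x) (q' x) v := by
      simp only [Complex.ofReal_one, Complex.ofReal_zero, one_mul, zero_mul, add_zero, sub_zero]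
      ring
    rw [e5] at h5
    exact h5
  -- pass to the limit
  have l1 := Av_lim (ν := 0) (by simp) (hu _ hxv) h.hu.1 (by positivity : 0 < δ / 4)
  have l2 := Av_lim (ν := 0) (by simp) (hu _ hx) h.hu.1 (by positivity : 0 < δ / 4)
  have l3 := ((l1.sub l2).sub (tendsto_const_nhds (x := ms 0 * Lab (p' x) (q' x) v))).norm
  have h6 : ‖ms 0 * u (x + v) - ms 0 * u x - ms 0 * Lab (p' x) (q' x) v‖ ≤
      2 * (I * ε) * ‖v‖ := by
    refine le_of_tendsto l3 (Eventually.of_forall fun n => ?_)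
    refine key _ (by positivity) ?_
    have : δ / 4 / 2 ^ n ≤ δ / 4 := by
      rw [div_le_iff₀ (by positivity)]
      have : (1 : ℝ) ≤ 2 ^ n := one_le_pow₀ (by norm_num)
      nlinarith
    linarith
  have e6 : ms 0 * u (x + v) - ms 0 * u x - ms 0 * Lab (p' x) (q' x) v =
      ms 0 * (u (x + v) - u x - Lab (p' x) (q' x) v) := by ring
  rw [e6, norm_mul] at h6
  have h7 : m0 * ‖u (x + v) - u x - Lab (p' x) (q' x) v‖ ≤ 2 * (I * ε) * ‖v‖ :=
    (mul_le_mul_of_nonneg_right hm' (norm_nonneg _)).trans h6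
  have h8 : 2 * (I * ε) ≤ m0 * c := by
    rw [hε, mul_div_assoc', mul_div_assoc', div_le_iff₀ (by positivity)]
    have : 0 ≤ c * m0 := by positivity
    nlinarith
  have h9 : m0 * ‖u (x + v) - u x - Lab (p' x) (q' x) v‖ ≤ m0 * (c * ‖v‖) := by
    refine h7.trans ?_
    have := mul_le_mul_of_nonneg_right h8 (norm_nonneg v)
    linarith
  exact le_of_mul_le_mul_left h9 hm0

variable {ι : Type*} [Fintype ι] {z0 : ℂ} {R k L M K N : ℝ} {u P Q a : ι → ℂ → ℂ} {μ : ℂ → ℂ}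

theorem Av_lin {ρ : ℝ} (hρ : 0 < ρ) {ν : ℂ} (hν : ‖ν‖ < 1) (x : ℂ) {f g : ℂ → ℂ}
    (hf : MemLp f 2 (volume : Measure ℂ)) (hg : MemLp g 2 (volume : Measure ℂ)) :
    Av ρ ν x f - Av ρ ν x g = Av ρ ν x (fun z => f z - g z) := by
  have hG := comp_ka_tst Gk_tst Gk_sup hρ hν x
  rw [Av, Av, Av, ← mul_sub, ← integral_sub (int2 (hG.memLp 2) hf) (int2 (hG.memLp 2) hg)]
  congr 2
  funext z
  ring

/-- difference quotients are uniformly approximated by averages -/
theorem Loc2.approx (h : Loc2 z0 R k L M K N u P Q a μ) (hR1 : R ≤ 1) : ∃ C ρ1, 0 ≤ C ∧ 0 < ρ1 ∧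
    ∀ x ∈ ball z0 (R / 4), ∀ ρ, 0 < ρ → ρ ≤ ρ1 → ∀ v : ℂ, ‖v‖ = 1 → ∀ t : ℝ, t ≠ 0 →
      |t| ≤ R / 4 → ∀ j,
      ‖Av ρ (μ x) x (X v (u j) t) - ms (μ x) * X v (u j) t x‖ ≤ C * ρ ^ (1 / 2 : ℝ) := by
  obtain ⟨C1, hC1, h1⟩ := h.decayH hR1
  obtain ⟨C2, hC2, h2⟩ := Av_tel h.k1 h.k0
  have hk : 0 < 1 - k := by linarith [h.k1]
  set r : ℝ := (1 / 2 : ℝ) ^ (1 / 2 : ℝ) with hr
  have hr1 : r < 1 := Real.rpow_lt_one (by norm_num) (by norm_num) (by norm_num)
  set c : ℝ := (2 / (1 - k)) ^ (1 / 2 : ℝ) with hc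
  have hr1' : 0 < 1 - r := by linarith
  refine ⟨C2 * C1 * c / (1 - r), R * (1 - k) / 16, by positivity, by
    have := h.R0; positivity, ?_⟩
  intro x hx ρ hρ hρ1 v hv t ht htR j
  have hμx : ‖μ x‖ < 1 := norm_lt_of (h.μk x) h.k1
  have hcont : ContinuousAt (X v (u j) t) x := by
    have : Continuous (X v (u j) t) := by
      have h3 := h.cont j
      exact continuous_const.mul ((h3.comp (by fun_prop)).sub h3)
    exact this.continuousAt
  have h3 := Av_tel0 (u := X v (u j) t) (ν := μ x) hμx hcont (X_memLp (h.w j).hu v t).1 hρ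
    (C := C2 * C1 * c * ρ ^ (1 / 2 : ℝ)) (r := r) hr1 (fun n => ?_)
  · refine h3.trans (le_of_eq ?_)
    ring
  · have hρn : 0 < ρ / 2 ^ n := by positivity
    have h4 := h2 ((h.w j).X v t) hρn (h.μk x) x
    have h5 : ρ / 2 ^ n ≤ ρ := by
      rw [div_le_iff₀ (by positivity)]
      have : (1 : ℝ) ≤ 2 ^ n := one_le_pow₀ (by norm_num)
      nlinarith
    set ρ' : ℝ := 2 * (ρ / 2 ^ n / (1 - k)) with hρ'
    have hρ'0 : 0 < ρ' := by positivity
    have hρ'R : ρ' ≤ R / 8 := by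
      have : ρ / 2 ^ n / (1 - k) ≤ R / 16 := by
        rw [div_le_iff₀ hk]; linarith
      linarith
    have h6 := h1 x hx ρ' hρ'0 hρ'R v hv t ht htR j
    have e1 : ρ' / 2 = ρ / 2 ^ n / (1 - k) := by rw [hρ']; ring
    rw [e1] at h6
    have e2 : ρ' ^ (1 / 2 : ℝ) = c * ρ ^ (1 / 2 : ℝ) * r ^ n := by
      have e3 : ρ' = (2 / (1 - k)) * ρ * (1 / 2) ^ n := by
        rw [hρ', one_div_pow]; ring
      rw [e3, Real.mul_rpow (by positivity) (by positivity),
        Real.mul_rpow (by positivity) hρ.le, hr, hc]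
      congr 1
      rw [← Real.rpow_natCast, ← Real.rpow_natCast, ← Real.rpow_mul (by norm_num),
        ← Real.rpow_mul (by norm_num), mul_comm]
    rw [e2] at h6
    refine h4.trans ((mul_le_mul_of_nonneg_left h6 hC2).trans (le_of_eq ?_))
    ring

end Vale.Agent.P247.H832.R1
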