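import Vale.Agent.P247.H832.R1M

/-!
# Interior regularity of quasilinear Beltrami systems (R1), part N

Continuity of the gradient of solutions of the localized system.
-/

namespace Vale.Agent.P247.H832.R1

open MeasureTheory Set Filter Topology Metric
open scoped ContDiff ComplexConjugate ENNReal

variable {ι : Type*} [Fintype ι] {z0 : ℂ} {R k L M K N : ℝ} {u P Q a : ι → ℂ → ℂ} {μ : ℂ → ℂ}

theorem seq_pos {r : ℝ} (hr : 0 < r) (n : ℕ) : 0 < r / (n + 1 : ℝ) := by positivity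

theorem seq_le {r : ℝ} (hr : 0 < r) (n : ℕ) : r / (n + 1 : ℝ) ≤ r := by
  rw [div_le_iff₀ (by positivity)]
  have : (0 : ℝ) ≤ n := Nat.cast_nonneg n
  nlinarith

theorem seq_tendsto (r : ℝ) : Tendsto (fun n : ℕ => r / (n + 1 : ℝ)) atTop (𝓝 0) := by
  have h := (tendsto_one_div_add_atTop_nhds_zero_nat (𝕜 := ℝ)).const_mul r
  rw [mul_zero] at h
  refine h.congr fun n => ?_
  ring

theorem tendsto_seq_punct {r : ℝ} (hr : 0 < r) :
    Tendsto (fun n : ℕ => r / (n + 1 : ℝ)) atTop (𝓝[≠] 0) :=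
  tendsto_nhdsWithin_iff.2 ⟨seq_tendsto r, Eventually.of_forall fun n => (seq_pos hr n).ne'⟩

/-- the difference quotients converge uniformly -/
theorem Loc2.dir (h : Loc2 z0 R k L M K N u P Q a μ) (hR1 : R ≤ 1) (j : ι) {v : ℂ}
    (hv : ‖v‖ = 1) : ∃ w : ℂ → ℂ, ContinuousOn w (ball z0 (R / 4)) ∧
      ∀ᵐ z, z ∈ ball z0 (R / 4) → dd (P j) (Q j) v z = w z := by
  obtain ⟨C, ρ1, hC, hρ1, h1⟩ := h.approx hR1
  obtain ⟨m0, hm0, hm⟩ := ms_lower h.k1
  obtain ⟨CA, hCA, h2⟩ := Av_bound h.k1 h.k0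
  have hR4 : 0 < R / 4 := by have := h.R0; positivity
  set t : ℕ → ℝ := fun n => R / 4 / (n + 1 : ℝ) with ht
  have ht0 : ∀ n, t n ≠ 0 := fun n => (seq_pos hR4 n).ne'
  have htR : ∀ n, |t n| ≤ R / 4 := fun n => by
    rw [abs_of_pos (seq_pos hR4 n)]; exact seq_le hR4 n
  set w : ℕ → ℂ → ℂ := fun n => X v (u j) (t n) with hw
  have hwm : ∀ n, MemLp (w n) 2 (volume : Measure ℂ) := fun n => X_memLp (h.w j).hu v _
  -- L² convergence
  have hL : Tendsto (fun n => (hwm n).toLp (w n)) atTop (𝓝 (((h.w j).hd v).toLp _)) := by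
    have h3 := ((h.w j).dq_tendsto v).comp (tendsto_seq_punct hR4)
    refine h3.congr fun n => ?_
    exact XH_toLp (h.w j).hu v (t n)
  have hcau : CauchySeq (fun n => (hwm n).toLp (w n)) := hL.cauchySeq
  have hnn : ∀ m n, nn (fun z => w m z - w n z) =
      dist ((hwm m).toLp (w m)) ((hwm n).toLp (w n)) := by
    intro m n
    rw [dist_eq_norm, ← MemLp.toLp_sub, norm_toLp]
    rfl
  -- uniform Cauchy
  have hU : UniformCauchySeqOn w atTop (ball z0 (R / 4)) := by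
    rw [Metric.uniformCauchySeqOn_iff]
    intro ε hε
    obtain ⟨ρ, hρ, hρ1', hρε⟩ : ∃ ρ, 0 < ρ ∧ ρ ≤ ρ1 ∧ 2 * (C * ρ ^ (1 / 2 : ℝ)) < m0 * ε / 2 := by
      have h3 : Tendsto (fun ρ : ℝ => 2 * (C * ρ ^ (1 / 2 : ℝ))) (𝓝 0)
          (𝓝 (2 * (C * (0 : ℝ) ^ (1 / 2 : ℝ)))) :=
        (((Real.continuousAt_rpow_const 0 (1 / 2) (Or.inr (by norm_num))).tendsto).const_mul
          C).const_mul 2
      rw [Real.zero_rpow (by norm_num), mul_zero, mul_zero] at h3
      have h4 : ∀ᶠ ρ in 𝓝[>] (0 : ℝ), 2 * (C * ρ ^ (1 / 2 : ℝ)) < m0 * ε / 2 :=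
        (h3.mono_left nhdsWithin_le_nhds).eventually (Iio_mem_nhds (by positivity))
      obtain ⟨ρ, hρ, hρ'⟩ := (h4.and (Ioo_mem_nhdsGT hρ1)).exists
      exact ⟨ρ, hρ'.1, hρ'.2.le, hρ⟩
    obtain ⟨N1, hN1⟩ := Metric.cauchySeq_iff.1 hcau (m0 * ε / 2 / (CA / ρ + 1)) (by positivity)
    refine ⟨N1, fun m hm' n hn' x hx => ?_⟩
    have h3 := hN1 m hm' n hn'
    rw [← hnn] at h3
    have h4 := h1 x hx ρ hρ hρ1' v hv (t m) (ht0 m) (htR m) j
    have h5 := h1 x hx ρ hρ hρ1' v hv (t n) (ht0 n) (htR n) j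
    have h6 : ‖Av ρ (μ x) x (w m) - Av ρ (μ x) x (w n)‖ ≤ CA / ρ * nn (fun z => w m z - w n z) := by
      rw [Av_lin hρ (norm_lt_of (h.μk x) h.k1) x (hwm m) (hwm n)]
      have hmn : MemLp (fun z => w m z - w n z) 2 (volume : Measure ℂ) := (hwm m).sub (hwm n)
      exact (h2 hmn hρ (h.μk x) x).trans
        (mul_le_mul_of_nonneg_left (nB_le_nn hmn _ _) (by positivity))
    have h7 : CA / ρ * nn (fun z => w m z - w n z) ≤ m0 * ε / 2 := by
      have h8 : 0 < CA / ρ + 1 := by positivity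
      rw [lt_div_iff₀ h8] at h3
      have h9 : 0 ≤ nn (fun z => w m z - w n z) := nn_nonneg _
      linarith
    have h10 : m0 * ‖w m x - w n x‖ ≤ ‖ms (μ x) * w m x - ms (μ x) * w n x‖ := by
      rw [← mul_sub, norm_mul]
      exact mul_le_mul_of_nonneg_right (hm _ (h.μk x)) (norm_nonneg _)
    have h11 : ‖ms (μ x) * w m x - ms (μ x) * w n x‖ ≤
        ‖Av ρ (μ x) x (w m) - ms (μ x) * w m x‖ + ‖Av ρ (μ x) x (w m) - Av ρ (μ x) x (w n)‖ +
        ‖Av ρ (μ x) x (w n) - ms (μ x) * w n x‖ := by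
      have e : ms (μ x) * w m x - ms (μ x) * w n x = -(Av ρ (μ x) x (w m) - ms (μ x) * w m x) +
          (Av ρ (μ x) x (w m) - Av ρ (μ x) x (w n)) +
          (Av ρ (μ x) x (w n) - ms (μ x) * w n x) := by ring
      rw [e]
      refine norm_add₃_le.trans ?_
      rw [norm_neg]
    rw [dist_eq_norm]
    have h12 : m0 * ‖w m x - w n x‖ < m0 * ε := by linarith
    exact lt_of_mul_lt_mul_left h12 hm0.le
  -- the limit function
  have hlim : ∀ x ∈ ball z0 (R / 4), ∃ y, Tendsto (fun n => w n x) atTop (𝓝 y) := fun x hx =>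
    cauchySeq_tendsto_of_complete (hU.cauchySeq hx)
  choose! W0 hW0 using hlim
  have hTU := hU.tendstoUniformlyOn_of_tendsto hW0
  have hcont : ∀ n, Continuous (w n) := fun n => by
    have h3 := h.cont j
    exact continuous_const.mul ((h3.comp (by fun_prop)).sub h3)
  refine ⟨W0, hTU.continuousOn (Eventually.of_forall fun n => (hcont n).continuousOn).frequently, ?_⟩
  have hLm : Tendsto (fun n => eLpNorm (w n - dd (P j) (Q j) v) 2 (volume : Measure ℂ)) atTop
      (𝓝 0) := by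
    rw [tendsto_iff_norm_sub_tendsto_zero] at hL
    have h3 : ∀ n, eLpNorm (w n - dd (P j) (Q j) v) 2 (volume : Measure ℂ) =
        ENNReal.ofReal ‖(hwm n).toLp (w n) - ((h.w j).hd v).toLp _‖ := by
      intro n
      rw [← MemLp.toLp_sub, norm_toLp, nn, ENNReal.ofReal_toReal ((hwm n).sub ((h.w j).hd v)).2.ne]
    simp only [h3]
    have h4 := (ENNReal.continuous_ofReal.tendsto 0).comp hL
    rw [ENNReal.ofReal_zero] at h4
    exact h4
  have hTM := tendstoInMeasure_of_tendsto_eLpNorm (by norm_num) (fun n => (hwm n).1)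
    ((h.w j).hd v).1 hLm
  obtain ⟨ns, hns, hae⟩ := hTM.exists_seq_tendsto_ae
  filter_upwards [hae] with z hz hz'
  exact tendsto_nhds_unique hz ((hW0 z hz').comp hns.tendsto_atTop)

/-- the gradient of the solution is continuous near the centre -/
theorem Loc.contGrad (h : Loc z0 R k L M u P Q a μ) : ∃ r, 0 < r ∧ r ≤ R ∧ ∀ j, ∃ p' q' : ℂ → ℂ,
    ContinuousOn p' (ball z0 r) ∧ ContinuousOn q' (ball z0 r) ∧
    (∀ᵐ z, z ∈ ball z0 r → P j z = p' z) ∧ (∀ᵐ z, z ∈ ball z0 r → Q j z = q' z) := by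
  obtain ⟨r1, K, N, hr1, hr1R, h1⟩ := h.loc2
  set r2 : ℝ := min r1 1 with hr2
  have hr20 : 0 < r2 := lt_min hr1 one_pos
  have h2 : Loc2 z0 r2 k L M K N u P Q a μ := by
    have hsub : ball z0 r2 ⊆ ball z0 r1 := ball_subset_ball (min_le_left _ _)
    exact { toLoc := h1.toLoc.restrict hr20 (min_le_left _ _), K0 := h1.K0, N0 := h1.N0,
            hol := fun j x hx x' hx' => h1.hol j x (hsub hx) x' (hsub hx'),
            dq := fun j v hv t ht x r hc hc' => h1.dq j v hv t ht x r (hc.trans hsub)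
              (fun z hz => hsub (hc' z hz)) }
  refine ⟨r2 / 4, by positivity, ?_, fun j => ?_⟩
  · have : r2 ≤ r1 := min_le_left _ _
    linarith
  · obtain ⟨w1, hw1, e1⟩ := h2.dir (min_le_right _ _) j (v := 1) (by simp)
    obtain ⟨w2, hw2, e2⟩ := h2.dir (min_le_right _ _) j (v := Complex.I) (by simp)
    refine ⟨fun z => (1 / 2) * (w1 z - Complex.I * w2 z),
      fun z => (1 / 2) * (w1 z + Complex.I * w2 z),
      continuousOn_const.mul (hw1.sub (continuousOn_const.mul hw2)),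
      continuousOn_const.mul (hw1.add (continuousOn_const.mul hw2)), ?_, ?_⟩
    · filter_upwards [e1, e2] with z h3 h4 hz
      rw [← h3 hz, ← h4 hz]
      simp only [dd, map_one, Complex.conj_I]
      linear_combination (P j z - Q j z) / 2 * Complex.I_sq
    · filter_upwards [e1, e2] with z h3 h4 hz
      rw [← h3 hz, ← h4 hz]
      simp only [dd, map_one, Complex.conj_I]
      linear_combination (Q j z - P j z) / 2 * Complex.I_sq

end Vale.Agent.P247.H832.R1
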