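import Vale.Agent.P247.H832.R1N

/-!
# Interior regularity of quasilinear Beltrami systems (R1), part O

From the local system to the localized system.
-/

namespace Vale.Agent.P247.H832.R1

open MeasureTheory Set Filter Topology Metric
open scoped ContDiff ComplexConjugate ENNReal

/-- continuous functions with a local weak gradient `p dz + q dzbar` in `L²_loc` -/
structure WL (Ω : Set ℂ) (u p q : ℂ → ℂ) : Prop where
  hu : ContinuousOn u Ω
  hp : ∀ K ⊆ Ω, IsCompact K → MemLp p 2 (volume.restrict K)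
  hq : ∀ K ⊆ Ω, IsCompact K → MemLp q 2 (volume.restrict K)
  eq : ∀ φ : ℂ → ℂ, Tst φ → tsupport φ ⊆ Ω → ∀ v : ℂ,
    ∫ z, fderiv ℝ φ z v * u z = - ∫ z, φ z * dd p q v z

/-- a compactly supported cut-off times an `L²_loc` function -/
theorem memLp_cut {Ω : Set ℂ} {η f : ℂ → ℂ} (hη : Tst η) (hs : tsupport η ⊆ Ω)
    (hf : ∀ K ⊆ Ω, IsCompact K → MemLp f 2 (volume.restrict K)) :
    MemLp (fun z => η z * f z) 2 (volume : Measure ℂ) := by
  obtain ⟨C, hC⟩ := hη.bdd
  have h1 := hf (tsupport η) hs hη.supp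
  have hms : MeasurableSet (tsupport η) := (isClosed_tsupport η).measurableSet
  have h2 : MemLp ((tsupport η).indicator f) 2 (volume : Measure ℂ) :=
    (memLp_indicator_iff_restrict hms).2 h1
  refine (memLp_bdd hη.continuous.aestronglyMeasurable hC h2).ae_eq
    (Eventually.of_forall fun z => ?_)
  simp only
  by_cases hz : z ∈ tsupport η
  · rw [indicator_of_mem hz]
  · rw [image_eq_zero_of_notMem_tsupport hz, zero_mul, zero_mul]

theorem cont_cut {Ω : Set ℂ} (hΩ : IsOpen Ω) {η f : ℂ → ℂ} (hη : Tst η) (hs : tsupport η ⊆ Ω)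
    (hf : ContinuousOn f Ω) : Continuous fun z => η z * f z := by
  rw [continuous_iff_continuousAt]
  intro z
  by_cases hz : z ∈ tsupport η
  · exact hη.continuous.continuousAt.mul (hf.continuousAt (hΩ.mem_nhds (hs hz)))
  · have h1 : (fun z => η z * f z) =ᶠ[𝓝 z] fun _ => 0 := by
      filter_upwards [(isClosed_tsupport η).isOpen_compl.mem_nhds hz] with w hw
      rw [image_eq_zero_of_notMem_tsupport hw, zero_mul]
    exact continuousAt_const.congr h1.symm

theorem memLp_cont_cut {Ω : Set ℂ} (hΩ : IsOpen Ω) {η f : ℂ → ℂ} (hη : Tst η)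
    (hs : tsupport η ⊆ Ω) (hf : ContinuousOn f Ω) :
    MemLp (fun z => η z * f z) 2 (volume : Measure ℂ) :=
  (cont_cut hΩ hη hs hf).memLp_of_hasCompactSupport hη.supp.mul_right

theorem tsupport_dz (η : ℂ → ℂ) : tsupport (dz η) ⊆ tsupport η :=
  closure_minimal (fun _ hz => by_contra fun h => hz (zero_off h).2.1) (isClosed_tsupport η)

theorem tsupport_dzb (η : ℂ → ℂ) : tsupport (dzb η) ⊆ tsupport η :=
  closure_minimal (fun _ hz => by_contra fun h => hz (zero_off h).2.2) (isClosed_tsupport η)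

theorem tsupport_fd (η : ℂ → ℂ) (v : ℂ) : tsupport (fun z => fderiv ℝ η z v) ⊆ tsupport η := by
  refine closure_minimal ?_ (isClosed_tsupport η)
  intro z hz
  by_contra h'
  refine hz ?_
  have h2 : z ∉ tsupport (fderiv ℝ η) := fun h3 => h' (tsupport_fderiv_subset (𝕜 := ℝ) h3)
  simp only
  rw [image_eq_zero_of_notMem_tsupport h2]
  rfl

theorem fderiv_mul_tst {φ η : ℂ → ℂ} (hφ : Tst φ) (hη : Tst η) (z v : ℂ) :
    fderiv ℝ (fun z => φ z * η z) z v = fderiv ℝ φ z v * η z + φ z * fderiv ℝ η z v := by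
  have h1 := (hφ.smooth.differentiable (by simp) z).hasFDerivAt
  have h2 := (hη.smooth.differentiable (by simp) z).hasFDerivAt
  have h3 := h1.mul h2
  have e : (fun z => φ z * η z) = φ * η := rfl
  rw [e, h3.fderiv]
  simp only [_root_.add_apply, _root_.smul_apply, smul_eq_mul]
  ring

/-- cutting off a local `W^{1,2}` function -/
theorem WL.cut {Ω : Set ℂ} (hΩ : IsOpen Ω) {u p q : ℂ → ℂ} (h : WL Ω u p q) {η : ℂ → ℂ}
    (hη : Tst η) (hs : tsupport η ⊆ Ω) :
    W (fun z => η z * u z) (fun z => dz η z * u z + η z * p z)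
      (fun z => dzb η z * u z + η z * q z) where
  hu := memLp_cont_cut hΩ hη hs h.hu
  hp := (memLp_cont_cut hΩ hη.dz ((tsupport_dz η).trans hs) h.hu).add (memLp_cut hη hs h.hp)
  hq := (memLp_cont_cut hΩ hη.dzb ((tsupport_dzb η).trans hs) h.hu).add (memLp_cut hη hs h.hq)
  eq := by
    intro φ hφ v
    have ht : Tst (fun z => φ z * η z) := hφ.mul_right hη.smooth
    have hts : tsupport (fun z => φ z * η z) ⊆ Ω := (tsupport_mul_subset_right).trans hs
    have h1 := h.eq _ ht hts v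
    have m1 : MemLp (fun z => η z * u z) 2 (volume : Measure ℂ) := memLp_cont_cut hΩ hη hs h.hu
    have hsd : tsupport (fun z => fderiv ℝ η z v) ⊆ Ω := (tsupport_fd η v).trans hs
    have m2 : MemLp (fun z => fderiv ℝ η z v * u z) 2 (volume : Measure ℂ) :=
      memLp_cont_cut hΩ (hη.fderiv_apply v) hsd h.hu
    have m3 : MemLp (fun z => η z * dd p q v z) 2 (volume : Measure ℂ) := by
      refine (((memLp_cut hη hs h.hp).mul_const v).add
        ((memLp_cut hη hs h.hq).mul_const (conj v))).ae_eq (Eventually.of_forall fun z => ?_)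
      simp only [Pi.add_apply, dd]
      ring
    have e1 : ∫ z, fderiv ℝ (fun z => φ z * η z) z v * u z =
        (∫ z, fderiv ℝ φ z v * (η z * u z)) + (∫ z, φ z * (fderiv ℝ η z v * u z)) := by
      rw [← integral_add (int2 ((hφ.fderiv_apply v).memLp 2) m1) (int2 (hφ.memLp 2) m2)]
      congr 1
      funext z
      rw [fderiv_mul_tst hφ hη]
      ring
    have e2 : ∫ z, φ z * dd (fun z => dz η z * u z + η z * p z)
        (fun z => dzb η z * u z + η z * q z) v z =
        (∫ z, φ z * (fderiv ℝ η z v * u z)) + (∫ z, φ z * η z * dd p q v z) := by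
      have e3 : ∫ z, φ z * η z * dd p q v z = ∫ z, φ z * (η z * dd p q v z) := by
        congr 1; funext z; ring
      rw [e3, ← integral_add (int2 (hφ.memLp 2) m2) (int2 (hφ.memLp 2) m3)]
      congr 1
      funext z
      rw [fderiv_of_dz]
      simp only [dd]
      ring
    rw [e1] at h1
    rw [e2]
    linear_combination h1

variable {ι : Type*} [Fintype ι]

/-- a solution of the quasilinear system -/
structure Good (Ω : Set ℂ) (ν : ℂ × (ι → ℂ) → ℂ) (A : ℂ × (ι → ℂ) → ι → ℂ)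
    (Y p q : ι → ℂ → ℂ) : Prop where
  wl : ∀ j, WL Ω (Y j) (p j) (q j)
  sν : ContDiff ℝ ∞ ν
  sA : ∀ j, ContDiff ℝ ∞ (fun x => A x j)
  lt : ∀ z ∈ Ω, ‖ν (z, fun j => Y j z)‖ < 1
  eq : ∀ j, ∀ᵐ z, z ∈ Ω → q j z = ν (z, fun j => Y j z) * p j z + A (z, fun j => Y j z) j

theorem lip_on_compact {F : ℂ × (ι → ℂ) → ℂ} (hF : ContDiff ℝ ∞ F) (z0 : ℂ) (r B : ℝ) :
    ∃ L, 0 ≤ L ∧ ∀ x ∈ closedBall z0 r ×ˢ closedBall (0 : ι → ℂ) B,
      ∀ y ∈ closedBall z0 r ×ˢ closedBall (0 : ι → ℂ) B, ‖F x - F y‖ ≤ L * ‖x - y‖ := by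
  have hK : IsCompact (closedBall z0 r ×ˢ closedBall (0 : ι → ℂ) B) :=
    (isCompact_closedBall _ _).prod (isCompact_closedBall _ _)
  have hc : Continuous fun x => ‖fderiv ℝ F x‖ := (hF.continuous_fderiv (by simp)).norm
  obtain ⟨L, hL⟩ := (hK.bddAbove_image hc.continuousOn)
  refine ⟨max L 0, le_max_right _ _, fun x hx y hy => ?_⟩
  refine Convex.norm_image_sub_le_of_norm_fderiv_le (𝕜 := ℝ)
    (fun z _ => hF.differentiable (by simp) z) (fun z hz => ?_)
    ((convex_closedBall z0 r).prod (convex_closedBall _ _)) hy hx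
  exact (hL (mem_image_of_mem _ hz)).trans (le_max_left _ _)

theorem Good.contY {Ω : Set ℂ} {ν : ℂ × (ι → ℂ) → ℂ} {A : ℂ × (ι → ℂ) → ι → ℂ}
    {Y p q : ι → ℂ → ℂ} (h : Good Ω ν A Y p q) :
    ContinuousOn (fun z => (z, fun j => Y j z)) Ω :=
  continuousOn_id.prodMk (continuousOn_pi.2 fun j => (h.wl j).hu)

/-- localization -/
theorem Good.loc {Ω : Set ℂ} (hΩ : IsOpen Ω) {ν : ℂ × (ι → ℂ) → ℂ} {A : ℂ × (ι → ℂ) → ι → ℂ}
    {Y p q : ι → ℂ → ℂ} (h : Good Ω ν A Y p q) {z0 : ℂ} (hz0 : z0 ∈ Ω) :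
    ∃ r k L M, ∃ u P Q a : ι → ℂ → ℂ, ∃ μ : ℂ → ℂ, 0 < r ∧ ball z0 r ⊆ Ω ∧
      Loc z0 r k L M u P Q a μ ∧ ∀ z ∈ ball z0 r, ∀ j, u j z = Y j z ∧ P j z = p j z ∧
        Q j z = q j z := by
  obtain ⟨R, hR, hRΩ⟩ := Metric.isOpen_iff.1 hΩ z0 hz0
  set r : ℝ := R / 4 with hr
  have hr0 : 0 < r := by positivity
  have hcb2 : closedBall z0 (2 * r) ⊆ Ω := (closedBall_subset_ball (by linarith)).trans hRΩ
  have hcb : closedBall z0 r ⊆ Ω := (closedBall_subset_closedBall (by linarith)).trans hcb2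
  set η : ℂ → ℂ := ch (2 * r) z0 with hη
  have hηt : Tst η := ch_tst (by positivity) z0
  have hηs : tsupport η ⊆ Ω := by
    refine (closure_minimal (fun z hz => ?_) isClosed_closedBall).trans hcb2
    by_contra h2
    exact hz (ch_sup (by positivity) z0 z h2).1
  have hη1 : ∀ z ∈ ball z0 r, η z = 1 ∧ dz η z = 0 ∧ dzb η z = 0 := by
    intro z hz
    have h1 : ∀ w ∈ ball z0 r, η w = 1 := fun w hw => ch_one (by positivity) (by
      have : 2 * r / 2 = r := by ring
      rw [this]; exact ball_subset_closedBall hw)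
    have h2 : η =ᶠ[𝓝 z] fun _ => 1 := by
      filter_upwards [isOpen_ball.mem_nhds hz] with w hw
      exact h1 w hw
    have h3 : fderiv ℝ η z = 0 := by
      rw [h2.fderiv_eq]; simp
    refine ⟨h1 z hz, ?_, ?_⟩
    · rw [dz, h3]; simp
    · rw [dzb, h3]; simp
  set Yv : ℂ → ℂ × (ι → ℂ) := fun z => (z, fun j => Y j z) with hYv
  have hYc := h.contY
  have hKc : IsCompact (closedBall z0 r) := isCompact_closedBall _ _
  -- bounds on the compact ball
  obtain ⟨k, hk1, hk0, hk⟩ : ∃ k, k < 1 ∧ 0 ≤ k ∧ ∀ z ∈ closedBall z0 r, ‖ν (Yv z)‖ ≤ k := by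
    have hc : ContinuousOn (fun z => ‖ν (Yv z)‖) (closedBall z0 r) :=
      (h.sν.continuous.comp_continuousOn (hYc.mono hcb)).norm
    obtain ⟨z1, hz1, hmax⟩ := hKc.exists_isMaxOn ⟨z0, mem_closedBall_self hr0.le⟩ hc
    exact ⟨_, h.lt z1 (hcb hz1), norm_nonneg _, fun z hz => hmax hz⟩
  obtain ⟨B, hB⟩ : ∃ B, ∀ z ∈ closedBall z0 r, ‖(fun j => Y j z)‖ ≤ B := by
    have hc : ContinuousOn (fun z => ‖(fun j => Y j z : ι → ℂ)‖) (closedBall z0 r) :=
      ((continuousOn_pi.2 fun j => (h.wl j).hu).mono hcb).norm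
    obtain ⟨B, hB⟩ := hKc.bddAbove_image hc
    exact ⟨B, fun z hz => hB (mem_image_of_mem _ hz)⟩
  have hMex : ∀ j, ∃ M, ∀ z ∈ closedBall z0 r, ‖A (Yv z) j‖ ≤ M := by
    intro j
    have hc : ContinuousOn (fun z => ‖A (Yv z) j‖) (closedBall z0 r) :=
      ((h.sA j).continuous.comp_continuousOn (hYc.mono hcb)).norm
    obtain ⟨B, hB⟩ := hKc.bddAbove_image hc
    exact ⟨B, fun z hz => hB (mem_image_of_mem _ hz)⟩
  choose Mj hMj using hMex
  have hMj0 : ∀ j, 0 ≤ Mj j := fun j => (norm_nonneg _).trans (hMj j z0 (mem_closedBall_self hr0.le))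
  obtain ⟨L1, hL10, hL1⟩ := lip_on_compact h.sν z0 r B
  have hLex := fun j => lip_on_compact (h.sA j) z0 r B
  choose Lj hLj0 hLj using hLex
  set L : ℝ := L1 + ∑ j, Lj j with hL
  have hL0 : 0 ≤ L := add_nonneg hL10 (Finset.sum_nonneg fun j _ => hLj0 j)
  set M : ℝ := ∑ j, Mj j with hM
  have hin : ∀ z ∈ ball z0 r, Yv z ∈ closedBall z0 r ×ˢ closedBall (0 : ι → ℂ) B := by
    intro z hz
    refine ⟨ball_subset_closedBall hz, ?_⟩
    rw [mem_closedBall_zero_iff]
    exact hB z (ball_subset_closedBall hz)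
  have hnorm : ∀ z w, ‖Yv z - Yv w‖ ≤ ‖z - w‖ + ∑ i, ‖Y i z - Y i w‖ := by
    intro z w
    rw [hYv]
    simp only [Prod.mk_sub_mk, Prod.norm_mk]
    refine max_le (le_add_of_nonneg_right (Finset.sum_nonneg fun i _ => norm_nonneg _)) ?_
    refine le_trans ?_ (le_add_of_nonneg_left (norm_nonneg _))
    rw [pi_norm_le_iff_of_nonneg (Finset.sum_nonneg fun i _ => norm_nonneg _)]
    intro i
    exact Finset.single_le_sum (f := fun i => ‖Y i z - Y i w‖) (fun i _ => norm_nonneg _)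
      (Finset.mem_univ i)
  set u : ι → ℂ → ℂ := fun j z => η z * Y j z with hu
  set P : ι → ℂ → ℂ := fun j z => dz η z * Y j z + η z * p j z with hP
  set Q : ι → ℂ → ℂ := fun j z => dzb η z * Y j z + η z * q j z with hQ
  set μ : ℂ → ℂ := (ball z0 r).indicator fun z => ν (Yv z) with hμ
  have hag : ∀ z ∈ ball z0 r, ∀ j, u j z = Y j z ∧ P j z = p j z ∧ Q j z = q j z := by
    intro z hz j
    obtain ⟨e1, e2, e3⟩ := hη1 z hz
    simp only [hu, hP, hQ, e1, e2, e3, one_mul, zero_mul, zero_add, and_self]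
  have hucont : ∀ j, Continuous (u j) := fun j => cont_cut hΩ hηt hηs (h.wl j).hu
  refine ⟨r, k, L, M, u, P, Q, fun j z => A (Yv z) j, μ, hr0,
    ball_subset_closedBall.trans hcb, ?_, hag⟩
  refine { R0 := hr0, k1 := hk1, L0 := hL0, M0 := Finset.sum_nonneg fun j _ => hMj0 j,
           w := fun j => (h.wl j).cut hΩ hηt hηs, cont := hucont, bdd := ?_, μm := ?_,
           μk := ?_, eq := ?_, aM := ?_, lipμ := ?_, lipa := ?_ }
  · have h1 : ∀ j, ∃ C, ∀ z, ‖u j z‖ ≤ C := fun j =>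
      (hηt.supp.mul_right).exists_bound_of_continuous (hucont j)
    choose C hC using h1
    refine ⟨∑ j, |C j|, fun j z => (hC j z).trans ((le_abs_self _).trans
      (Finset.single_le_sum (f := fun j => |C j|) (fun i _ => abs_nonneg _)
        (Finset.mem_univ j)))⟩
  · have h1 : ContinuousOn (fun z => ν (Yv z)) (ball z0 r) :=
      h.sν.continuous.comp_continuousOn (hYc.mono (ball_subset_closedBall.trans hcb))
    exact (aestronglyMeasurable_indicator_iff measurableSet_ball).2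
      (h1.aestronglyMeasurable measurableSet_ball)
  · intro z
    by_cases hz : z ∈ ball z0 r
    · rw [hμ, indicator_of_mem hz]; exact hk z (ball_subset_closedBall hz)
    · rw [hμ, indicator_of_notMem hz, norm_zero]; exact hk0
  · intro j
    filter_upwards [h.eq j] with z hz hz'
    rw [(hag z hz' j).2.1, (hag z hz' j).2.2, hμ, indicator_of_mem hz']
    exact hz (hcb (ball_subset_closedBall hz'))
  · intro j z hz
    exact (hMj j z (ball_subset_closedBall hz)).trans
      (Finset.single_le_sum (f := Mj) (fun i _ => hMj0 i) (Finset.mem_univ j))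
  · intro z hz z' hz'
    rw [hμ, indicator_of_mem hz, indicator_of_mem hz']
    refine (hL1 _ (hin z hz) _ (hin z' hz')).trans ?_
    have e : ∑ i, ‖u i z - u i z'‖ = ∑ i, ‖Y i z - Y i z'‖ :=
      Finset.sum_congr rfl fun i _ => by rw [(hag z hz i).1, (hag z' hz' i).1]
    rw [e]
    refine mul_le_mul ?_ (hnorm z z') (norm_nonneg _) hL0
    exact le_add_of_nonneg_right (Finset.sum_nonneg fun j _ => hLj0 j)
  · intro j z hz z' hz'
    refine (hLj j _ (hin z hz) _ (hin z' hz')).trans ?_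
    have e : ∑ i, ‖u i z - u i z'‖ = ∑ i, ‖Y i z - Y i z'‖ :=
      Finset.sum_congr rfl fun i _ => by rw [(hag z hz i).1, (hag z' hz' i).1]
    rw [e]
    refine mul_le_mul ?_ (hnorm z z') (norm_nonneg _) hL0
    exact (Finset.single_le_sum (f := Lj) (fun i _ => hLj0 i) (Finset.mem_univ j)).trans
      (le_add_of_nonneg_left hL10)

end Vale.Agent.P247.H832.R1
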