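import Vale.Agent.P247.H832.R1O

/-!
# Interior regularity of quasilinear Beltrami systems (R1), part P

Local calculus of weak derivatives; `C¹` functions; the solution is `C¹`.
-/

namespace Vale.Agent.P247.H832.R1

open MeasureTheory Set Filter Topology Metric
open scoped ContDiff ComplexConjugate ENNReal

/-- locally square integrable on `Ω` -/
def L2l (Ω : Set ℂ) (f : ℂ → ℂ) : Prop := ∀ K ⊆ Ω, IsCompact K → MemLp f 2 (volume.restrict K)

theorem L2l.of_cont {Ω : Set ℂ} {f : ℂ → ℂ} (hf : ContinuousOn f Ω) : L2l Ω f := by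
  intro K hK hc
  have : IsFiniteMeasure (volume.restrict K : Measure ℂ) :=
    isFiniteMeasure_restrict.2 hc.measure_lt_top.ne
  obtain ⟨C, hC⟩ := hc.exists_bound_of_continuousOn (hf.mono hK)
  exact MemLp.of_bound ((hf.mono hK).aestronglyMeasurable hc.measurableSet) C
    (ae_restrict_of_forall_mem hc.measurableSet hC)

theorem L2l.add {Ω : Set ℂ} {f g : ℂ → ℂ} (hf : L2l Ω f) (hg : L2l Ω g) :
    L2l Ω (fun z => f z + g z) := fun K hK hc => (hf K hK hc).add (hg K hK hc)

theorem L2l.cmul {Ω : Set ℂ} {g f : ℂ → ℂ} (hg : ContinuousOn g Ω) (hf : L2l Ω f) :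
    L2l Ω (fun z => g z * f z) := by
  intro K hK hc
  obtain ⟨C, hC⟩ := hc.exists_bound_of_continuousOn (hg.mono hK)
  have hf' := hf K hK hc
  refine MemLp.of_le_mul (c := C) hf'
    (((hg.mono hK).aestronglyMeasurable hc.measurableSet).mul hf'.1) ?_
  refine ae_restrict_of_forall_mem hc.measurableSet fun z hz => ?_
  rw [norm_mul]
  exact mul_le_mul_of_nonneg_right (hC z hz) (norm_nonneg _)

theorem L2l.of_memLp {Ω : Set ℂ} {f : ℂ → ℂ} (hf : MemLp f 2 (volume : Measure ℂ)) : L2l Ω f :=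
  fun _ _ _ => hf.restrict _

theorem L2l.li {Ω : Set ℂ} (hΩ : IsOpen Ω) {f : ℂ → ℂ} (hf : L2l Ω f) :
    LocallyIntegrableOn f Ω (volume : Measure ℂ) := by
  rw [locallyIntegrableOn_iff hΩ.isLocallyClosed]
  intro K hK hc
  have : IsFiniteMeasure (volume.restrict K : Measure ℂ) :=
    isFiniteMeasure_restrict.2 hc.measure_lt_top.ne
  exact (hf K hK hc).integrable (by norm_num)

/-- test function times locally square integrable function -/
theorem int_test {Ω : Set ℂ} {φ f : ℂ → ℂ} (hφ : Tst φ) (hs : tsupport φ ⊆ Ω) (hf : L2l Ω f) :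
    Integrable (fun z => φ z * f z) (volume : Measure ℂ) := by
  have hc : IsCompact (tsupport φ) := hφ.supp
  have : IsFiniteMeasure (volume.restrict (tsupport φ) : Measure ℂ) :=
    isFiniteMeasure_restrict.2 hc.measure_lt_top.ne
  have h1 : MemLp (fun z => φ z * f z) 2 (volume.restrict (tsupport φ)) :=
    (memLp_cut hφ hs hf).restrict _
  refine (integrableOn_iff_integrable_of_support_subset (s := tsupport φ) ?_).1
    (h1.integrable (by norm_num))
  intro z hz
  by_contra h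
  exact hz (by simp only; rw [image_eq_zero_of_notMem_tsupport h, zero_mul])

/-- uniqueness -/
theorem ae_eq_of_test {Ω : Set ℂ} (hΩ : IsOpen Ω) {f g : ℂ → ℂ} (hf : L2l Ω f) (hg : L2l Ω g)
    (h : ∀ φ, Tst φ → tsupport φ ⊆ Ω → ∫ z, φ z * f z = ∫ z, φ z * g z) :
    ∀ᵐ z, z ∈ Ω → f z = g z := by
  have h1 := hΩ.ae_eq_zero_of_integral_contDiff_smul_eq_zero (μ := (volume : Measure ℂ))
    (f := fun z => f z - g z) ((hf.li hΩ).sub (hg.li hΩ)) ?_
  · filter_upwards [h1] with z hz hz'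
    exact sub_eq_zero.1 (hz hz')
  · intro φ hφ hφc hs
    have ht := Tst.of_real hφ hφc
    have hs' : tsupport (fun z => ((φ z : ℝ) : ℂ)) ⊆ Ω := by
      refine (closure_mono ?_).trans hs
      intro z hz h0
      exact hz (by simp [h0])
    have h2 := h _ ht hs'
    have e : ∫ z, φ z • (f z - g z) = (∫ z, (φ z : ℂ) * f z) - (∫ z, (φ z : ℂ) * g z) := by
      rw [← integral_sub (int_test ht hs' hf) (int_test ht hs' hg)]
      congr 1; funext z; rw [Complex.real_smul]; ring
    rw [e, h2, sub_self]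

theorem WL.mono {Ω Ω' : Set ℂ} {u p q : ℂ → ℂ} (h : WL Ω u p q) (hs : Ω' ⊆ Ω) :
    WL Ω' u p q where
  hu := h.hu.mono hs
  hp := fun K hK hc => h.hp K (hK.trans hs) hc
  hq := fun K hK hc => h.hq K (hK.trans hs) hc
  eq := fun φ hφ hφs v => h.eq φ hφ (hφs.trans hs) v

theorem WL.eq_dz {Ω : Set ℂ} {u p q : ℂ → ℂ} (h : WL Ω u p q) {φ : ℂ → ℂ} (hφ : Tst φ)
    (hs : tsupport φ ⊆ Ω) : ∫ z, dz φ z * u z = - ∫ z, φ z * p z := by
  have h1 := h.eq φ hφ hs 1
  have h2 := h.eq φ hφ hs Complex.I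
  have i1 := int_test (hφ.fderiv_apply 1) ((tsupport_fd φ 1).trans hs) (L2l.of_cont h.hu)
  have i2 := int_test (hφ.fderiv_apply Complex.I) ((tsupport_fd φ Complex.I).trans hs)
    (L2l.of_cont h.hu)
  have j1 := int_test hφ hs h.hp
  have j2 := int_test hφ hs h.hq
  have e1 : ∫ z, dz φ z * u z = 1 / 2 * (∫ z, fderiv ℝ φ z 1 * u z) -
      Complex.I / 2 * (∫ z, fderiv ℝ φ z Complex.I * u z) := by
    rw [← integral_const_mul, ← integral_const_mul, ← integral_sub (i1.const_mul _)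
      (i2.const_mul _)]
    congr 1; funext z; rw [dz]; ring
  have e2 : ∀ v : ℂ, ∫ z, φ z * dd p q v z = v * (∫ z, φ z * p z) + conj v * ∫ z, φ z * q z := by
    intro v
    rw [← integral_const_mul, ← integral_const_mul, ← integral_add (j1.const_mul _)
      (j2.const_mul _)]
    congr 1; funext z; rw [dd]; ring
  rw [e1, h1, h2, e2, e2]
  simp only [map_one, Complex.conj_I]
  linear_combination (1 / 2 * (∫ z, φ z * p z) - 1 / 2 * (∫ z, φ z * q z)) * Complex.I_sq

theorem WL.eq_dzb {Ω : Set ℂ} {u p q : ℂ → ℂ} (h : WL Ω u p q) {φ : ℂ → ℂ} (hφ : Tst φ)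
    (hs : tsupport φ ⊆ Ω) : ∫ z, dzb φ z * u z = - ∫ z, φ z * q z := by
  have h1 := h.eq φ hφ hs 1
  have h2 := h.eq φ hφ hs Complex.I
  have i1 := int_test (hφ.fderiv_apply 1) ((tsupport_fd φ 1).trans hs) (L2l.of_cont h.hu)
  have i2 := int_test (hφ.fderiv_apply Complex.I) ((tsupport_fd φ Complex.I).trans hs)
    (L2l.of_cont h.hu)
  have j1 := int_test hφ hs h.hp
  have j2 := int_test hφ hs h.hq
  have e1 : ∫ z, dzb φ z * u z = 1 / 2 * (∫ z, fderiv ℝ φ z 1 * u z) +
      Complex.I / 2 * (∫ z, fderiv ℝ φ z Complex.I * u z) := by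
    rw [← integral_const_mul, ← integral_const_mul, ← integral_add (i1.const_mul _)
      (i2.const_mul _)]
    congr 1; funext z; rw [dzb]; ring
  have e2 : ∀ v : ℂ, ∫ z, φ z * dd p q v z = v * (∫ z, φ z * p z) + conj v * ∫ z, φ z * q z := by
    intro v
    rw [← integral_const_mul, ← integral_const_mul, ← integral_add (j1.const_mul _)
      (j2.const_mul _)]
    congr 1; funext z; rw [dd]; ring
  rw [e1, h1, h2, e2, e2]
  simp only [map_one, Complex.conj_I]
  linear_combination (-1 / 2 * (∫ z, φ z * p z) + 1 / 2 * (∫ z, φ z * q z)) * Complex.I_sq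

/-- `C¹` functions on `Ω` -/
structure C1 (Ω : Set ℂ) (f : ℂ → ℂ) : Prop where
  diff : ∀ z ∈ Ω, DifferentiableAt ℝ f z
  cz : ContinuousOn (dz f) Ω
  czb : ContinuousOn (dzb f) Ω

theorem C1.cont {Ω : Set ℂ} {f : ℂ → ℂ} (h : C1 Ω f) : ContinuousOn f Ω := fun z hz =>
  (h.diff z hz).continuousAt.continuousWithinAt

theorem C1.cfd {Ω : Set ℂ} {f : ℂ → ℂ} (h : C1 Ω f) (v : ℂ) :
    ContinuousOn (fun z => fderiv ℝ f z v) Ω := by
  simp only [← dd_dz]
  exact (h.cz.mul continuousOn_const).add (h.czb.mul continuousOn_const)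

theorem C1.wl {Ω : Set ℂ} {f : ℂ → ℂ} (h : C1 Ω f) : WL Ω f (dz f) (dzb f) where
  hu := h.cont
  hp := L2l.of_cont h.cz
  hq := L2l.of_cont h.czb
  eq := by
    intro φ hφ hs v
    simp only [dd_dz]
    have c1 : Integrable (fun z => fderiv ℝ f z v * φ z) := by
      refine (int_test hφ hs (L2l.of_cont (h.cfd v))).congr (Eventually.of_forall fun z => ?_)
      simp only; ring
    have c2 : Integrable (fun z => f z * fderiv ℝ φ z v) := by
      refine (int_test (hφ.fderiv_apply v) ((tsupport_fd φ v).trans hs)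
        (L2l.of_cont h.cont)).congr (Eventually.of_forall fun z => ?_)
      simp only; ring
    have c3 : Integrable (fun z => f z * φ z) := by
      refine (int_test hφ hs (L2l.of_cont h.cont)).congr (Eventually.of_forall fun z => ?_)
      simp only; ring
    have h1 := integral_mul_fderiv_eq_neg_fderiv_mul_of_integrable (𝕜 := ℂ)
      (μ := (volume : Measure ℂ)) (f := f) (g := φ) (v := v) c1 c2 c3
      (fun x hx => h.diff x (hs hx))
      (fun x _ => hφ.smooth.differentiable (by simp) x)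
    have e1 : ∫ z, fderiv ℝ φ z v * f z = ∫ z, f z * fderiv ℝ φ z v := by
      congr 1; funext z; ring
    have e2 : ∫ z, φ z * fderiv ℝ f z v = ∫ z, fderiv ℝ f z v * φ z := by
      congr 1; funext z; ring
    rw [e1, e2]
    exact h1

/-- cut-off functions of a ball -/
theorem ball_cut (z0 : ℂ) {ρ : ℝ} (hρ : 0 < ρ) : ∃ η : ℂ → ℂ, Tst η ∧ tsupport η ⊆ ball z0 ρ ∧
    ∀ z ∈ ball z0 (ρ / 4), η z = 1 ∧ dz η z = 0 ∧ dzb η z = 0 := by
  refine ⟨ch (ρ / 2) z0, ch_tst (by positivity) z0, ?_, ?_⟩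
  · refine (closure_minimal (fun z hz => ?_) isClosed_closedBall).trans
      (closedBall_subset_ball (by linarith : ρ / 2 < ρ))
    by_contra h2
    exact hz (ch_sup (by positivity) z0 z h2).1
  · intro z hz
    have h1 : ∀ w ∈ ball z0 (ρ / 4), ch (ρ / 2) z0 w = 1 := fun w hw =>
      ch_one (by positivity) (by
        have : ρ / 2 / 2 = ρ / 4 := by ring
        rw [this]; exact ball_subset_closedBall hw)
    have h2 : ch (ρ / 2) z0 =ᶠ[𝓝 z] fun _ => 1 := by
      filter_upwards [isOpen_ball.mem_nhds hz] with w hw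
      exact h1 w hw
    have h3 : fderiv ℝ (ch (ρ / 2) z0) z = 0 := by
      rw [h2.fderiv_eq]; simp
    refine ⟨h1 z hz, ?_, ?_⟩
    · rw [dz, h3]; simp
    · rw [dzb, h3]; simp

/-- a global weak derivative gives a local one -/
theorem W.toWL {Ω : Set ℂ} {u p q u' p' q' : ℂ → ℂ} (h : W u p q) (hc : ContinuousOn u' Ω)
    (hu : ∀ᵐ z, z ∈ Ω → u z = u' z) (hp : ∀ᵐ z, z ∈ Ω → p z = p' z)
    (hq : ∀ᵐ z, z ∈ Ω → q z = q' z) : WL Ω u' p' q' where
  hu := hc
  hp := fun K hK hc => (memLp_congr_ae (by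
    filter_upwards [ae_restrict_of_ae hp, ae_restrict_mem hc.measurableSet] with z h1 h2
    exact h1 (hK h2))).1 (h.hp.restrict K)
  hq := fun K hK hc => (memLp_congr_ae (by
    filter_upwards [ae_restrict_of_ae hq, ae_restrict_mem hc.measurableSet] with z h1 h2
    exact h1 (hK h2))).1 (h.hq.restrict K)
  eq := by
    intro φ hφ hs v
    have h1 := h.eq φ hφ v
    have e1 : ∫ z, fderiv ℝ φ z v * u' z = ∫ z, fderiv ℝ φ z v * u z := by
      refine integral_congr_ae ?_
      filter_upwards [hu] with z hz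
      by_cases hz' : z ∈ Ω
      · rw [hz hz']
      · rw [image_eq_zero_of_notMem_tsupport (f := fun z => fderiv ℝ φ z v)
          (fun h2 => hz' (hs (tsupport_fd φ v h2))), zero_mul, zero_mul]
    have e2 : ∫ z, φ z * dd p' q' v z = ∫ z, φ z * dd p q v z := by
      refine integral_congr_ae ?_
      filter_upwards [hp, hq] with z hz1 hz2
      by_cases hz' : z ∈ Ω
      · rw [dd, dd, hz1 hz', hz2 hz']
      · rw [image_eq_zero_of_notMem_tsupport (fun h2 => hz' (hs h2)), zero_mul, zero_mul]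
    rw [e1, e2, h1]

/-- local product rule -/
theorem WL.mul {z0 : ℂ} {ρ : ℝ} (hρ : 0 < ρ) {u p q u' p' q' : ℂ → ℂ}
    (h : WL (ball z0 ρ) u p q) (h' : WL (ball z0 ρ) u' p' q') :
    WL (ball z0 (ρ / 4)) (fun z => u z * u' z) (fun z => p z * u' z + u z * p' z)
      (fun z => q z * u' z + u z * q' z) := by
  obtain ⟨η, hη, hs, h1⟩ := ball_cut z0 hρ
  have w1 := h.cut isOpen_ball hη hs
  have w2 := h'.cut isOpen_ball hη hs
  obtain ⟨C, hC⟩ := (hη.supp.mul_right (f' := u)).exists_bound_of_continuous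
    (cont_cut isOpen_ball hη hs h.hu)
  obtain ⟨C', hC'⟩ := (hη.supp.mul_right (f' := u')).exists_bound_of_continuous
    (cont_cut isOpen_ball hη hs h'.hu)
  have w3 := w1.bmul w2 hC hC'
  have hsub : ball z0 (ρ / 4) ⊆ ball z0 ρ := ball_subset_ball (by linarith)
  refine w3.toWL ((h.hu.mono hsub).mul (h'.hu.mono hsub)) ?_ ?_ ?_
  · refine Eventually.of_forall fun z hz => ?_
    obtain ⟨e1, e2, e3⟩ := h1 z hz
    simp only [e1, one_mul]
  · refine Eventually.of_forall fun z hz => ?_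
    obtain ⟨e1, e2, e3⟩ := h1 z hz
    simp only [e1, e2, one_mul, zero_mul, zero_add]
  · refine Eventually.of_forall fun z hz => ?_
    obtain ⟨e1, e2, e3⟩ := h1 z hz
    simp only [e1, e3, one_mul, zero_mul, zero_add]

/-- mixed derivatives of test functions -/
theorem Tst.dz_dzb {φ : ℂ → ℂ} (h : Tst φ) (z : ℂ) : R1.dz (R1.dzb φ) z = R1.dzb (R1.dz φ) z := by
  have hd : DifferentiableAt ℝ (fderiv ℝ φ) z :=
    (h.smooth.fderiv_right (m := ∞) le_rfl).differentiable (by simp) z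
  have hsymm : IsSymmSndFDerivAt ℝ φ z :=
    (h.smooth.contDiffAt (x := z)).isSymmSndFDerivAt (by
      rw [minSmoothness_of_isRCLikeNormedField]
      exact WithTop.coe_le_coe.2 (le_top : (2 : ℕ∞) ≤ ⊤))
  have hf : ∀ v, HasFDerivAt (fun z => fderiv ℝ φ z v)
      ((ContinuousLinearMap.apply ℝ ℂ v).comp (fderiv ℝ (fderiv ℝ φ) z)) z := fun v =>
    (ContinuousLinearMap.apply ℝ ℂ v).hasFDerivAt.comp z hd.hasFDerivAt
  have e1 : ∀ w, fderiv ℝ (R1.dzb φ) z w = (fderiv ℝ (fderiv ℝ φ) z w 1 +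
      Complex.I * fderiv ℝ (fderiv ℝ φ) z w Complex.I) / 2 := by
    intro w
    have h3 : HasFDerivAt (R1.dzb φ) _ z := (((hf 1).add ((hf Complex.I).const_mul
      Complex.I)).const_mul (1 / 2)).congr_of_eventuallyEq (Eventually.of_forall fun z => by
        simp only [R1.dzb, Pi.add_apply]; ring)
    rw [h3.fderiv]
    simp only [_root_.add_apply, _root_.smul_apply, smul_eq_mul,
      ContinuousLinearMap.comp_apply, ContinuousLinearMap.apply_apply]
    ring
  have e2 : ∀ w, fderiv ℝ (R1.dz φ) z w = (fderiv ℝ (fderiv ℝ φ) z w 1 -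
      Complex.I * fderiv ℝ (fderiv ℝ φ) z w Complex.I) / 2 := by
    intro w
    have h3 : HasFDerivAt (R1.dz φ) _ z := (((hf 1).sub ((hf Complex.I).const_mul
      Complex.I)).const_mul (1 / 2)).congr_of_eventuallyEq (Eventually.of_forall fun z => by
        simp only [R1.dz, Pi.sub_apply]; ring)
    rw [h3.fderiv]
    simp only [_root_.sub_apply, _root_.smul_apply, smul_eq_mul,
      ContinuousLinearMap.comp_apply, ContinuousLinearMap.apply_apply]
    ring
  rw [R1.dz, R1.dzb, e1, e1, e2, e2, hsymm Complex.I 1]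
  ring

end Vale.Agent.P247.H832.R1
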