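import Vale.Agent.P247.H832.R1P

/-!
# Interior regularity of quasilinear Beltrami systems (R1), part Q

The solution is `C¹`; the weak equation of the first derivatives.
-/

namespace Vale.Agent.P247.H832.R1

open MeasureTheory Set Filter Topology Metric
open scoped ContDiff ComplexConjugate ENNReal

theorem dz_of_Lab {f : ℂ → ℂ} {a b z : ℂ} (h : HasFDerivAt f (Lab a b) z) :
    dz f z = a ∧ dzb f z = b := by
  rw [dz, dzb, h.fderiv, Lab_apply, Lab_apply]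
  simp only [map_one, Complex.conj_I]
  constructor
  · linear_combination (b - a) / 2 * Complex.I_sq
  · linear_combination (a - b) / 2 * Complex.I_sq

theorem Lab_dz {f : ℂ → ℂ} {z : ℂ} : Lab (dz f z) (dzb f z) = fderiv ℝ f z := by
  refine ContinuousLinearMap.ext fun v => ?_
  rw [Lab_apply, ← dd_dz f, dd]

theorem ae_of_local {Ω : Set ℂ} {f g : ℂ → ℂ} (h : ∀ z0 ∈ Ω, ∃ r, 0 < r ∧
    ∀ᵐ z, z ∈ ball z0 r → f z = g z) : ∀ᵐ z, z ∈ Ω → f z = g z := by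
  have h1 : volume {z | z ∈ Ω ∧ f z ≠ g z} = 0 := by
    refine measure_null_of_locally_null _ fun x hx => ?_
    obtain ⟨r, hr, hr'⟩ := h x hx.1
    refine ⟨{z | z ∈ Ω ∧ f z ≠ g z} ∩ ball x r,
      inter_mem self_mem_nhdsWithin (mem_nhdsWithin_of_mem_nhds (ball_mem_nhds x hr)), ?_⟩
    refine measure_mono_null (fun z hz => ?_) (ae_iff.1 hr')
    intro h2
    exact hz.1.2 (h2 hz.2)
  refine ae_iff.2 (measure_mono_null (fun z hz => ?_) h1)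
  by_contra h2
  exact hz fun h3 => by_contra fun h4 => h2 ⟨h3, h4⟩

variable {ι : Type*} [Fintype ι] {Ω : Set ℂ} {ν : ℂ × (ι → ℂ) → ℂ} {A : ℂ × (ι → ℂ) → ι → ℂ}
  {Y p q : ι → ℂ → ℂ}

/-- the solution is `C¹` near every point -/
theorem Good.c1loc (hΩ : IsOpen Ω) (h : Good Ω ν A Y p q) {z0 : ℂ} (hz0 : z0 ∈ Ω) :
    ∃ r, 0 < r ∧ ball z0 r ⊆ Ω ∧ ∀ j, ∃ p' q' : ℂ → ℂ, ContinuousOn p' (ball z0 r) ∧
      ContinuousOn q' (ball z0 r) ∧ (∀ z ∈ ball z0 r, HasFDerivAt (Y j) (Lab (p' z) (q' z)) z) ∧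
      (∀ᵐ z, z ∈ ball z0 r → p j z = p' z) ∧ (∀ᵐ z, z ∈ ball z0 r → q j z = q' z) := by
  obtain ⟨r, k, L, M, u, P, Q, a, μ, hr, hrΩ, hL, hag⟩ := h.loc hΩ hz0
  obtain ⟨r1, hr1, hr1r, h1⟩ := hL.contGrad
  have hsub : ball z0 r1 ⊆ ball z0 r := ball_subset_ball hr1r
  refine ⟨r1, hr1, hsub.trans hrΩ, fun j => ?_⟩
  obtain ⟨p', q', hp', hq', ep, eq⟩ := h1 j
  refine ⟨p', q', hp', hq', fun z hz => ?_, ?_, ?_⟩
  · have h2 := (hL.w j).hasFDerivAt isOpen_ball (fun x _ => (hL.cont j).continuousAt) hp' hq'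
      ep eq hz
    refine h2.congr_of_eventuallyEq ?_
    filter_upwards [isOpen_ball.mem_nhds (hsub hz)] with w hw
    exact (hag w hw j).1.symm
  · filter_upwards [ep] with z hz hz'
    rw [← (hag z (hsub hz') j).2.1, hz hz']
  · filter_upwards [eq] with z hz hz'
    rw [← (hag z (hsub hz') j).2.2, hz hz']

/-- the solution is `C¹` -/
theorem Good.c1 (hΩ : IsOpen Ω) (h : Good Ω ν A Y p q) (j : ι) : C1 Ω (Y j) ∧
    (∀ᵐ z, z ∈ Ω → p j z = dz (Y j) z) ∧ (∀ᵐ z, z ∈ Ω → q j z = dzb (Y j) z) := by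
  refine ⟨⟨fun z hz => ?_, fun z hz => ?_, fun z hz => ?_⟩, ?_, ?_⟩
  · obtain ⟨r, hr, _, h1⟩ := h.c1loc hΩ hz
    obtain ⟨p', q', _, _, h2, _⟩ := h1 j
    exact (h2 z (mem_ball_self hr)).differentiableAt
  · obtain ⟨r, hr, _, h1⟩ := h.c1loc hΩ hz
    obtain ⟨p', q', hp', _, h2, _⟩ := h1 j
    have h3 : ContinuousAt p' z := hp'.continuousAt (ball_mem_nhds z hr)
    refine (h3.congr ?_).continuousWithinAt
    filter_upwards [ball_mem_nhds z hr] with w hw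
    exact (dz_of_Lab (h2 w hw)).1.symm
  · obtain ⟨r, hr, _, h1⟩ := h.c1loc hΩ hz
    obtain ⟨p', q', _, hq', h2, _⟩ := h1 j
    have h3 : ContinuousAt q' z := hq'.continuousAt (ball_mem_nhds z hr)
    refine (h3.congr ?_).continuousWithinAt
    filter_upwards [ball_mem_nhds z hr] with w hw
    exact (dz_of_Lab (h2 w hw)).2.symm
  · refine ae_of_local fun z0 hz0 => ?_
    obtain ⟨r, hr, _, h1⟩ := h.c1loc hΩ hz0
    obtain ⟨p', q', _, _, h2, h3, _⟩ := h1 j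
    refine ⟨r, hr, ?_⟩
    filter_upwards [h3] with z hz hz'
    rw [hz hz', (dz_of_Lab (h2 z hz')).1]
  · refine ae_of_local fun z0 hz0 => ?_
    obtain ⟨r, hr, _, h1⟩ := h.c1loc hΩ hz0
    obtain ⟨p', q', _, _, h2, _, h3⟩ := h1 j
    refine ⟨r, hr, ?_⟩
    filter_upwards [h3] with z hz hz'
    rw [hz hz', (dz_of_Lab (h2 z hz')).2]

/-- continuous functions equal a.e. on an open set are equal -/
theorem eq_of_ae_eq (hΩ : IsOpen Ω) {f g : ℂ → ℂ} (hf : ContinuousOn f Ω)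
    (hg : ContinuousOn g Ω) (h : ∀ᵐ z, z ∈ Ω → f z = g z) : ∀ z ∈ Ω, f z = g z := by
  have h1 : f =ᵐ[volume.restrict Ω] g := (ae_restrict_iff' hΩ.measurableSet).2 h
  exact Measure.eqOn_open_of_ae_eq h1 hΩ hf hg

/-- the equation holds everywhere -/
theorem Good.eqn (hΩ : IsOpen Ω) (h : Good Ω ν A Y p q) (j : ι) : ∀ z ∈ Ω,
    dzb (Y j) z = ν (z, fun j => Y j z) * dz (Y j) z + A (z, fun j => Y j z) j := by
  obtain ⟨h1, h2, h3⟩ := h.c1 hΩ j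
  refine eq_of_ae_eq hΩ h1.czb (((h.sν.continuous.comp_continuousOn h.contY).mul h1.cz).add
    ((h.sA j).continuous.comp_continuousOn h.contY)) ?_
  filter_upwards [h2, h3, h.eq j] with z e2 e3 e4 hz
  rw [← e2 hz, ← e3 hz, e4 hz]

/-- second weak derivatives -/
theorem Good.w22 (hΩ : IsOpen Ω) (h : Good Ω ν A Y p q) {z0 : ℂ} (hz0 : z0 ∈ Ω) :
    ∃ ρ, 0 < ρ ∧ ball z0 ρ ⊆ Ω ∧ ∀ j, (∃ r s, WL (ball z0 ρ) (dz (Y j)) r s) ∧
      ∃ r s, WL (ball z0 ρ) (dzb (Y j)) r s := by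
  obtain ⟨r, k, L, M, u, P, Q, a, μ, hr, hrΩ, hL, hag⟩ := h.loc hΩ hz0
  obtain ⟨r1, hr1, hr1r, h1⟩ := hL.w22
  obtain ⟨η, hη, hs, h2⟩ := ball_cut z0 hr1
  have hsub : ball z0 (r1 / 4) ⊆ ball z0 r := ball_subset_ball (by linarith)
  refine ⟨r1 / 4, by positivity, hsub.trans hrΩ, fun j => ?_⟩
  obtain ⟨⟨a1, a2, w1⟩, ⟨b1, b2, w2⟩⟩ := h1 η hη hs j
  obtain ⟨c1, e1, e2⟩ := h.c1 hΩ j
  refine ⟨⟨a1, a2, w1.toWL (c1.cz.mono (hsub.trans hrΩ)) ?_ (Eventually.of_forall fun z _ => rfl)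
    (Eventually.of_forall fun z _ => rfl)⟩, ⟨b1, b2, w2.toWL (c1.czb.mono (hsub.trans hrΩ)) ?_
    (Eventually.of_forall fun z _ => rfl) (Eventually.of_forall fun z _ => rfl)⟩⟩
  · filter_upwards [e1] with z hz hz'
    rw [(h2 z hz').1, one_mul, (hag z (hsub hz') j).2.1, hz (hrΩ (hsub hz'))]
  · filter_upwards [e2] with z hz hz'
    rw [(h2 z hz').1, one_mul, (hag z (hsub hz') j).2.2, hz (hrΩ (hsub hz'))]

/-- mixed weak derivatives agree -/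
theorem mixed {f r s r' s' : ℂ → ℂ} (hΩ : IsOpen Ω) (h : C1 Ω f) (h1 : WL Ω (dz f) r s)
    (h2 : WL Ω (dzb f) r' s') : ∀ᵐ z, z ∈ Ω → s z = r' z := by
  refine ae_eq_of_test hΩ h1.hq h2.hp fun φ hφ hs => ?_
  have e1 := h1.eq_dzb hφ hs
  have e2 := h2.eq_dz hφ hs
  have e3 := h.wl.eq_dz hφ.dzb ((tsupport_dzb φ).trans hs)
  have e4 := h.wl.eq_dzb hφ.dz ((tsupport_dz φ).trans hs)
  have e5 : ∫ z, dz (dzb φ) z * f z = ∫ z, dzb (dz φ) z * f z := by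
    simp only [hφ.dz_dzb]
  rw [e1] at e3
  rw [e2] at e4
  rw [e3, e4] at e5
  simpa using e5

end Vale.Agent.P247.H832.R1
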