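import Vale.Agent.P247.H832.R1Q

/-!
# Interior regularity of quasilinear Beltrami systems (R1), part R

The system of the first derivatives and the induction.
-/

namespace Vale.Agent.P247.H832.R1

open MeasureTheory Set Filter Topology Metric
open scoped ContDiff ComplexConjugate ENNReal

universe w

theorem WL.add {Ω : Set ℂ} {u p q u' p' q' : ℂ → ℂ} (h : WL Ω u p q) (h' : WL Ω u' p' q') :
    WL Ω (fun z => u z + u' z) (fun z => p z + p' z) (fun z => q z + q' z) where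
  hu := h.hu.add h'.hu
  hp := L2l.add h.hp h'.hp
  hq := L2l.add h.hq h'.hq
  eq := by
    intro φ hφ hs v
    have h1 := h.eq φ hφ hs v
    have h2 := h'.eq φ hφ hs v
    have i1 := int_test (hφ.fderiv_apply v) ((tsupport_fd φ v).trans hs) (L2l.of_cont h.hu)
    have i2 := int_test (hφ.fderiv_apply v) ((tsupport_fd φ v).trans hs) (L2l.of_cont h'.hu)
    have hd : ∀ {u p q : ℂ → ℂ}, WL Ω u p q → Integrable (fun z => φ z * dd p q v z) := by
      intro u p q h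
      refine (((int_test hφ hs h.hp).mul_const v).add
        ((int_test hφ hs h.hq).mul_const (conj v))).congr (Eventually.of_forall fun z => ?_)
      simp only [Pi.add_apply, dd]
      ring
    have e1 : ∫ z, fderiv ℝ φ z v * (u z + u' z) =
        (∫ z, fderiv ℝ φ z v * u z) + (∫ z, fderiv ℝ φ z v * u' z) := by
      rw [← integral_add i1 i2]
      congr 1; funext z; ring
    have e2 : ∫ z, φ z * dd (fun z => p z + p' z) (fun z => q z + q' z) v z =
        (∫ z, φ z * dd p q v z) + (∫ z, φ z * dd p' q' v z) := by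
      rw [← integral_add (hd h) (hd h')]
      congr 1; funext z; simp only [dd]; ring
    rw [e1, e2, h1, h2]
    ring

theorem WL.uniq {Ω : Set ℂ} (hΩ : IsOpen Ω) {u p q u' p' q' : ℂ → ℂ} (h : WL Ω u p q)
    (h' : WL Ω u' p' q') (hu : ∀ z ∈ Ω, u z = u' z) : ∀ᵐ z, z ∈ Ω → p z = p' z := by
  refine ae_eq_of_test hΩ h.hp h'.hp fun φ hφ hs => ?_
  have e1 := h.eq_dz hφ hs
  have e2 := h'.eq_dz hφ hs
  have e3 : ∫ z, dz φ z * u z = ∫ z, dz φ z * u' z := by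
    congr 1; funext z
    by_cases hz : z ∈ Ω
    · rw [hu z hz]
    · rw [image_eq_zero_of_notMem_tsupport (fun h2 => hz (hs (tsupport_dz φ h2))), zero_mul,
        zero_mul]
  rw [e1, e2] at e3
  simpa using e3

variable {ι : Type w} [Fintype ι]

/-- restriction of the variables -/
def res (x : ℂ × (ι ⊕ ι → ℂ)) : ℂ × (ι → ℂ) := (x.1, fun i => x.2 (Sum.inl i))

theorem res_smooth : ContDiff ℝ ∞ (res : ℂ × (ι ⊕ ι → ℂ) → ℂ × (ι → ℂ)) :=
  contDiff_fst.prodMk (contDiff_pi.2 fun i => (contDiff_apply ℝ ℂ (Sum.inl i)).comp contDiff_snd)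

/-- the value of `∂bar Y` -/
noncomputable def qv (ν : ℂ × (ι → ℂ) → ℂ) (A : ℂ × (ι → ℂ) → ι → ℂ) (x : ℂ × (ι ⊕ ι → ℂ))
    (i : ι) : ℂ := ν (res x) * x.2 (Sum.inr i) + A (res x) i

/-- the total `z` derivative of `F (z, Y z)` -/
noncomputable def DZ (ν : ℂ × (ι → ℂ) → ℂ) (A : ℂ × (ι → ℂ) → ι → ℂ) (F : ℂ × (ι → ℂ) → ℂ)
    (x : ℂ × (ι ⊕ ι → ℂ)) : ℂ :=
  (fderiv ℝ F (res x) (1, fun i => x.2 (Sum.inr i) + qv ν A x i) -
    Complex.I * fderiv ℝ F (res x)
      (Complex.I, fun i => Complex.I * (x.2 (Sum.inr i) - qv ν A x i))) / 2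

theorem qv_smooth {ν : ℂ × (ι → ℂ) → ℂ} {A : ℂ × (ι → ℂ) → ι → ℂ} (hν : ContDiff ℝ ∞ ν)
    (hA : ∀ j, ContDiff ℝ ∞ (fun x => A x j)) (i : ι) :
    ContDiff ℝ ∞ (fun x => qv ν A x i) :=
  ((hν.comp res_smooth).mul ((contDiff_apply ℝ ℂ (Sum.inr i)).comp contDiff_snd)).add
    ((hA i).comp res_smooth)

theorem DZ_smooth {ν : ℂ × (ι → ℂ) → ℂ} {A : ℂ × (ι → ℂ) → ι → ℂ} (hν : ContDiff ℝ ∞ ν)
    (hA : ∀ j, ContDiff ℝ ∞ (fun x => A x j)) {F : ℂ × (ι → ℂ) → ℂ} (hF : ContDiff ℝ ∞ F) :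
    ContDiff ℝ ∞ (DZ ν A F) := by
  have h1 : ContDiff ℝ ∞ (fun x : ℂ × (ι ⊕ ι → ℂ) => fderiv ℝ F (res x)) :=
    (hF.fderiv_right (m := ∞) le_rfl).comp res_smooth
  have h2 : ∀ i, ContDiff ℝ ∞ (fun x : ℂ × (ι ⊕ ι → ℂ) => x.2 (Sum.inr i)) := fun i =>
    (contDiff_apply ℝ ℂ (Sum.inr i)).comp contDiff_snd
  have h3 : ContDiff ℝ ∞ (fun x : ℂ × (ι ⊕ ι → ℂ) => (((1 : ℂ),
      fun i => x.2 (Sum.inr i) + qv ν A x i) : ℂ × (ι → ℂ))) :=
    contDiff_const.prodMk (contDiff_pi.2 fun i => (h2 i).add (qv_smooth hν hA i))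
  have h4 : ContDiff ℝ ∞ (fun x : ℂ × (ι ⊕ ι → ℂ) => ((Complex.I,
      fun i => Complex.I * (x.2 (Sum.inr i) - qv ν A x i)) : ℂ × (ι → ℂ))) :=
    contDiff_const.prodMk (contDiff_pi.2 fun i =>
      contDiff_const.mul ((h2 i).sub (qv_smooth hν hA i)))
  have h5 := (((h1.clm_apply h3).sub (contDiff_const (c := Complex.I) |>.mul
    (h1.clm_apply h4))).div_const 2)
  exact h5

/-- the coefficient of the new system -/
noncomputable def ν2 (ν : ℂ × (ι → ℂ) → ℂ) (x : ℂ × (ι ⊕ ι → ℂ)) : ℂ := ν (res x)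

/-- the right hand side of the new system -/
noncomputable def A2 (ν : ℂ × (ι → ℂ) → ℂ) (A : ℂ × (ι → ℂ) → ι → ℂ) (x : ℂ × (ι ⊕ ι → ℂ)) :
    ι ⊕ ι → ℂ := Sum.elim (fun j => A (res x) j)
      (fun j => DZ ν A ν x * x.2 (Sum.inr j) + DZ ν A (fun y => A y j) x)

variable {Ω : Set ℂ} {ν : ℂ × (ι → ℂ) → ℂ} {A : ℂ × (ι → ℂ) → ι → ℂ} {Y p q : ι → ℂ → ℂ}

theorem comp_fd {F : ℂ × (ι → ℂ) → ℂ} (hF : ContDiff ℝ ∞ F) {z : ℂ}
    (hY : ∀ i, DifferentiableAt ℝ (Y i) z) :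
    DifferentiableAt ℝ (fun z => F (z, fun i => Y i z)) z ∧ ∀ v,
      fderiv ℝ (fun z => F (z, fun i => Y i z)) z v =
        fderiv ℝ F (z, fun i => Y i z) (v, fun i => fderiv ℝ (Y i) z v) := by
  have h1 : HasFDerivAt (fun z => (z, fun i => Y i z)) ((ContinuousLinearMap.id ℝ ℂ).prod
      (ContinuousLinearMap.pi fun i => fderiv ℝ (Y i) z)) z :=
    (hasFDerivAt_id z).prodMk (hasFDerivAt_pi.2 fun i => (hY i).hasFDerivAt)
  have h2 := ((hF.differentiable (by simp) (z, fun i => Y i z)).hasFDerivAt).comp z h1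
  have h3 : HasFDerivAt (fun z => F (z, fun i => Y i z)) _ z := h2
  refine ⟨h3.differentiableAt, fun v => ?_⟩
  rw [h3.fderiv]
  rfl

theorem C1.comp {F : ℂ × (ι → ℂ) → ℂ} (hF : ContDiff ℝ ∞ F) (hY : ∀ i, C1 Ω (Y i)) :
    C1 Ω (fun z => F (z, fun i => Y i z)) := by
  have hc : ContinuousOn (fun z => (z, fun i => Y i z)) Ω :=
    continuousOn_id.prodMk (continuousOn_pi.2 fun j => (hY j).cont)
  have h1 : ∀ v, ContinuousOn (fun z => fderiv ℝ (fun z => F (z, fun i => Y i z)) z v) Ω := by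
    intro v
    have h2 : ContinuousOn (fun z => fderiv ℝ F (z, fun i => Y i z)
        (v, fun i => fderiv ℝ (Y i) z v)) Ω :=
      ((hF.continuous_fderiv (by simp)).comp_continuousOn hc).clm_apply
        (continuousOn_const.prodMk (continuousOn_pi.2 fun i => (hY i).cfd v))
    exact h2.congr fun z hz => (comp_fd hF fun i => (hY i).diff z hz).2 v
  refine ⟨fun z hz => (comp_fd hF fun i => (hY i).diff z hz).1, ?_, ?_⟩
  · exact ((h1 1).sub (continuousOn_const.mul (h1 Complex.I))).div_const 2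
  · exact ((h1 1).add (continuousOn_const.mul (h1 Complex.I))).div_const 2

theorem dz_comp {F : ℂ × (ι → ℂ) → ℂ} (hF : ContDiff ℝ ∞ F) {z : ℂ}
    (hY : ∀ i, DifferentiableAt ℝ (Y i) z) (hq : ∀ i, dzb (Y i) z =
      ν (z, fun j => Y j z) * dz (Y i) z + A (z, fun j => Y j z) i) :
    dz (fun z => F (z, fun i => Y i z)) z =
      DZ ν A F (z, fun j => Sum.elim Y (fun j => dz (Y j)) j z) := by
  have e : res (z, fun j => Sum.elim Y (fun j => dz (Y j)) j z) = (z, fun i => Y i z) := rfl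
  have e2 : ∀ i, qv ν A (z, fun j => Sum.elim Y (fun j => dz (Y j)) j z) i = dzb (Y i) z :=
    fun i => (hq i).symm
  rw [dz, (comp_fd hF hY).2, (comp_fd hF hY).2, DZ, e]
  have e3 : (fun i => fderiv ℝ (Y i) z 1) = fun i =>
      (z, fun j => Sum.elim Y (fun j => dz (Y j)) j z).2 (Sum.inr i) +
        qv ν A (z, fun j => Sum.elim Y (fun j => dz (Y j)) j z) i := by
    funext i
    rw [e2, ← dd_dz, dd]
    simp
  have e4 : (fun i => fderiv ℝ (Y i) z Complex.I) = fun i => Complex.I *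
      ((z, fun j => Sum.elim Y (fun j => dz (Y j)) j z).2 (Sum.inr i) -
        qv ν A (z, fun j => Sum.elim Y (fun j => dz (Y j)) j z) i) := by
    funext i
    rw [e2, ← dd_dz, dd]
    simp only [Sum.elim_inr, Complex.conj_I]
    ring
  rw [e3, e4]

/-- the first derivatives solve a system of the same kind -/
theorem Good.next (hΩ : IsOpen Ω) (h : Good Ω ν A Y p q) {z0 : ℂ} (hz0 : z0 ∈ Ω) :
    ∃ ρ, 0 < ρ ∧ ball z0 ρ ⊆ Ω ∧ ∃ r s : ι → ℂ → ℂ, Good (ball z0 ρ) (ν2 ν) (A2 ν A)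
      (Sum.elim Y (fun j => dz (Y j))) (Sum.elim (fun j => dz (Y j)) r)
      (Sum.elim (fun j => dzb (Y j)) s) := by
  obtain ⟨ρ, hρ, hρΩ, h1⟩ := h.w22 hΩ hz0
  have ha := fun j => (h1 j).1
  have hb := fun j => (h1 j).2
  choose r s hrs using ha
  choose r' s' hrs' using hb
  have hC : ∀ j, C1 Ω (Y j) := fun j => (h.c1 hΩ j).1
  have hCmono : ∀ {f : ℂ → ℂ}, C1 Ω f → C1 (ball z0 ρ) f := fun hf =>
    ⟨fun z hz => hf.diff z (hρΩ hz), hf.cz.mono hρΩ, hf.czb.mono hρΩ⟩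
  have hN : C1 (ball z0 ρ) (fun z => ν (z, fun i => Y i z)) := hCmono (C1.comp h.sν hC)
  have hAj : ∀ j, C1 (ball z0 ρ) (fun z => A (z, fun i => Y i z) j) := fun j =>
    hCmono (C1.comp (h.sA j) hC)
  have hsub : ball z0 (ρ / 4) ⊆ ball z0 ρ := ball_subset_ball (by linarith)
  refine ⟨ρ / 4, by positivity, hsub.trans hρΩ, r, s, ?_⟩
  refine { wl := ?_, sν := h.sν.comp res_smooth, sA := ?_, lt := ?_, eq := ?_ }
  · rintro (j | j)
    · exact (hC j).wl.mono (hsub.trans hρΩ)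
    · exact (hrs j).mono hsub
  · rintro (j | j)
    · exact (h.sA j).comp res_smooth
    · exact ((DZ_smooth h.sν h.sA h.sν).mul ((contDiff_apply ℝ ℂ (Sum.inr j)).comp
        contDiff_snd)).add (DZ_smooth h.sν h.sA (h.sA j))
  · intro z hz
    exact h.lt z (hρΩ (hsub hz))
  · rintro (j | j)
    · exact Eventually.of_forall fun z hz => h.eqn hΩ j z (hρΩ (hsub hz))
    · have w1 := (hN.wl.mul hρ (hrs j)).add ((hAj j).wl.mono hsub)
      have w2 := (hrs' j).mono hsub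
      have e1 := w2.uniq isOpen_ball w1 fun z hz => h.eqn hΩ j z (hρΩ (hsub hz))
      have e2 := mixed isOpen_ball (hCmono (hC j)) (hrs j) (hrs' j)
      filter_upwards [e1, e2] with z h3 h4 hz
      have hzΩ : z ∈ Ω := hρΩ (hsub hz)
      have h5 := h3 hz
      have h6 := h4 (hsub hz)
      have h7 := dz_comp (ν := ν) (A := A) (Y := Y) h.sν (fun i => (hC i).diff z hzΩ)
        (fun i => h.eqn hΩ i z hzΩ)
      have h8 := dz_comp (ν := ν) (A := A) (Y := Y) (h.sA j) (fun i => (hC i).diff z hzΩ)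
        (fun i => h.eqn hΩ i z hzΩ)
      rw [h7, h8] at h5
      change s j z = ν (z, fun i => Y i z) * r j z + (DZ ν A ν
        (z, fun j => Sum.elim Y (fun j => dz (Y j)) j z) * dz (Y j) z +
        DZ ν A (fun y => A y j) (z, fun j => Sum.elim Y (fun j => dz (Y j)) j z))
      rw [h6, h5]
      ring

theorem Lab_smooth {n : WithTop ℕ∞} : ContDiff ℝ n (fun x : ℂ × ℂ => Lab x.1 x.2) :=
  ((ContinuousLinearMap.mul ℝ ℂ).contDiff.comp contDiff_fst).add
    (((ContinuousLinearMap.mul ℝ ℂ).contDiff.comp contDiff_snd).clm_comp contDiff_const)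

end Vale.Agent.P247.H832.R1
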