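import Vale.Agent.P247.H832.R1R

/-!
# Interior regularity of quasilinear Beltrami systems (R1), part S

The induction: solutions are smooth.
-/

namespace Vale.Agent.P247.H832.R1

open MeasureTheory Set Filter Topology Metric
open scoped ContDiff ComplexConjugate ENNReal

universe w

theorem Good.smooth_nat (m : ℕ) : ∀ {ι : Type w} [Fintype ι] {Ω : Set ℂ} {ν : ℂ × (ι → ℂ) → ℂ}
    {A : ℂ × (ι → ℂ) → ι → ℂ} {Y p q : ι → ℂ → ℂ}, IsOpen Ω → Good Ω ν A Y p q →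
    ∀ z0 ∈ Ω, ∀ j, ContDiffAt ℝ m (Y j) z0 := by
  induction m with
  | zero =>
    intro ι _ Ω ν A Y p q hΩ h z0 hz0 j
    exact contDiffAt_zero.2 ⟨Ω, hΩ.mem_nhds hz0, (h.wl j).hu⟩
  | succ m ih =>
    intro ι _ Ω ν A Y p q hΩ h z0 hz0 j
    obtain ⟨ρ, hρ, hρΩ, r, s, hg⟩ := h.next hΩ hz0
    have h1 := ih isOpen_ball hg z0 (mem_ball_self hρ)
    have hY : ∀ i, ContDiffAt ℝ m (Y i) z0 := fun i => h1 (Sum.inl i)
    have hP : ∀ i, ContDiffAt ℝ m (dz (Y i)) z0 := fun i => h1 (Sum.inr i)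
    have hx : ContDiffAt ℝ m (fun z => (z, fun i => Y i z)) z0 :=
      contDiffAt_id.prodMk (contDiffAt_pi.2 hY)
    have hQ : ContDiffAt ℝ m (dzb (Y j)) z0 := by
      have h2 : ContDiffAt ℝ m (fun z => ν (z, fun j => Y j z) * dz (Y j) z +
          A (z, fun j => Y j z) j) z0 :=
        (((h.sν.of_le (by exact_mod_cast le_top)).contDiffAt.comp z0 hx).mul (hP j)).add
          (((h.sA j).of_le (by exact_mod_cast le_top)).contDiffAt.comp z0 hx)
      refine h2.congr_of_eventuallyEq ?_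
      filter_upwards [hΩ.mem_nhds hz0] with z hz
      exact h.eqn hΩ j z hz
    have hcast : ((m + 1 : ℕ) : WithTop ℕ∞) = (m : WithTop ℕ∞) + 1 := by push_cast; rfl
    rw [hcast, contDiffAt_succ_iff_hasFDerivAt]
    refine ⟨fun z => Lab (dz (Y j) z) (dzb (Y j) z), ⟨Ω, hΩ.mem_nhds hz0, fun z hz => ?_⟩, ?_⟩
    · simp only [Lab_dz]
      exact ((h.c1 hΩ j).1.diff z hz).hasFDerivAt
    · exact Lab_smooth.contDiffAt.comp z0 ((hP j).prodMk hQ)

/-- **Interior regularity** of quasilinear Beltrami systems. -/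
theorem Good.smooth {ι : Type w} [Fintype ι] {Ω : Set ℂ} {ν : ℂ × (ι → ℂ) → ℂ}
    {A : ℂ × (ι → ℂ) → ι → ℂ} {Y p q : ι → ℂ → ℂ} (hΩ : IsOpen Ω) (h : Good Ω ν A Y p q) (j : ι) :
    ContDiffOn ℝ ∞ (Y j) Ω :=
  contDiffOn_infty.2 fun m z hz => (Good.smooth_nat m hΩ h z hz j).contDiffWithinAt

end Vale.Agent.P247.H832.R1
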