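import Vale.Agent.P247.H832.R1S

/-!
# Interior regularity of quasilinear Beltrami systems (R1), part T

Interface: coefficients smooth near the graph only, real test functions.
-/

namespace Vale.Agent.P247.H832.R1

open MeasureTheory Set Filter Topology Metric
open scoped ContDiff ComplexConjugate ENNReal

universe w

/-- real test functions suffice -/
theorem WL.of_real {Ω : Set ℂ} {u p q : ℂ → ℂ} (hu : ContinuousOn u Ω) (hp : L2l Ω p)
    (hq : L2l Ω q) (h : ∀ φ : ℂ → ℝ, ContDiff ℝ ∞ φ → HasCompactSupport φ → tsupport φ ⊆ Ω →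
      ∀ v : ℂ, ∫ z, fderiv ℝ φ z v • u z = - ∫ z, φ z • (p z * v + q z * conj v)) :
    WL Ω u p q where
  hu := hu
  hp := hp
  hq := hq
  eq := by
    intro φ hφ hs v
    have hd : Differentiable ℝ φ := hφ.smooth.differentiable (by simp)
    set f : ℂ → ℝ := fun z => (φ z).re with hf
    set g : ℂ → ℝ := fun z => (φ z).im with hg
    have hf1 : ContDiff ℝ ∞ f := Complex.reCLM.contDiff.comp hφ.smooth
    have hg1 : ContDiff ℝ ∞ g := Complex.imCLM.contDiff.comp hφ.smooth
    have hf2 : HasCompactSupport f := hφ.supp.comp_left (g := fun w : ℂ => w.re) rfl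
    have hg2 : HasCompactSupport g := hφ.supp.comp_left (g := fun w : ℂ => w.im) rfl
    have hf3 : tsupport f ⊆ Ω := by
      refine (closure_mono fun z hz h0 => ?_).trans hs
      exact hz (by simp [hf, h0])
    have hg3 : tsupport g ⊆ Ω := by
      refine (closure_mono fun z hz h0 => ?_).trans hs
      exact hz (by simp [hg, h0])
    have h1 := h f hf1 hf2 hf3 v
    have h2 := h g hg1 hg2 hg3 v
    have df : ∀ z, fderiv ℝ f z v = (fderiv ℝ φ z v).re := fun z => by
      have h3 : HasFDerivAt f (Complex.reCLM.comp (fderiv ℝ φ z)) z :=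
        Complex.reCLM.hasFDerivAt.comp z (hd z).hasFDerivAt
      rw [h3.fderiv]; rfl
    have dg : ∀ z, fderiv ℝ g z v = (fderiv ℝ φ z v).im := fun z => by
      have h3 : HasFDerivAt g (Complex.imCLM.comp (fderiv ℝ φ z)) z :=
        Complex.imCLM.hasFDerivAt.comp z (hd z).hasFDerivAt
      rw [h3.fderiv]; rfl
    have hD : L2l Ω (fun z => p z * v + q z * conj v) := by
      intro K hK hc
      exact ((hp K hK hc).mul_const v).add ((hq K hK hc).mul_const (conj v))
    have tf := Tst.of_real hf1 hf2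
    have tg := Tst.of_real hg1 hg2
    have sf : tsupport (fun z => ((f z : ℝ) : ℂ)) ⊆ Ω := by
      refine (closure_mono fun z hz h0 => ?_).trans hf3
      exact hz (by simp [h0])
    have sg : tsupport (fun z => ((g z : ℝ) : ℂ)) ⊆ Ω := by
      refine (closure_mono fun z hz h0 => ?_).trans hg3
      exact hz (by simp [h0])
    have e0 : ∀ w : ℂ, w = (w.re : ℂ) + Complex.I * (w.im : ℂ) := fun w => by
      rw [mul_comm]; exact (Complex.re_add_im w).symm
    have e1 : ∫ z, fderiv ℝ φ z v * u z =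
        (∫ z, fderiv ℝ f z v • u z) + Complex.I * ∫ z, fderiv ℝ g z v • u z := by
      have i1 : Integrable (fun z => fderiv ℝ f z v • u z) := by
        have := int_test (tf.fderiv_apply v) ((tsupport_fd _ v).trans sf) (L2l.of_cont hu)
        refine this.congr (Eventually.of_forall fun z => ?_)
        have h3 : fderiv ℝ (fun z => ((f z : ℝ) : ℂ)) z v = ((fderiv ℝ f z v : ℝ) : ℂ) := by
          have h4 : HasFDerivAt (fun z => ((f z : ℝ) : ℂ)) (Complex.ofRealCLM.comp (fderiv ℝ f z)) z :=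
            Complex.ofRealCLM.hasFDerivAt.comp z (hf1.differentiable (by simp) z).hasFDerivAt
          rw [h4.fderiv]; rfl
        simp only [h3, Complex.real_smul]
      have i2 : Integrable (fun z => fderiv ℝ g z v • u z) := by
        have := int_test (tg.fderiv_apply v) ((tsupport_fd _ v).trans sg) (L2l.of_cont hu)
        refine this.congr (Eventually.of_forall fun z => ?_)
        have h3 : fderiv ℝ (fun z => ((g z : ℝ) : ℂ)) z v = ((fderiv ℝ g z v : ℝ) : ℂ) := by
          have h4 : HasFDerivAt (fun z => ((g z : ℝ) : ℂ)) (Complex.ofRealCLM.comp (fderiv ℝ g z)) z :=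
            Complex.ofRealCLM.hasFDerivAt.comp z (hg1.differentiable (by simp) z).hasFDerivAt
          rw [h4.fderiv]; rfl
        simp only [h3, Complex.real_smul]
      rw [← integral_const_mul, ← integral_add i1 (i2.const_mul _)]
      congr 1; funext z
      rw [df, dg, Complex.real_smul, Complex.real_smul]
      conv_lhs => rw [e0 (fderiv ℝ φ z v)]
      ring
    have e2 : ∫ z, φ z * dd p q v z =
        (∫ z, f z • (p z * v + q z * conj v)) +
          Complex.I * ∫ z, g z • (p z * v + q z * conj v) := by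
      have i1 : Integrable (fun z => f z • (p z * v + q z * conj v)) := by
        refine (int_test tf sf hD).congr (Eventually.of_forall fun z => ?_)
        simp only [Complex.real_smul]
      have i2 : Integrable (fun z => g z • (p z * v + q z * conj v)) := by
        refine (int_test tg sg hD).congr (Eventually.of_forall fun z => ?_)
        simp only [Complex.real_smul]
      rw [← integral_const_mul, ← integral_add i1 (i2.const_mul _)]
      congr 1; funext z
      rw [Complex.real_smul, Complex.real_smul, dd]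
      conv_lhs => rw [e0 (φ z)]
      ring
    rw [e1, e2, h1, h2]
    ring

/-- multiplication by a bump function gives a global smooth function -/
theorem bump_mul {E : Type*} [NormedAddCommGroup E] [NormedSpace ℝ E] [HasContDiffBump E]
    [FiniteDimensional ℝ E] {x0 : E} (f : ContDiffBump x0) {G : Set E} (hG : IsOpen G)
    (hs : closedBall x0 f.rOut ⊆ G) {F : E → ℂ} (hF : ContDiffOn ℝ ∞ F G) :
    ContDiff ℝ ∞ (fun x => (f x : ℂ) * F x) := by
  rw [contDiff_iff_contDiffAt]
  intro x
  by_cases hx : x ∈ tsupport f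
  · have h2 : x ∈ G := hs (f.tsupport_eq ▸ hx)
    exact ((Complex.ofRealCLM.contDiff.comp f.contDiff).contDiffAt).mul
      (hF.contDiffAt (hG.mem_nhds h2))
  · have h1 : (fun x => (f x : ℂ) * F x) =ᶠ[𝓝 x] fun _ => 0 := by
      filter_upwards [(isClosed_tsupport f).isOpen_compl.mem_nhds hx] with w hw
      rw [image_eq_zero_of_notMem_tsupport hw, Complex.ofReal_zero, zero_mul]
    exact contDiffAt_const.congr_of_eventuallyEq h1

/-- vector version, coefficients smooth near the graph -/
theorem reg1_vec {ι : Type w} [Fintype ι] {U : Set ℂ} (hU : IsOpen U) {Y p q : ι → ℂ → ℂ}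
    {G : Set (ℂ × (ι → ℂ))} (hG : IsOpen G) (hgr : ∀ z ∈ U, (z, fun j => Y j z) ∈ G)
    {m : ℂ × (ι → ℂ) → ℂ} {A : ℂ × (ι → ℂ) → ι → ℂ} (hm : ContDiffOn ℝ ∞ m G)
    (hA : ∀ j, ContDiffOn ℝ ∞ (fun x => A x j) G)
    (hlt : ∀ z ∈ U, ‖m (z, fun j => Y j z)‖ < 1) (hw : ∀ j, WL U (Y j) (p j) (q j))
    (heq : ∀ j, ∀ᵐ z, z ∈ U → q j z = m (z, fun j => Y j z) * p j z + A (z, fun j => Y j z) j)
    (j : ι) : ContDiffOn ℝ ∞ (Y j) U := by
  intro z0 hz0
  obtain ⟨ε, hε, hεG⟩ := Metric.isOpen_iff.1 hG _ (hgr z0 hz0)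
  set x0 : ℂ × (ι → ℂ) := (z0, fun j => Y j z0) with hx0
  let f : ContDiffBump x0 := ⟨ε / 4, ε / 2, by positivity, by linarith⟩
  have hfs : closedBall x0 f.rOut ⊆ G :=
    (closedBall_subset_ball (by show ε / 2 < ε; linarith)).trans hεG
  have hc : ContinuousOn (fun z => (z, fun j => Y j z)) U :=
    continuousOn_id.prodMk (continuousOn_pi.2 fun j => (hw j).hu)
  set Ω : Set ℂ := U ∩ (fun z => (z, fun j => Y j z)) ⁻¹' ball x0 (ε / 4) with hΩ
  have hΩo : IsOpen Ω := hc.isOpen_inter_preimage hU isOpen_ball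
  have hf1 : ∀ z ∈ Ω, f (z, fun j => Y j z) = 1 := fun z hz =>
    f.one_of_mem_closedBall (ball_subset_closedBall hz.2)
  have hz0Ω : z0 ∈ Ω := ⟨hz0, mem_ball_self (by positivity)⟩
  have hgood : Good Ω (fun x => (f x : ℂ) * m x) (fun x j => (f x : ℂ) * A x j) Y p q := by
    refine { wl := fun j => (hw j).mono inter_subset_left, sν := bump_mul f hG hfs hm,
             sA := fun j => bump_mul f hG hfs (hA j), lt := fun z hz => ?_, eq := fun j => ?_ }
    · simp only [hf1 z hz, Complex.ofReal_one, one_mul]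
      exact hlt z hz.1
    · filter_upwards [heq j] with z h1 hz
      simp only [hf1 z hz, Complex.ofReal_one, one_mul]
      exact h1 hz.1
  exact ((hgood.smooth hΩo j).contDiffAt (hΩo.mem_nhds hz0Ω)).contDiffWithinAt

/-- scalar version, coefficients smooth near the graph, real test functions -/
theorem reg1 {U : Set ℂ} (hU : IsOpen U) {Y p q : ℂ → ℂ} {G : Set (ℂ × ℂ)} (hG : IsOpen G)
    (hgr : ∀ z ∈ U, (z, Y z) ∈ G) {m A : ℂ × ℂ → ℂ} (hm : ContDiffOn ℝ ∞ m G)
    (hA : ContDiffOn ℝ ∞ A G) (hlt : ∀ z ∈ U, ‖m (z, Y z)‖ < 1) (hY : ContinuousOn Y U)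
    (hp : ∀ K ⊆ U, IsCompact K → MemLp p 2 (volume.restrict K))
    (hq : ∀ K ⊆ U, IsCompact K → MemLp q 2 (volume.restrict K))
    (hw : ∀ φ : ℂ → ℝ, ContDiff ℝ ∞ φ → HasCompactSupport φ → tsupport φ ⊆ U → ∀ v : ℂ,
      ∫ z, fderiv ℝ φ z v • Y z = - ∫ z, φ z • (p z * v + q z * conj v))
    (heq : ∀ᵐ z, z ∈ U → q z = m (z, Y z) * p z + A (z, Y z)) : ContDiffOn ℝ ∞ Y U := by
  have hl : ContDiff ℝ ∞ (fun x : ℂ × (Unit → ℂ) => (x.1, x.2 ())) :=
    contDiff_fst.prodMk ((contDiff_apply ℝ ℂ ()).comp contDiff_snd)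
  have hmt : MapsTo (fun x : ℂ × (Unit → ℂ) => (x.1, x.2 ()))
      ((fun x : ℂ × (Unit → ℂ) => (x.1, x.2 ())) ⁻¹' G) G := fun x hx => hx
  exact reg1_vec (ι := Unit) hU (Y := fun _ => Y) (p := fun _ => p) (q := fun _ => q)
    (G := (fun x : ℂ × (Unit → ℂ) => (x.1, x.2 ())) ⁻¹' G) (hG.preimage hl.continuous)
    (fun z hz => hgr z hz) (m := fun x => m (x.1, x.2 ())) (A := fun x _ => A (x.1, x.2 ()))
    (hm.comp hl.contDiffOn hmt) (fun _ => hA.comp hl.contDiffOn hmt) hlt
    (fun _ => WL.of_real hY hp hq hw) (fun _ => heq) ()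

end Vale.Agent.P247.H832.R1
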