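import Vale.Agent.P247.H832.R1T
import Vale.Agent.P247.H324.MG.Belt

/-!
# Interior regularity of quasilinear Beltrami systems (R1), part U

The regularity theorem in terms of the weak total derivative `WG` of helper324.
-/

namespace Vale.Agent.P247.H832.R1

open MeasureTheory Set Filter Topology Metric
open scoped ContDiff ComplexConjugate ENNReal
open Vale.Agent.P247.H324

theorem memLp_pz {D : ℂ → ℂ →L[ℝ] ℂ} {μ : Measure ℂ} (h : MemLp D 2 μ) :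
    MemLp (fun z => pz (D z)) 2 μ ∧ MemLp (fun z => pzb (D z)) 2 μ := by
  have h1 : ∀ v, MemLp (fun z => D z v) 2 μ := fun v => by
    refine MemLp.of_le_mul (c := ‖v‖) h (h.1.apply_continuousLinearMap v)
      (Eventually.of_forall fun z => ?_)
    rw [mul_comm]
    exact (D z).le_opNorm v
  constructor
  · have := ((h1 1).sub ((h1 Complex.I).const_mul Complex.I)).const_mul (1 / 2)
    exact this
  · have := ((h1 1).add ((h1 Complex.I).const_mul Complex.I)).const_mul (1 / 2)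
    exact this

/-- **REG1**, with `MemLp`. -/
theorem reg1_WG {U : Set ℂ} (hU : IsOpen U) {Y : ℂ → ℂ} {D : ℂ → ℂ →L[ℝ] ℂ} (h : WG U Y D)
    (hY : ContinuousOn Y U) (hD : ∀ K ⊆ U, IsCompact K → MemLp D 2 (volume.restrict K))
    {G : Set (ℂ × ℂ)} (hG : IsOpen G) (hgr : ∀ z ∈ U, (z, Y z) ∈ G) {m A : ℂ × ℂ → ℂ}
    (hm : ContDiffOn ℝ ∞ m G) (hA : ContDiffOn ℝ ∞ A G) (hlt : ∀ z ∈ U, ‖m (z, Y z)‖ < 1)
    (heq : ∀ᵐ z, z ∈ U → pzb (D z) = m (z, Y z) * pz (D z) + A (z, Y z)) :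
    ContDiffOn ℝ ∞ Y U := by
  refine reg1 hU (p := fun z => pz (D z)) (q := fun z => pzb (D z)) hG hgr hm hA hlt hY
    (fun K hK hc => (memLp_pz (hD K hK hc)).1) (fun K hK hc => (memLp_pz (hD K hK hc)).2)
    (fun φ hφ hφc hs v => ?_) heq
  rw [h.wd φ hφ hφc hs v]
  congr 2
  funext z
  rw [pz_pzb (D z) v]
  simp only [smul_eq_mul, Complex.real_smul]
  ring

/-- **REG1**, with finite energy on compact sets. -/
theorem reg1_WG' {U : Set ℂ} (hU : IsOpen U) {Y : ℂ → ℂ} {D : ℂ → ℂ →L[ℝ] ℂ} (h : WG U Y D)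
    (hY : ContinuousOn Y U) (hD : ∀ K ⊆ U, IsCompact K → ∫⁻ z in K, ‖D z‖ₑ ^ 2 ≠ ⊤)
    {G : Set (ℂ × ℂ)} (hG : IsOpen G) (hgr : ∀ z ∈ U, (z, Y z) ∈ G) {m A : ℂ × ℂ → ℂ}
    (hm : ContDiffOn ℝ ∞ m G) (hA : ContDiffOn ℝ ∞ A G) (hlt : ∀ z ∈ U, ‖m (z, Y z)‖ < 1)
    (heq : ∀ᵐ z, z ∈ U → pzb (D z) = m (z, Y z) * pz (D z) + A (z, Y z)) :
    ContDiffOn ℝ ∞ Y U := by
  refine reg1_WG hU h hY (fun K hK hc => ⟨(h.int K hc hK).1, ?_⟩) hG hgr hm hA hlt heq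
  rw [eLpNorm_lt_top_iff_lintegral_rpow_enorm_lt_top (by norm_num) (by norm_num)]
  simp only [ENNReal.toReal_ofNat, ENNReal.rpow_ofNat]
  exact (hD K hK hc).lt_top

/-- classical `C¹` solutions are smooth -/
theorem reg1_C1 {U : Set ℂ} (hU : IsOpen U) {Y : ℂ → ℂ} (hY : ContDiffOn ℝ 1 Y U)
    {G : Set (ℂ × ℂ)} (hG : IsOpen G) (hgr : ∀ z ∈ U, (z, Y z) ∈ G) {m A : ℂ × ℂ → ℂ}
    (hm : ContDiffOn ℝ ∞ m G) (hA : ContDiffOn ℝ ∞ A G) (hlt : ∀ z ∈ U, ‖m (z, Y z)‖ < 1)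
    (heq : ∀ z ∈ U, pzb (fderiv ℝ Y z) = m (z, Y z) * pz (fderiv ℝ Y z) + A (z, Y z)) :
    ContDiffOn ℝ ∞ Y U := by
  have hc : ContinuousOn (fderiv ℝ Y) U := hY.continuousOn_fderiv_of_isOpen hU le_rfl
  have hv : ∀ v, ContinuousOn (fun z => fderiv ℝ Y z v) U := fun v =>
    hc.clm_apply continuousOn_const
  have h1 : C1 U Y := ⟨fun z hz => ((hY z hz).contDiffAt (hU.mem_nhds hz)).differentiableAt
      (by simp), ((hv 1).sub (continuousOn_const.mul (hv Complex.I))).div_const 2,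
    ((hv 1).add (continuousOn_const.mul (hv Complex.I))).div_const 2⟩
  have hl : ContDiff ℝ ∞ (fun x : ℂ × (Unit → ℂ) => (x.1, x.2 ())) :=
    contDiff_fst.prodMk ((contDiff_apply ℝ ℂ ()).comp contDiff_snd)
  have hmt : MapsTo (fun x : ℂ × (Unit → ℂ) => (x.1, x.2 ()))
      ((fun x : ℂ × (Unit → ℂ) => (x.1, x.2 ())) ⁻¹' G) G := fun x hx => hx
  refine reg1_vec (ι := Unit) hU (Y := fun _ => Y) (p := fun _ => dz Y) (q := fun _ => dzb Y)
    (G := (fun x : ℂ × (Unit → ℂ) => (x.1, x.2 ())) ⁻¹' G) (hG.preimage hl.continuous)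
    (fun z hz => hgr z hz) (m := fun x => m (x.1, x.2 ())) (A := fun x _ => A (x.1, x.2 ()))
    (hm.comp hl.contDiffOn hmt) (fun _ => hA.comp hl.contDiffOn hmt) hlt
    (fun _ => h1.wl) (fun _ => Eventually.of_forall fun z hz => ?_) ()
  have h2 := heq z hz
  simp only [pz, pzb, smul_eq_mul] at h2
  simp only [dz, dzb]
  linear_combination h2

end Vale.Agent.P247.H832.R1
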