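import Vale.Agent.P247.H832.Fill

/-!
# A continuous theta function (P247, package W)

`Tht x y = exp (-2πi x ⌊y⌋) ((1 - {y}) exp (2πi x) + {y})` is continuous, `1`-periodic in `x`,
`Tht x (y + 1) = exp (-2πi x) Tht x y`, and its zeros are the points of `(1/2, 1/2) + ℤ²`.
We only use it on the unit square, through `Th p`: see below.
-/

open Filter Topology Set Metric

namespace Vale.Agent.P247.H832

noncomputable section

/-- `e(x) = exp (2πi x)` -/
def ee (x : ℝ) : ℂ := Complex.exp (2 * Real.pi * Complex.I * x)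

theorem ee_continuous : Continuous ee := by
  unfold ee
  fun_prop

theorem ee_add (x y : ℝ) : ee (x + y) = ee x * ee y := by
  unfold ee
  rw [← Complex.exp_add]
  congr 1
  push_cast
  ring

theorem ee_zero : ee 0 = 1 := by simp [ee]

theorem ee_one : ee 1 = 1 := by
  simp [ee]

theorem ee_neg_half : ee (-(1 / 2)) = -1 := by
  unfold ee
  rw [show (2 * Real.pi * Complex.I * ((-(1 / 2) : ℝ) : ℂ)) = -(Real.pi * Complex.I) by
    push_cast; ring, Complex.exp_neg, Complex.exp_pi_mul_I]
  norm_num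

theorem ee_ne_zero (x : ℝ) : ee x ≠ 0 := Complex.exp_ne_zero _

theorem norm_ee (x : ℝ) : ‖ee x‖ = 1 := norm_exp_circ x

/-- the theta function of the point `(a, b)` of the open unit square, as a function on the closed
unit square: it vanishes exactly at `(a, b)` -/
def Th (a b x y : ℝ) : ℂ :=
  if y ≤ b + 1 / 2 then
    (if b - 1 / 2 ≤ y then (1 / 2 - (y - b) : ℝ) * (-ee (x - a)) + (1 / 2 + (y - b) : ℝ)
      else -ee (x - a) * ((-(1 / 2) - (y - b) : ℝ) * (-ee (x - a)) + (3 / 2 + (y - b) : ℝ)))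
  else -ee (-(x - a)) * ((3 / 2 - (y - b) : ℝ) * (-ee (x - a)) + (-(1 / 2) + (y - b) : ℝ))

theorem Th_continuous (a b : ℝ) : Continuous fun p : ℝ × ℝ => Th a b p.1 p.2 := by
  unfold Th
  have he := ee_continuous
  refine Continuous.if_le ?_ ?_ continuous_snd continuous_const ?_
  · refine Continuous.if_le ?_ ?_ continuous_const continuous_snd ?_
    · fun_prop
    · fun_prop
    · intro p hp
      rw [← hp]
      have e1 : (1 / 2 - (b - 1 / 2 - b) : ℝ) = 1 := by ring
      have e2 : (1 / 2 + (b - 1 / 2 - b) : ℝ) = 0 := by ring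
      have e3 : (-(1 / 2) - (b - 1 / 2 - b) : ℝ) = 0 := by ring
      have e4 : (3 / 2 + (b - 1 / 2 - b) : ℝ) = 1 := by ring
      rw [e1, e2, e3, e4]
      push_cast
      ring
  · fun_prop
  · intro p hp
    rw [hp]
    have e0 : b - 1 / 2 ≤ b + 1 / 2 := by linarith
    rw [if_pos e0]
    have e1 : (1 / 2 - (b + 1 / 2 - b) : ℝ) = 0 := by ring
    have e2 : (1 / 2 + (b + 1 / 2 - b) : ℝ) = 1 := by ring
    have e3 : (3 / 2 - (b + 1 / 2 - b) : ℝ) = 1 := by ring
    have e4 : (-(1 / 2) + (b + 1 / 2 - b) : ℝ) = 0 := by ring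
    rw [e1, e2, e3, e4]
    have h := ee_add (-(p.1 - a)) (p.1 - a)
    rw [neg_add_cancel, ee_zero] at h
    push_cast
    linear_combination h

theorem Th_x_one (a b y : ℝ) : Th a b 1 y = Th a b 0 y := by
  have h1 : ee (1 - a) = ee (0 - a) := by
    rw [show (1 - a : ℝ) = (0 - a) + 1 by ring, ee_add, ee_one, mul_one]
  have h2 : ee (-(1 - a)) = ee (-(0 - a)) := by
    have h3 := ee_add (-(1 - a)) 1
    rw [ee_one, mul_one] at h3
    rw [← h3]
    congr 1
    ring
  unfold Th
  rw [h1, h2]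

/-- quasi-periodicity in `y` -/
theorem Th_y_one {a b : ℝ} (hb0 : 0 < b) (hb1 : b < 1) (x : ℝ) :
    Th a b x 1 * (-ee (x - a)) = Th a b x 0 := by
  have hinv : ee (-(x - a)) * ee (x - a) = 1 := by
    rw [← ee_add, neg_add_cancel, ee_zero]
  unfold Th
  rcases lt_trichotomy b (1 / 2) with h | h | h
  · have c1 : ¬ (1 : ℝ) ≤ b + 1 / 2 := by linarith
    have c2 : (0 : ℝ) ≤ b + 1 / 2 := by linarith
    have c3 : b - 1 / 2 ≤ (0 : ℝ) := by linarith
    rw [if_neg c1, if_pos c2, if_pos c3]
    push_cast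
    linear_combination (-(3 / 2 - (1 - (b : ℂ))) * ee (x - a) +
      (-(1 / 2) + (1 - (b : ℂ)))) * hinv
  · subst h
    have c1 : (1 : ℝ) ≤ 1 / 2 + 1 / 2 := by norm_num
    have c2 : (0 : ℝ) ≤ 1 / 2 + 1 / 2 := by norm_num
    have c3 : (1 / 2 : ℝ) - 1 / 2 ≤ 1 := by norm_num
    have c4 : (1 / 2 : ℝ) - 1 / 2 ≤ 0 := by norm_num
    rw [if_pos c1, if_pos c3, if_pos c2, if_pos c4]
    push_cast
    ring
  · have c1 : (1 : ℝ) ≤ b + 1 / 2 := by linarith
    have c2 : (0 : ℝ) ≤ b + 1 / 2 := by linarith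
    have c3 : b - 1 / 2 ≤ (1 : ℝ) := by linarith
    have c4 : ¬ b - 1 / 2 ≤ (0 : ℝ) := by linarith
    rw [if_pos c1, if_pos c3, if_pos c2, if_neg c4]
    push_cast
    ring

theorem ee_eq_one {u : ℝ} (h : ee u = 1) (h0 : -1 < u) (h1 : u < 1) : u = 0 := by
  obtain ⟨n, hn⟩ := Complex.exp_eq_one_iff.1 h
  have hpi : (2 * Real.pi * Complex.I : ℂ) ≠ 0 := Complex.two_pi_I_ne_zero
  have h2 : (2 * Real.pi * Complex.I : ℂ) * u = 2 * Real.pi * Complex.I * n := by
    rw [hn]; ring
  have h3 : (u : ℂ) = n := mul_left_cancel₀ hpi h2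
  have h4 : u = n := by exact_mod_cast h3
  rw [h4] at h0 h1
  have h5 : (-1 : ℤ) < n := by exact_mod_cast h0
  have h6 : n < (1 : ℤ) := by exact_mod_cast h1
  have : n = 0 := by omega
  rw [h4, this, Int.cast_zero]

/-- the only zero of `Th a b` on the closed unit square is `(a, b)` -/
theorem Th_ne_zero {a b x y : ℝ} (ha0 : 0 < a) (ha1 : a < 1) (hb0 : 0 < b) (hb1 : b < 1)
    (hx : x ∈ Icc (0 : ℝ) 1) (hy : y ∈ Icc (0 : ℝ) 1) (h : Th a b x y = 0) : x = a ∧ y = b := by
  have key : ∀ {s t : ℝ} {w : ℂ}, ‖w‖ = 1 → (s : ℂ) * (-w) + (t : ℂ) = 0 → |s| = |t| := by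
    intro s t w hw h
    have h1 : (s : ℂ) * w = t := by linear_combination -h
    have h2 := congrArg norm h1
    rw [norm_mul, hw, mul_one, Complex.norm_real, Complex.norm_real] at h2
    exact h2
  unfold Th at h
  have hx0 := hx.1
  have hx1 := hx.2
  have hy0 := hy.1
  have hy1 := hy.2
  split_ifs at h with c1 c2
  · have h1 := key (norm_ee _) h
    have h2 : y = b := by
      have h3 : (0 : ℝ) ≤ 1 / 2 - (y - b) := by linarith
      have h4 : (0 : ℝ) ≤ 1 / 2 + (y - b) := by linarith
      rw [abs_of_nonneg h3, abs_of_nonneg h4] at h1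
      linarith
    refine ⟨?_, h2⟩
    rw [h2] at h
    have h5 : ee (x - a) = 1 := by
      simp only [sub_self, sub_zero, add_zero] at h
      push_cast at h
      linear_combination (-2) * h
    have h6 := ee_eq_one h5 (by linarith) (by linarith)
    linarith
  · exfalso
    rw [mul_eq_zero] at h
    rcases h with h | h
    · exact ee_ne_zero _ (neg_eq_zero.1 h)
    · have h1 := key (norm_ee _) h
      have h3 : (0 : ℝ) ≤ -(1 / 2) - (y - b) := by linarith
      have h4 : (0 : ℝ) ≤ 3 / 2 + (y - b) := by linarith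
      rw [abs_of_nonneg h3, abs_of_nonneg h4] at h1
      linarith
  · exfalso
    rw [mul_eq_zero] at h
    rcases h with h | h
    · exact ee_ne_zero _ (neg_eq_zero.1 h)
    · have h1 := key (norm_ee _) h
      have h3 : (0 : ℝ) ≤ 3 / 2 - (y - b) := by linarith
      have h4 : (0 : ℝ) ≤ -(1 / 2) + (y - b) := by linarith
      rw [abs_of_nonneg h3, abs_of_nonneg h4] at h1
      linarith

/-! ### linear homotopies -/

theorem CW.line {f g : ℂ → ℂ} {c : ℂ} {r : ℝ} {n : ℤ} (hr : 0 ≤ r) (h : CW f c r n)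
    (hf : ContinuousOn f (sphere c r)) (hg : ContinuousOn g (sphere c r))
    (h0 : ∀ z ∈ sphere c r, ∀ s ∈ Icc (0 : ℝ) 1, (1 - s : ℝ) * f z + (s : ℝ) * g z ≠ 0) :
    CW g c r n := by
  have hfc : Continuous fun t => f (circ c r t) :=
    hf.comp_continuous (circ_continuous c r) (circ_mem_sphere hr c)
  have hgc : Continuous fun t => g (circ c r t) :=
    hg.comp_continuous (circ_continuous c r) (circ_mem_sphere hr c)
  have h1 := Wnd.homotopy
    (G := fun s t => (1 - s : ℝ) * f (circ c r t) + (s : ℝ) * g (circ c r t)) (n := n)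
    ?_ ?_ ?_ ?_
  · refine h1.congr fun t => ?_
    simp
  · refine Continuous.continuousOn ?_
    have h3 : Continuous fun p : ℝ × ℝ => f (circ c r p.2) := hfc.comp continuous_snd
    have h4 : Continuous fun p : ℝ × ℝ => g (circ c r p.2) := hgc.comp continuous_snd
    exact ((Complex.continuous_ofReal.comp (continuous_const.sub continuous_fst)).mul h3).add
      ((Complex.continuous_ofReal.comp continuous_fst).mul h4)
  · intro s hs t
    exact h0 _ (circ_mem_sphere hr c t) s hs
  · intro s _ t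
    simp only [circ_periodic]
  · refine Wnd.congr h fun t => ?_
    simp

/-! ### lattice coordinates -/

/-- the second coordinate of `z` with respect to `1, τ` -/
def cY (τ z : ℂ) : ℝ := z.im / τ.im

/-- the first coordinate of `z` with respect to `1, τ` -/
def cX (τ z : ℂ) : ℝ := z.re - τ.re * cY τ z

variable {τ : ℂ}

theorem coord_eq (hτ : 0 < τ.im) (z : ℂ) : (cX τ z : ℂ) + cY τ z * τ = z := by
  have h := hτ.ne'
  apply Complex.ext
  · simp [cX, cY]
    ring
  · simp [cX, cY]
    field_simp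

theorem cY_add_mul (hτ : 0 < τ.im) (x y : ℝ) : cY τ ((x : ℂ) + y * τ) = y := by
  have h := hτ.ne'
  simp [cY]
  field_simp

theorem cX_add_mul (hτ : 0 < τ.im) (x y : ℝ) : cX τ ((x : ℂ) + y * τ) = x := by
  unfold cX
  rw [cY_add_mul hτ]
  simp
  ring

theorem cX_continuous : Continuous (cX τ) := by
  unfold cX cY
  fun_prop

theorem cY_continuous : Continuous (cY τ) := by
  unfold cY
  fun_prop

theorem cY_sub (z w : ℂ) : cY τ (z - w) = cY τ z - cY τ w := by
  simp [cY, sub_div]

theorem cX_sub (z w : ℂ) : cX τ (z - w) = cX τ z - cX τ w := by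
  unfold cX
  rw [cY_sub]
  simp
  ring

theorem cY_add (z w : ℂ) : cY τ (z + w) = cY τ z + cY τ w := by
  simp [cY, add_div]

theorem cX_add (z w : ℂ) : cX τ (z + w) = cX τ z + cX τ w := by
  unfold cX
  rw [cY_add]
  simp
  ring

/-- the open fundamental parallelogram -/
def Qo (τ : ℂ) : Set ℂ := {z | 0 < cX τ z ∧ cX τ z < 1 ∧ 0 < cY τ z ∧ cY τ z < 1}

/-- the closed fundamental parallelogram -/
def Qc (τ : ℂ) : Set ℂ := {z | cX τ z ∈ Icc (0 : ℝ) 1 ∧ cY τ z ∈ Icc (0 : ℝ) 1}

theorem isOpen_Qo : IsOpen (Qo τ) := by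
  have h1 := cX_continuous (τ := τ)
  have h2 := cY_continuous (τ := τ)
  exact (isOpen_lt continuous_const h1).inter ((isOpen_lt h1 continuous_const).inter
    ((isOpen_lt continuous_const h2).inter (isOpen_lt h2 continuous_const)))

theorem isClosed_Qc : IsClosed (Qc τ) :=
  (isClosed_Icc.preimage cX_continuous).inter (isClosed_Icc.preimage cY_continuous)

theorem Qo_subset_Qc : Qo τ ⊆ Qc τ := fun _ h => ⟨⟨h.1.le, h.2.1.le⟩, h.2.2.1.le, h.2.2.2.le⟩

/-- the theta function of the point `p` -/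
def ThP (τ p z : ℂ) : ℂ := Th (cX τ p) (cY τ p) (cX τ z) (cY τ z)

theorem ThP_continuous (p : ℂ) : Continuous (ThP τ p) :=
  (Th_continuous (cX τ p) (cY τ p)).comp (cX_continuous.prodMk cY_continuous)

theorem ThP_ne_zero (hτ : 0 < τ.im) {p z : ℂ} (hp : p ∈ Qo τ) (hz : z ∈ Qc τ) (hne : z ≠ p) :
    ThP τ p z ≠ 0 := by
  intro h
  obtain ⟨h1, h2⟩ := Th_ne_zero hp.1 hp.2.1 hp.2.2.1 hp.2.2.2 hz.1 hz.2 h
  exact hne (by rw [← coord_eq hτ z, ← coord_eq hτ p, h1, h2])

/-- the local winding number of the theta function -/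
theorem cw_ThP (hτ : 0 < τ.im) {p : ℂ} {r : ℝ} (hr : 0 < r) (hb : closedBall p r ⊆ Qo τ) :
    CW (ThP τ p) p r 1 := by
  have hp : p ∈ Qo τ := hb (mem_closedBall_self hr.le)
  -- coordinates relative to `p`
  have hsym : ∀ z ∈ sphere p r, 2 * p - z ∈ Qo τ := by
    intro z hz
    refine hb ?_
    rw [mem_closedBall, dist_eq_norm, show 2 * p - z - p = -(z - p) by ring, norm_neg]
    rw [mem_sphere_iff_norm] at hz
    exact hz.le
  have hu : ∀ z ∈ sphere p r, |cX τ (z - p)| < 1 / 2 ∧ |cY τ (z - p)| < 1 / 2 := by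
    intro z hz
    have h1 := hb (sphere_subset_closedBall hz)
    have h2 := hsym z hz
    have e1 : cX τ (2 * p - z) = 2 * cX τ p - cX τ z := by
      rw [cX_sub, two_mul, cX_add]; ring
    have e2 : cY τ (2 * p - z) = 2 * cY τ p - cY τ z := by
      rw [cY_sub, two_mul, cY_add]; ring
    obtain ⟨a1, a2, a3, a4⟩ := h1
    obtain ⟨b1, b2, b3, b4⟩ := h2
    rw [e1] at b1 b2
    rw [e2] at b3 b4
    rw [cX_sub, cY_sub, abs_lt, abs_lt]
    refine ⟨⟨?_, ?_⟩, ?_, ?_⟩ <;> linarith
  have hne : ∀ z ∈ sphere p r, z - p ≠ 0 := by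
    intro z hz h
    rw [mem_sphere_iff_norm, h, norm_zero] at hz
    exact hr.ne hz
  have hcX := cX_continuous (τ := τ)
  have hcY := cY_continuous (τ := τ)
  -- first homotopy
  have s1 : CW (fun z => -Complex.I * (z - p)) p r 1 :=
    (cw_sub hr).const_mul (neg_ne_zero.2 Complex.I_ne_zero)
  have s2 : CW (fun z => ((2 * cY τ (z - p) : ℝ) : ℂ) -
      Complex.I * ((Real.pi * cX τ (z - p) : ℝ) : ℂ)) p r 1 := by
    refine s1.line hr.le (by fun_prop) (by fun_prop) fun z hz s hs h => ?_
    have hzp := hne z hz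
    have e := coord_eq hτ (z - p)
    have hre := congrArg Complex.re h
    have him := congrArg Complex.im h
    rw [← e] at hre him
    rw [e] at hre him
    have hre' : ((1 - s) * τ.im + s * 2) * cY τ (z - p) = 0 := by
      have h1 : (z - p).im = τ.im * cY τ (z - p) := by
        unfold cY
        field_simp
      simp only [Complex.add_re, Complex.mul_re, Complex.ofReal_re, Complex.ofReal_im,
        Complex.neg_re, Complex.neg_im, Complex.I_re, Complex.I_im, Complex.mul_im,
        Complex.sub_re (Complex.ofReal _), Complex.zero_re] at hre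
      rw [h1] at hre
      linarith
    have hpos : 0 < (1 - s) * τ.im + s * 2 := by
      rcases eq_or_lt_of_le hs.1 with h0 | h0
      · rw [← h0]; simpa using hτ
      · have : 0 ≤ (1 - s) * τ.im := mul_nonneg (sub_nonneg.2 hs.2) hτ.le
        linarith
    have hY : cY τ (z - p) = 0 := (mul_eq_zero.1 hre').resolve_left hpos.ne'
    have hX' : (z - p).re = cX τ (z - p) := by
      unfold cX
      rw [hY]
      ring
    have him' : ((1 - s) + s * Real.pi) * cX τ (z - p) = 0 := by
      simp only [Complex.add_im, Complex.mul_re, Complex.ofReal_re, Complex.ofReal_im,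
        Complex.neg_re, Complex.neg_im, Complex.I_re, Complex.I_im, Complex.mul_im,
        Complex.sub_im (Complex.ofReal _), Complex.zero_im] at him
      rw [hX'] at him
      linarith
    have hpos2 : 0 < (1 - s) + s * Real.pi := by
      have := Real.pi_pos
      rcases eq_or_lt_of_le hs.1 with h0 | h0
      · rw [← h0]; simp
      · have h1 : 0 ≤ 1 - s := sub_nonneg.2 hs.2
        have : 0 < s * Real.pi := by positivity
        linarith
    have hX : cX τ (z - p) = 0 := (mul_eq_zero.1 him').resolve_left hpos2.ne'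
    rw [hX, hY] at e
    exact hzp (by simpa using e.symm)
  -- second homotopy
  refine s2.line hr.le (by fun_prop) (ThP_continuous p).continuousOn fun z hz s hs h => ?_
  obtain ⟨hu1, hv1⟩ := hu z hz
  have hzp := hne z hz
  have e := coord_eq hτ (z - p)
  have eT : ThP τ p z = ((1 / 2 - cY τ (z - p) : ℝ) : ℂ) * (-ee (cX τ (z - p))) +
      ((1 / 2 + cY τ (z - p) : ℝ) : ℂ) := by
    unfold ThP Th
    rw [abs_lt, cY_sub] at hv1
    rw [if_pos (by linarith), if_pos (by linarith), cX_sub, cY_sub]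
  set u : ℝ := cX τ (z - p) with hudef
  set v : ℝ := cY τ (z - p) with hvdef
  have hee : ee u = ((Real.cos (2 * Real.pi * u) : ℝ) : ℂ) +
      ((Real.sin (2 * Real.pi * u) : ℝ) : ℂ) * Complex.I := by
    unfold ee
    rw [show (2 * Real.pi * Complex.I * (u : ℂ)) = ((2 * Real.pi * u : ℝ) : ℂ) * Complex.I by
      push_cast; ring, Complex.exp_mul_I, ← Complex.ofReal_cos, ← Complex.ofReal_sin]
  rw [eT, hee] at h
  have hre := congrArg Complex.re h
  have him := congrArg Complex.im h
  simp only [Complex.add_re, Complex.mul_re, Complex.ofReal_re, Complex.ofReal_im,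
    Complex.neg_re, Complex.neg_im, Complex.I_re, Complex.I_im, Complex.mul_im,
    Complex.sub_re, Complex.sub_im, Complex.add_im, Complex.zero_re, Complex.zero_im] at hre him
  have him' : (1 - s) * (Real.pi * u) + s * ((1 / 2 - v) * Real.sin (2 * Real.pi * u)) = 0 := by
    linarith
  have hpi := Real.pi_pos
  rw [abs_lt] at hu1 hv1
  have hu0 : u = 0 := by
    by_contra hne0
    rcases lt_or_gt_of_ne hne0 with hlt | hgt
    · have h1 : Real.sin (2 * Real.pi * u) < 0 := by
        refine Real.sin_neg_of_neg_of_neg_pi_lt (by nlinarith) (by nlinarith)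
      have h2 : (1 / 2 - v) * Real.sin (2 * Real.pi * u) < 0 :=
        mul_neg_of_pos_of_neg (by linarith) h1
      have h3 : Real.pi * u < 0 := mul_neg_of_pos_of_neg hpi hlt
      rcases eq_or_lt_of_le hs.1 with h0 | h0
      · rw [← h0] at him'
        linarith
      · have h4 : (1 - s) * (Real.pi * u) ≤ 0 :=
          mul_nonpos_of_nonneg_of_nonpos (sub_nonneg.2 hs.2) h3.le
        have h5 : s * ((1 / 2 - v) * Real.sin (2 * Real.pi * u)) < 0 :=
          mul_neg_of_pos_of_neg h0 h2
        linarith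
    · have h1 : 0 < Real.sin (2 * Real.pi * u) := by
        refine Real.sin_pos_of_pos_of_lt_pi (by positivity) (by nlinarith)
      have h2 : 0 < (1 / 2 - v) * Real.sin (2 * Real.pi * u) := mul_pos (by linarith) h1
      have h3 : 0 < Real.pi * u := mul_pos hpi hgt
      rcases eq_or_lt_of_le hs.1 with h0 | h0
      · rw [← h0] at him'
        linarith
      · have h4 : 0 ≤ (1 - s) * (Real.pi * u) := mul_nonneg (sub_nonneg.2 hs.2) h3.le
        have h5 : 0 < s * ((1 / 2 - v) * Real.sin (2 * Real.pi * u)) := mul_pos h0 h2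
        linarith
  rw [hu0] at hre
  simp only [mul_zero, Real.cos_zero, Real.sin_zero] at hre
  have hv0 : v = 0 := by linarith
  rw [hu0, hv0] at e
  exact hzp (by simpa using e.symm)

end

end Vale.Agent.P247.H832
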