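import Vale.Agent.P247.H832.Theta

/-!
# The sum rule on a torus (P247, package W)

For a continuous doubly periodic function with finitely many zeros modulo the lattice the sum of
the local winding numbers is zero.
-/

open Filter Topology Set Metric

namespace Vale.Agent.P247.H832

noncomputable section

variable {τ : ℂ}

/-- a common small radius -/
theorem exists_radius (Z : Finset ℂ) (hZ : ∀ p ∈ Z, p ∈ Qo τ) (r₀ : ℂ → ℝ)
    (hr₀ : ∀ p ∈ Z, 0 < r₀ p) : ∃ ρ > 0, (∀ p ∈ Z, closedBall p ρ ⊆ Qo τ) ∧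
      (∀ p ∈ Z, ρ < r₀ p) ∧ ∀ p ∈ Z, ∀ q ∈ Z, p ≠ q →
        Disjoint (closedBall p ρ) (closedBall q ρ) := by
  have h1 : ∀ p ∈ Z, ∀ᶠ ρ in 𝓝[>] (0 : ℝ), closedBall p ρ ⊆ Qo τ := by
    intro p hp
    obtain ⟨ε, hε, h⟩ := Metric.isOpen_iff.1 isOpen_Qo p (hZ p hp)
    filter_upwards [Ioo_mem_nhdsGT hε] with ρ hρ
    exact (closedBall_subset_ball hρ.2).trans h
  have h2 : ∀ p ∈ Z, ∀ᶠ ρ in 𝓝[>] (0 : ℝ), ρ < r₀ p := by
    intro p hp
    filter_upwards [Ioo_mem_nhdsGT (hr₀ p hp)] with ρ hρ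
    exact hρ.2
  have h3 : ∀ p ∈ Z, ∀ q ∈ Z, ∀ᶠ ρ in 𝓝[>] (0 : ℝ), p ≠ q →
      Disjoint (closedBall p ρ) (closedBall q ρ) := by
    intro p _ q _
    by_cases hpq : p = q
    · exact Eventually.of_forall fun ρ h => absurd hpq h
    · have hd : 0 < dist p q := dist_pos.2 hpq
      filter_upwards [Ioo_mem_nhdsGT (half_pos hd)] with ρ hρ _
      exact closedBall_disjoint_closedBall (by linarith [hρ.2])
  have h4 : ∀ᶠ ρ in 𝓝[>] (0 : ℝ), (∀ p ∈ Z, closedBall p ρ ⊆ Qo τ) ∧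
      (∀ p ∈ Z, ρ < r₀ p) ∧ (∀ p ∈ Z, ∀ q ∈ Z, p ≠ q →
        Disjoint (closedBall p ρ) (closedBall q ρ)) ∧ 0 < ρ := by
    refine ((Z.eventually_all).2 h1).and (((Z.eventually_all).2 h2).and
      (Eventually.and ?_ self_mem_nhdsWithin))
    exact (Z.eventually_all).2 fun p hp => (Z.eventually_all).2 fun q hq => h3 p hp q hq
  obtain ⟨ρ, a, b, c, d⟩ := h4.exists
  exact ⟨ρ, d, a, b, c⟩

/-- **sum rule**, zeros in the open parallelogram -/
theorem torus_sum_Q (hτ : 0 < τ.im) {f : ℂ → ℂ} (hf : Continuous f)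
    (h1 : ∀ z, f (z + 1) = f z) (h2 : ∀ z, f (z + τ) = f z) (Z : Finset ℂ)
    (hZ : ∀ p ∈ Z, p ∈ Qo τ) (hz : ∀ z ∈ Qc τ, f z = 0 → z ∈ Z) (n : ℂ → ℤ)
    (hn : ∀ p ∈ Z, ∃ r₀ > 0, ∀ r, 0 < r → r < r₀ → CW f p r (n p)) : ∑ p ∈ Z, n p = 0 := by
  classical
  choose! r₀ hr₀ hn using hn
  obtain ⟨ρ, hρ, hball, hlt, hdis⟩ := exists_radius Z hZ r₀ hr₀
  have hQo : ∀ p ∈ Z, closedBall p ρ ⊆ Qc τ := fun p hp => (hball p hp).trans Qo_subset_Qc
  -- points of the closed balls different from the centre are not in `Z`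
  have hnotZ : ∀ p ∈ Z, ∀ z ∈ sphere p ρ, z ∉ Z := by
    intro p hp z hz hzZ
    by_cases h : z = p
    · rw [h, mem_sphere_iff_norm, sub_self, norm_zero] at hz
      exact hρ.ne hz
    · exact (disjoint_left.1 (hdis p hp z hzZ fun h' => h h'.symm))
        (sphere_subset_closedBall hz) (mem_closedBall_self hρ.le)
  set g : ℂ → ℂ := fun z => f z * ∏ p ∈ Z, ThP τ p z ^ (-n p) with hg
  have hThc : ∀ p, Continuous (ThP τ p) := fun p => ThP_continuous p
  have hprod0 : ∀ z ∈ Qc τ, z ∉ Z → ∀ p ∈ Z, ThP τ p z ≠ 0 := fun z hzQ hzZ p hp =>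
    ThP_ne_zero hτ (hZ p hp) hzQ fun h => hzZ (h ▸ hp)
  have hg0 : ∀ z ∈ Qc τ, z ∉ Z → g z ≠ 0 := by
    intro z hzQ hzZ
    refine mul_ne_zero (fun h => hzZ (hz z hzQ h)) ?_
    exact Finset.prod_ne_zero_iff.2 fun p hp => zpow_ne_zero _ (hprod0 z hzQ hzZ p hp)
  have hgc : ContinuousOn g (Qc τ \ ⋃ p ∈ Z, ball p ρ) := by
    refine hf.continuousOn.mul (continuousOn_finsetProd _ fun p hp => ?_)
    refine (hThc p).continuousOn.zpow₀ _ fun z hzz => Or.inl (hprod0 z hzz.1 ?_ p hp)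
    intro hzZ
    exact hzz.2 (mem_iUnion₂.2 ⟨z, hzZ, mem_ball_self hρ⟩)
  have hCW : ∀ p ∈ Z, CW g p ρ 0 := by
    intro p hp
    have hprod : CW (fun z => ∏ q ∈ Z, ThP τ q z ^ (-n q)) p ρ
        (∑ q ∈ Z, if q = p then -n p else 0) := by
      refine Wnd.prod Z fun q hq => ?_
      by_cases h : q = p
      · rw [if_pos h, h]
        have := (cw_ThP hτ hρ (hball p hp)).zpow (-n p)
        rwa [mul_one] at this
      · rw [if_neg h]
        have h3 : CW (ThP τ q) p ρ 0 := by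
          refine cw_of_disc hρ.le (hThc q).continuousOn fun z hzb => ?_
          refine ThP_ne_zero hτ (hZ q hq) (hQo p hp hzb) ?_
          rintro rfl
          exact (disjoint_left.1 (hdis p hp z hq fun h' => h h'.symm)) hzb
            (mem_closedBall_self hρ.le)
        have := Wnd.zpow h3 (-n q)
        rwa [mul_zero] at this
    rw [Finset.sum_ite_eq' Z p, if_pos hp] at hprod
    have := (hn p hp ρ hρ (hlt p hp)).mul hprod
    rwa [add_neg_cancel] at this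
  obtain ⟨k, hk, hkg, hk0⟩ := exists_fill_finset (S := Qc τ) isClosed_Qc (fun _ => ρ) Z g
    (fun _ _ => hρ) hQo hdis hgc
    (fun p hp z hzs => hg0 z (hQo p hp (sphere_subset_closedBall hzs)) (hnotZ p hp z hzs)) hCW
  have hk0' : ∀ z ∈ Qc τ, k z ≠ 0 := by
    intro z hzQ
    by_cases h : z ∈ ⋃ p ∈ Z, ball p ρ
    · obtain ⟨p, hp, hzp⟩ := mem_iUnion₂.1 h
      exact hk0 p hp z (ball_subset_closedBall hzp)
    · rw [hkg z h]
      exact hg0 z hzQ fun hzZ => h (mem_iUnion₂.2 ⟨z, hzZ, mem_ball_self hρ⟩)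
  -- logarithm on the square
  set cl : ℝ → ℝ := fun x => (projIcc (0 : ℝ) 1 zero_le_one x : ℝ) with hcl
  have hclc : Continuous cl := continuous_subtype_val.comp continuous_projIcc
  have hclm : ∀ x, cl x ∈ Icc (0 : ℝ) 1 := fun x => (projIcc (0 : ℝ) 1 zero_le_one x).2
  have hcli : ∀ x ∈ Icc (0 : ℝ) 1, cl x = x := fun x hx => by
    simp only [hcl, projIcc_of_mem zero_le_one hx]
  set e : ℝ → ℝ → ℂ := fun x y => (x : ℂ) + y * τ with he
  have heQ : ∀ x ∈ Icc (0 : ℝ) 1, ∀ y ∈ Icc (0 : ℝ) 1, e x y ∈ Qc τ := by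
    intro x hx y hy
    refine ⟨?_, ?_⟩
    · rw [he, cX_add_mul hτ]; exact hx
    · rw [he, cY_add_mul hτ]; exact hy
  obtain ⟨L, hL, hLe⟩ := exists_log (E := ℝ × ℝ) (g := fun q => k (e (cl q.1) (cl q.2)))
    (hk.comp_continuous (by simp only [he]; fun_prop) fun q => heQ _ (hclm _) _ (hclm _))
    fun q => hk0' _ (heQ _ (hclm _) _ (hclm _))
  have hLe' : ∀ x ∈ Icc (0 : ℝ) 1, ∀ y ∈ Icc (0 : ℝ) 1,
      Complex.exp (L (x, y)) = k (e x y) := by
    intro x hx y hy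
    rw [hLe]
    simp only [hcli x hx, hcli y hy]
  -- on the boundary `k = g`
  have hkb : ∀ x ∈ Icc (0 : ℝ) 1, ∀ y ∈ Icc (0 : ℝ) 1, (x = 0 ∨ x = 1 ∨ y = 0 ∨ y = 1) →
      k (e x y) = g (e x y) := by
    intro x _ y _ hxy
    refine hkg _ fun h => ?_
    obtain ⟨p, hp, hzp⟩ := mem_iUnion₂.1 h
    obtain ⟨a1, a2, a3, a4⟩ := hball p hp (ball_subset_closedBall hzp)
    rw [he, cX_add_mul hτ] at a1 a2
    rw [he, cY_add_mul hτ] at a3 a4
    rcases hxy with h | h | h | h <;> linarith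
  have hI0 : (0 : ℝ) ∈ Icc (0 : ℝ) 1 := by simp
  have hI1 : (1 : ℝ) ∈ Icc (0 : ℝ) 1 := by simp
  -- periodicity in `x`
  have hpx : ∀ y ∈ Icc (0 : ℝ) 1, k (e 1 y) = k (e 0 y) := by
    intro y hy
    rw [hkb 1 hI1 y hy (by simp), hkb 0 hI0 y hy (by simp)]
    have h3 : e 1 y = e 0 y + 1 := by simp only [he]; push_cast; ring
    have h4 : ∀ p, ThP τ p (e 1 y) = ThP τ p (e 0 y) := by
      intro p
      unfold ThP
      rw [he, cX_add_mul hτ, cY_add_mul hτ, cX_add_mul hτ, cY_add_mul hτ]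
      exact Th_x_one _ _ _
    simp only [hg, h4]
    rw [h3, h1]
  -- quasi-periodicity in `y`
  have hpy : ∀ x ∈ Icc (0 : ℝ) 1,
      k (e x 1) = k (e x 0) * ∏ p ∈ Z, (-ee (x - cX τ p)) ^ (n p) := by
    intro x hx
    rw [hkb x hx 1 hI1 (by simp), hkb x hx 0 hI0 (by simp)]
    have h3 : e x 1 = e x 0 + τ := by simp only [he]; push_cast; ring
    have h4 : ∀ p ∈ Z, ThP τ p (e x 0) ^ (-n p) * (-ee (x - cX τ p)) ^ (n p) =
        ThP τ p (e x 1) ^ (-n p) := by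
      intro p hp
      have h5 : ThP τ p (e x 1) * (-ee (x - cX τ p)) = ThP τ p (e x 0) := by
        unfold ThP
        rw [he, cX_add_mul hτ, cY_add_mul hτ, cX_add_mul hτ, cY_add_mul hτ]
        exact Th_y_one (hZ p hp).2.2.1 (hZ p hp).2.2.2 x
      have h6 : (-ee (x - cX τ p)) ≠ 0 := neg_ne_zero.2 (ee_ne_zero _)
      rw [← h5, mul_zpow, mul_assoc, ← zpow_add₀ h6, neg_add_cancel, zpow_zero, mul_one]
    simp only [hg]
    rw [mul_assoc, ← Finset.prod_mul_distrib, Finset.prod_congr rfl h4, h3, h2]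
  -- first difference
  have hA : ∀ y ∈ Icc (0 : ℝ) 1, Complex.exp (L (1, y) - L (0, y)) = 1 := by
    intro y hy
    rw [Complex.exp_sub, hLe' 1 hI1 y hy, hLe' 0 hI0 y hy, hpx y hy,
      div_self (hk0' _ (heQ 0 hI0 y hy))]
  have hA' := int_const (S := Icc (0 : ℝ) 1) isPreconnected_Icc
    (D := fun y => L (1, y) - L (0, y)) (by fun_prop) hA hI1 hI0
  -- second difference
  set s : ℝ → ℂ := fun x => ∑ p ∈ Z, (n p : ℂ) *
    (2 * Real.pi * Complex.I * ((x - cX τ p : ℝ) : ℂ) + Real.pi * Complex.I) with hs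
  have hexps : ∀ x, Complex.exp (s x) = ∏ p ∈ Z, (-ee (x - cX τ p)) ^ (n p) := by
    intro x
    simp only [hs]
    rw [Complex.exp_sum]
    refine Finset.prod_congr rfl fun p _ => ?_
    rw [Complex.exp_int_mul, Complex.exp_add, Complex.exp_pi_mul_I]
    simp [ee]
  have hB : ∀ x ∈ Icc (0 : ℝ) 1, Complex.exp (L (x, 1) - L (x, 0) - s x) = 1 := by
    intro x hx
    have h3 : ∏ p ∈ Z, (-ee (x - cX τ p)) ^ (n p) ≠ 0 :=
      Finset.prod_ne_zero_iff.2 fun p _ => zpow_ne_zero _ (neg_ne_zero.2 (ee_ne_zero _))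
    rw [Complex.exp_sub, Complex.exp_sub, hexps, hLe' x hx 1 hI1, hLe' x hx 0 hI0, hpy x hx]
    have h4 := hk0' _ (heQ x hx 0 hI0)
    field_simp
  have hB' := int_const (S := Icc (0 : ℝ) 1) isPreconnected_Icc
    (D := fun x => L (x, 1) - L (x, 0) - s x) (by simp only [hs]; fun_prop) hB hI1 hI0
  have hdiff : s 1 - s 0 = 2 * Real.pi * Complex.I * ((∑ p ∈ Z, n p : ℤ) : ℂ) := by
    simp only [hs]
    rw [← Finset.sum_sub_distrib]
    push_cast
    rw [Finset.mul_sum]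
    refine Finset.sum_congr rfl fun p _ => ?_
    ring
  have h5 : (2 * Real.pi * Complex.I : ℂ) * ((∑ p ∈ Z, n p : ℤ) : ℂ) = 0 := by
    rw [← hdiff]
    linear_combination hA' - hB'
  have h6 := (mul_eq_zero.1 h5).resolve_left Complex.two_pi_I_ne_zero
  exact_mod_cast h6

/-! ### general position of the zeros -/

theorem per_int {f : ℂ → ℂ} {ω : ℂ} (h : ∀ z, f (z + ω) = f z) (m : ℤ) (z : ℂ) :
    f (z + m * ω) = f z := by
  have hp : Function.Periodic f ω := h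
  exact hp.int_mul m z

/-- a real number avoiding finitely many classes modulo `ℤ` -/
theorem exists_avoid (Z : Finset ℂ) (u : ℂ → ℝ) :
    ∃ x₀ : ℝ, ∀ p ∈ Z, ∀ m : ℤ, u p - x₀ ≠ m := by
  have hc : (⋃ p ∈ Z, ⋃ m : ℤ, {x : ℝ | u p - x = m}).Countable := by
    refine Set.Countable.biUnion Z.countable_toSet fun p _ => countable_iUnion fun m => ?_
    have : {x : ℝ | u p - x = m} = {u p - m} := by
      ext x
      simp only [mem_ofPred_eq, mem_singleton_iff]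
      constructor <;> intro h <;> linarith
    rw [this]
    exact countable_singleton _
  have hne : (⋃ p ∈ Z, ⋃ m : ℤ, {x : ℝ | u p - x = m}) ≠ univ := fun h =>
    Cardinal.not_countable_real (h ▸ hc)
  obtain ⟨x₀, hx₀⟩ := (ne_univ_iff_exists_notMem _).1 hne
  exact ⟨x₀, fun p hp m h => hx₀ (mem_iUnion₂.2 ⟨p, hp, mem_iUnion.2 ⟨m, h⟩⟩)⟩

theorem fr_cast (x : ℝ) : ((Int.fract x : ℝ) : ℂ) = x - (⌊x⌋ : ℂ) := by
  rw [Int.fract]
  push_cast
  ring

/-- reduction to the half open parallelogram -/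
theorem red_eq (hτ : 0 < τ.im) (z : ℂ) :
    ((Int.fract (cX τ z) : ℝ) : ℂ) + ((Int.fract (cY τ z) : ℝ) : ℂ) * τ =
      z + ((-⌊cX τ z⌋ : ℤ) : ℂ) + ((-⌊cY τ z⌋ : ℤ) : ℂ) * τ := by
  have e := coord_eq hτ z
  rw [fr_cast, fr_cast]
  push_cast
  linear_combination e

theorem fract_mem {x : ℝ} (h : ∀ m : ℤ, x ≠ m) : 0 < Int.fract x ∧ Int.fract x < 1 := by
  refine ⟨lt_of_le_of_ne (Int.fract_nonneg x) fun h0 => ?_, Int.fract_lt_one x⟩
  exact h ⌊x⌋ (by have := Int.floor_add_fract x; rw [← h0, add_zero] at this; exact this.symm)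

/-- **the torus sum rule**: `f` continuous and doubly periodic, `Z` a set of representatives of
its zeros (it may contain other points), `n p` the winding number of `f` on small circles around
`p ∈ Z`; then the sum of the `n p` is zero. -/
theorem torus_sum (hτ : 0 < τ.im) {f : ℂ → ℂ} (hf : Continuous f)
    (h1 : ∀ z, f (z + 1) = f z) (h2 : ∀ z, f (z + τ) = f z) (Z : Finset ℂ)
    (hinj : ∀ p ∈ Z, ∀ q ∈ Z, ∀ a b : ℤ, p = q + a + b * τ → p = q)
    (hz : ∀ z, f z = 0 → ∃ p ∈ Z, ∃ a b : ℤ, z = p + a + b * τ) (n : ℂ → ℤ)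
    (hn : ∀ p ∈ Z, ∃ r₀ > 0, ∀ r, 0 < r → r < r₀ → CW f p r (n p)) : ∑ p ∈ Z, n p = 0 := by
  classical
  obtain ⟨x₀, hx₀⟩ := exists_avoid Z (cX τ)
  obtain ⟨y₀, hy₀⟩ := exists_avoid Z (cY τ)
  set z₀ : ℂ := (x₀ : ℂ) + y₀ * τ with hz₀
  set F : ℂ → ℂ := fun z => f (z + z₀) with hF
  set φ : ℂ → ℂ := fun p =>
    ((Int.fract (cX τ p - x₀) : ℝ) : ℂ) + ((Int.fract (cY τ p - y₀) : ℝ) : ℂ) * τ with hφ
  have hper : ∀ z, ∀ a b : ℤ, f (z + a + b * τ) = f z := by
    intro z a b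
    rw [per_int h2, ← mul_one (a : ℂ), per_int h1]
  have hφe : ∀ p, φ p + z₀ = p + ((-⌊cX τ p - x₀⌋ : ℤ) : ℂ) + ((-⌊cY τ p - y₀⌋ : ℤ) : ℂ) * τ := by
    intro p
    have e := coord_eq hτ p
    simp only [hφ, hz₀]
    rw [fr_cast, fr_cast]
    push_cast
    linear_combination e
  have hφinj : ∀ p ∈ Z, ∀ q ∈ Z, φ p = φ q → p = q := by
    intro p hp q hq h
    refine hinj p hp q hq (⌊cX τ p - x₀⌋ - ⌊cX τ q - x₀⌋) (⌊cY τ p - y₀⌋ - ⌊cY τ q - y₀⌋) ?_
    have a := hφe p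
    have b := hφe q
    rw [h] at a
    push_cast at a b ⊢
    linear_combination b - a
  set n' : ℂ → ℤ := fun q => if h : ∃ p ∈ Z, φ p = q then n h.choose else 0 with hn'
  have hn'φ : ∀ p ∈ Z, n' (φ p) = n p := by
    intro p hp
    have h : ∃ q ∈ Z, φ q = φ p := ⟨p, hp, rfl⟩
    simp only [hn', dif_pos h]
    rw [hφinj _ h.choose_spec.1 p hp h.choose_spec.2]
  have hmain := torus_sum_Q hτ (f := F) (by simp only [hF]; fun_prop)
    (fun z => by simp only [hF]; rw [show z + 1 + z₀ = z + z₀ + 1 by ring, h1])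
    (fun z => by simp only [hF]; rw [show z + τ + z₀ = z + z₀ + τ by ring, h2])
    (Z.image φ) ?_ ?_ n' ?_
  · rw [Finset.sum_image fun p hp q hq h => hφinj p hp q hq h] at hmain
    rw [← hmain]
    exact Finset.sum_congr rfl fun p hp => (hn'φ p hp).symm
  · intro q hq
    obtain ⟨p, hp, rfl⟩ := Finset.mem_image.1 hq
    have a := fract_mem (hx₀ p hp)
    have b := fract_mem (hy₀ p hp)
    simp only [Qo, mem_ofPred_eq, hφ]
    rw [cX_add_mul hτ, cY_add_mul hτ]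
    exact ⟨a.1, a.2, b.1, b.2⟩
  · intro z hzQ hFz
    obtain ⟨p, hp, a, b, hab⟩ := hz (z + z₀) hFz
    refine Finset.mem_image.2 ⟨p, hp, ?_⟩
    have hX : cX τ z = cX τ p - x₀ + a := by
      have h3 := congrArg (cX τ) hab
      have e1 : cX τ (z + z₀) = cX τ z + x₀ := by rw [cX_add, hz₀, cX_add_mul hτ]
      have e2 : cX τ (p + a + b * τ) = cX τ p + a := by
        have := cX_add_mul hτ a b
        push_cast at this
        rw [add_assoc, cX_add, this]
      rw [e1, e2] at h3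
      linarith
    have hY : cY τ z = cY τ p - y₀ + b := by
      have h3 := congrArg (cY τ) hab
      have e1 : cY τ (z + z₀) = cY τ z + y₀ := by rw [cY_add, hz₀, cY_add_mul hτ]
      have e2 : cY τ (p + a + b * τ) = cY τ p + b := by
        have := cY_add_mul hτ a b
        push_cast at this
        rw [add_assoc, cY_add, this]
      rw [e1, e2] at h3
      linarith
    have fr : ∀ (u w : ℝ) (m : ℤ), (∀ k : ℤ, u ≠ k) → w = u + m → w ∈ Icc (0 : ℝ) 1 →
        Int.fract u = w := by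
      intro u w m hu hw hwI
      have h3 : Int.fract w = Int.fract u := by rw [hw, Int.fract_add_intCast]
      rw [← h3, Int.fract_eq_self]
      refine ⟨hwI.1, lt_of_le_of_ne hwI.2 fun h => hu (1 - m) ?_⟩
      push_cast
      linarith
    simp only [hφ]
    rw [fr _ _ a (hx₀ p hp) hX hzQ.1, fr _ _ b (hy₀ p hp) hY hzQ.2]
    exact coord_eq hτ z
  · intro q hq
    obtain ⟨p, hp, rfl⟩ := Finset.mem_image.1 hq
    obtain ⟨r₀, hr₀, h⟩ := hn p hp
    refine ⟨r₀, hr₀, fun r hr hlt => ?_⟩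
    rw [hn'φ p hp]
    refine Wnd.congr (h r hr hlt) fun t => ?_
    simp only [hF]
    have h3 : circ (φ p) r t + z₀ = circ p r t + ((-⌊cX τ p - x₀⌋ : ℤ) : ℂ) +
        ((-⌊cY τ p - y₀⌋ : ℤ) : ℂ) * τ := by
      have := hφe p
      unfold circ
      linear_combination this
    rw [h3, hper]

/-- **no zeros** if all local winding numbers are positive -/
theorem torus_no_zero (hτ : 0 < τ.im) {f : ℂ → ℂ} (hf : Continuous f)
    (h1 : ∀ z, f (z + 1) = f z) (h2 : ∀ z, f (z + τ) = f z)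
    (hpos : ∀ p, f p = 0 → ∃ m : ℤ, 0 < m ∧ ∃ r₀ > 0, (∀ z ∈ ball p r₀, z ≠ p → f z ≠ 0) ∧
      ∀ r, 0 < r → r < r₀ → CW f p r m) (z : ℂ) : f z ≠ 0 := by
  classical
  intro hz0
  have hper : ∀ z, ∀ a b : ℤ, f (z + a + b * τ) = f z := by
    intro z a b
    rw [per_int h2, ← mul_one (a : ℂ), per_int h1]
  -- the zeros in the half open parallelogram
  set H : Set ℂ := {z | f z = 0 ∧ cX τ z ∈ Ico (0 : ℝ) 1 ∧ cY τ z ∈ Ico (0 : ℝ) 1} with hH
  have hcpt : IsCompact (Qc τ) := by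
    have : Qc τ = (fun q : ℝ × ℝ => (q.1 : ℂ) + q.2 * τ) '' (Icc 0 1 ×ˢ Icc 0 1) := by
      ext z
      constructor
      · intro h
        exact ⟨(cX τ z, cY τ z), ⟨h.1, h.2⟩, coord_eq hτ z⟩
      · rintro ⟨q, ⟨hq1, hq2⟩, rfl⟩
        refine ⟨?_, ?_⟩
        · rw [cX_add_mul hτ]; exact hq1
        · rw [cY_add_mul hτ]; exact hq2
    rw [this]
    exact (isCompact_Icc.prod isCompact_Icc).image (by fun_prop)
  have hfin : (Qc τ ∩ {z | f z = 0}).Finite := by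
    have hK : IsCompact (Qc τ ∩ {z | f z = 0}) :=
      hcpt.inter_right (isClosed_eq hf continuous_const)
    refine hK.finite ?_
    rw [isDiscrete_iff_nhdsNE]
    intro p hp
    obtain ⟨m, -, r₀, hr₀, hiso, -⟩ := hpos p hp.2
    rw [← disjoint_iff, disjoint_principal_right]
    have hmem : {z | z ∈ ball p r₀ ∧ z ≠ p} ∈ 𝓝[≠] p := by
      rw [mem_nhdsWithin]
      exact ⟨ball p r₀, isOpen_ball, mem_ball_self hr₀, fun z hz => hz⟩
    filter_upwards [hmem] with z hz hzz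
    exact hiso z hz.1 hz.2 hzz.2
  have hHfin : H.Finite := hfin.subset fun z hz =>
    ⟨⟨⟨hz.2.1.1, hz.2.1.2.le⟩, hz.2.2.1, hz.2.2.2.le⟩, hz.1⟩
  choose! m hm r₀ hr₀ hiso hcw using hpos
  have hsum := torus_sum hτ hf h1 h2 hHfin.toFinset ?_ ?_ m ?_
  · -- the class of `z`
    have hq : ((Int.fract (cX τ z) : ℝ) : ℂ) + ((Int.fract (cY τ z) : ℝ) : ℂ) * τ ∈
        hHfin.toFinset := by
      rw [hHfin.mem_toFinset]
      refine ⟨?_, ?_, ?_⟩
      · rw [red_eq hτ, hper, hz0]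
      · rw [cX_add_mul hτ]
        exact ⟨Int.fract_nonneg _, Int.fract_lt_one _⟩
      · rw [cY_add_mul hτ]
        exact ⟨Int.fract_nonneg _, Int.fract_lt_one _⟩
    have hlt : 0 < ∑ p ∈ hHfin.toFinset, m p :=
      Finset.sum_pos (fun p hp => hm p ((hHfin.mem_toFinset.1 hp).1)) ⟨_, hq⟩
    omega
  · -- inequivalence
    intro p hp q hq a b hpq
    have hp' := (hHfin.mem_toFinset.1 hp).2
    have hq' := (hHfin.mem_toFinset.1 hq).2
    have hX : cX τ p = cX τ q + a := by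
      have h3 := congrArg (cX τ) hpq
      have := cX_add_mul hτ a b
      push_cast at this
      rw [add_assoc, cX_add, this] at h3
      exact h3
    have hY : cY τ p = cY τ q + b := by
      have h3 := congrArg (cY τ) hpq
      have := cY_add_mul hτ a b
      push_cast at this
      rw [add_assoc, cY_add, this] at h3
      exact h3
    have ha : a = 0 := by
      have a1 : (-1 : ℝ) < a := by linarith [hp'.1.1, hq'.1.2]
      have a2 : (a : ℝ) < 1 := by linarith [hp'.1.2, hq'.1.1]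
      have a3 : (-1 : ℤ) < a := by exact_mod_cast a1
      have a4 : a < (1 : ℤ) := by exact_mod_cast a2
      omega
    have hb : b = 0 := by
      have a1 : (-1 : ℝ) < b := by linarith [hp'.2.1, hq'.2.2]
      have a2 : (b : ℝ) < 1 := by linarith [hp'.2.2, hq'.2.1]
      have a3 : (-1 : ℤ) < b := by exact_mod_cast a1
      have a4 : b < (1 : ℤ) := by exact_mod_cast a2
      omega
    rw [hpq, ha, hb]
    simp
  · intro w hw
    refine ⟨((Int.fract (cX τ w) : ℝ) : ℂ) + ((Int.fract (cY τ w) : ℝ) : ℂ) * τ, ?_, ⌊cX τ w⌋,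
      ⌊cY τ w⌋, ?_⟩
    · rw [hHfin.mem_toFinset]
      refine ⟨?_, ?_, ?_⟩
      · rw [red_eq hτ, hper, hw]
      · rw [cX_add_mul hτ]
        exact ⟨Int.fract_nonneg _, Int.fract_lt_one _⟩
      · rw [cY_add_mul hτ]
        exact ⟨Int.fract_nonneg _, Int.fract_lt_one _⟩
    · rw [red_eq hτ]
      push_cast
      ring
  · intro p hp
    have hp' := (hHfin.mem_toFinset.1 hp).1
    exact ⟨r₀ p, hr₀ p hp', hcw p hp'⟩

end

end Vale.Agent.P247.H832
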