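import Mathlib

/-!
# Winding numbers of nowhere zero 1-periodic functions (P247, package W)

`Wnd g n`: the function `g : ℝ → ℂ` is `exp ∘ L` with `L` continuous and
`L (t + 1) = L t + 2 π i n`.  `CW f c r n`: the winding of `f` on the circle of centre `c` and
radius `r` is `n`.
-/

open Filter Topology Set Metric

namespace Vale.Agent.P247.H832

noncomputable section

/-- the winding number of the loop `g` is `n` -/
def Wnd (g : ℝ → ℂ) (n : ℤ) : Prop :=
  ∃ L : ℝ → ℂ, Continuous L ∧ (∀ t, Complex.exp (L t) = g t) ∧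
    ∀ t, L (t + 1) = L t + 2 * Real.pi * Complex.I * n

/-- the standard parametrisation of a circle -/
def circ (c : ℂ) (r : ℝ) (t : ℝ) : ℂ := c + r * Complex.exp (2 * Real.pi * Complex.I * t)

/-- the winding number of `f` on the circle of centre `c` and radius `r` is `n` -/
def CW (f : ℂ → ℂ) (c : ℂ) (r : ℝ) (n : ℤ) : Prop := Wnd (fun t => f (circ c r t)) n

/-! ### logarithms -/

/-- a nowhere zero continuous function on a real vector space has a continuous logarithm -/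
theorem exists_log {E : Type*} [AddCommGroup E] [Module ℝ E] [TopologicalSpace E]
    [IsTopologicalAddGroup E] [ContinuousSMul ℝ E] [LocallyPathConnectedSpace E]
    {g : E → ℂ} (hg : Continuous g) (h0 : ∀ x, g x ≠ 0) :
    ∃ L : E → ℂ, Continuous L ∧ ∀ x, Complex.exp (L x) = g x := by
  have hcs : ContractibleSpace (univ : Set E) :=
    convex_univ.contractibleSpace ⟨0, mem_univ _⟩
  have hsc : IsSimplyConnected (univ : Set E) := SimplyConnectedSpace.ofContractible _
  obtain ⟨L, hL, hLe⟩ := Complex.exists_continuousOn_eqOn_exp_comp hsc isOpen_univ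
    hg.continuousOn (by rintro ⟨z, -, h1⟩; exact h0 z h1)
  exact ⟨L, continuousOn_univ.1 hL, fun x => hLe (mem_univ x)⟩

/-- a continuous function with values in `2 π i ℤ` on a preconnected set is constant -/
theorem int_const {X : Type*} [TopologicalSpace X] {S : Set X} (hS : IsPreconnected S)
    {D : X → ℂ} (hD : ContinuousOn D S) (h : ∀ x ∈ S, Complex.exp (D x) = 1) {x y : X}
    (hx : x ∈ S) (hy : y ∈ S) : D x = D y := by
  have h1 : ∀ x ∈ S, ∃ n : ℤ, D x = n * (2 * Real.pi * Complex.I) := fun x hx =>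
    Complex.exp_eq_one_iff.1 (h x hx)
  have himg : IsPreconnected (D '' S) := hS.image _ hD
  have hsub : D '' S ⊆ range (fun n : ℤ => (n : ℂ) * (2 * Real.pi * Complex.I)) := by
    rintro _ ⟨x, hx, rfl⟩
    obtain ⟨n, hn⟩ := h1 x hx
    exact ⟨n, hn.symm⟩
  have hc : (range (fun n : ℤ => (n : ℂ) * (2 * Real.pi * Complex.I))).Countable :=
    countable_range _
  exact hc.isTotallyDisconnected _ hsub himg (mem_image_of_mem _ hx) (mem_image_of_mem _ hy)

/-! ### one-periodic functions -/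

theorem exists_wnd {g : ℝ → ℂ} (hg : Continuous g) (h0 : ∀ t, g t ≠ 0)
    (hp : ∀ t, g (t + 1) = g t) : ∃ n : ℤ, Wnd g n := by
  obtain ⟨L, hL, hLe⟩ := exists_log hg h0
  have hD : ∀ t ∈ (univ : Set ℝ), Complex.exp (L (t + 1) - L t) = 1 := by
    intro t _
    rw [Complex.exp_sub, hLe, hLe, hp, div_self (h0 t)]
  obtain ⟨n, hn⟩ := Complex.exp_eq_one_iff.1 (hD 0 (mem_univ _))
  refine ⟨n, L, hL, hLe, fun t => ?_⟩
  have h1 := int_const (S := (univ : Set ℝ)) isPreconnected_univ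
    (D := fun t => L (t + 1) - L t) (by fun_prop) hD (mem_univ t) (mem_univ 0)
  beta_reduce at h1
  rw [hn] at h1
  linear_combination h1

theorem Wnd.congr {g h : ℝ → ℂ} {n : ℤ} (hg : Wnd g n) (e : ∀ t, g t = h t) : Wnd h n := by
  obtain ⟨L, hL, hLe, hLp⟩ := hg
  exact ⟨L, hL, fun t => by rw [hLe, e], hLp⟩

theorem Wnd.ne_zero {g : ℝ → ℂ} {n : ℤ} (hg : Wnd g n) (t : ℝ) : g t ≠ 0 := by
  obtain ⟨L, hL, hLe, hLp⟩ := hg
  rw [← hLe]
  exact Complex.exp_ne_zero _

theorem Wnd.continuous {g : ℝ → ℂ} {n : ℤ} (hg : Wnd g n) : Continuous g := by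
  obtain ⟨L, hL, hLe, hLp⟩ := hg
  have : g = fun t => Complex.exp (L t) := funext fun t => (hLe t).symm
  rw [this]
  fun_prop

theorem Wnd.periodic {g : ℝ → ℂ} {n : ℤ} (hg : Wnd g n) (t : ℝ) : g (t + 1) = g t := by
  obtain ⟨L, hL, hLe, hLp⟩ := hg
  rw [← hLe, ← hLe, hLp, Complex.exp_add]
  have : Complex.exp (2 * Real.pi * Complex.I * n) = 1 :=
    Complex.exp_eq_one_iff.2 ⟨n, by ring⟩
  rw [this, mul_one]

/-- the winding number is unique -/
theorem Wnd.unique {g : ℝ → ℂ} {n m : ℤ} (hn : Wnd g n) (hm : Wnd g m) : n = m := by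
  obtain ⟨L, hL, hLe, hLp⟩ := hn
  obtain ⟨M, hM, hMe, hMp⟩ := hm
  have hD : ∀ t ∈ (univ : Set ℝ), Complex.exp (L t - M t) = 1 := by
    intro t _
    rw [Complex.exp_sub, hLe, hMe, div_self]
    rw [← hLe]
    exact Complex.exp_ne_zero _
  have h1 := int_const (S := (univ : Set ℝ)) isPreconnected_univ
    (D := fun t => L t - M t) (by fun_prop) hD (mem_univ (0 + 1)) (mem_univ 0)
  beta_reduce at h1
  rw [hLp, hMp] at h1
  have hpi : (2 * Real.pi * Complex.I : ℂ) ≠ 0 := Complex.two_pi_I_ne_zero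
  have h2 : (2 * Real.pi * Complex.I : ℂ) * n = 2 * Real.pi * Complex.I * m := by
    linear_combination h1
  exact_mod_cast mul_left_cancel₀ hpi h2

theorem Wnd.mul {g h : ℝ → ℂ} {n m : ℤ} (hg : Wnd g n) (hh : Wnd h m) :
    Wnd (fun t => g t * h t) (n + m) := by
  obtain ⟨L, hL, hLe, hLp⟩ := hg
  obtain ⟨M, hM, hMe, hMp⟩ := hh
  refine ⟨fun t => L t + M t, hL.add hM, fun t => ?_, fun t => ?_⟩
  · rw [Complex.exp_add, hLe, hMe]
  · beta_reduce
    rw [hLp, hMp]
    push_cast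
    ring

theorem Wnd.inv {g : ℝ → ℂ} {n : ℤ} (hg : Wnd g n) : Wnd (fun t => (g t)⁻¹) (-n) := by
  obtain ⟨L, hL, hLe, hLp⟩ := hg
  refine ⟨fun t => -L t, hL.neg, fun t => ?_, fun t => ?_⟩
  · rw [Complex.exp_neg, hLe]
  · beta_reduce
    rw [hLp]
    push_cast
    ring

theorem Wnd.div {g h : ℝ → ℂ} {n m : ℤ} (hg : Wnd g n) (hh : Wnd h m) :
    Wnd (fun t => g t / h t) (n - m) := by
  have := hg.mul hh.inv
  simpa [div_eq_mul_inv, sub_eq_add_neg] using this

theorem wnd_const {c : ℂ} (hc : c ≠ 0) : Wnd (fun _ => c) 0 :=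
  ⟨fun _ => Complex.log c, continuous_const, fun _ => Complex.exp_log hc, fun t => by simp⟩

theorem wnd_one : Wnd (fun _ => 1) 0 := wnd_const one_ne_zero

theorem Wnd.const_mul {g : ℝ → ℂ} {n : ℤ} (hg : Wnd g n) {c : ℂ} (hc : c ≠ 0) :
    Wnd (fun t => c * g t) n := by
  have := (wnd_const hc).mul hg
  rwa [zero_add] at this

theorem Wnd.conj {g : ℝ → ℂ} {n : ℤ} (hg : Wnd g n) :
    Wnd (fun t => (starRingEnd ℂ) (g t)) (-n) := by
  obtain ⟨L, hL, hLe, hLp⟩ := hg
  refine ⟨fun t => (starRingEnd ℂ) (L t), Complex.continuous_conj.comp hL, fun t => ?_,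
    fun t => ?_⟩
  · rw [Complex.exp_conj, hLe]
  · beta_reduce
    rw [hLp]
    simp only [map_add, map_mul, Complex.conj_ofReal, Complex.conj_I, map_ofNat, map_intCast]
    push_cast
    ring

theorem Wnd.prod {ι : Type*} (s : Finset ι) {g : ι → ℝ → ℂ} {n : ι → ℤ}
    (h : ∀ i ∈ s, Wnd (g i) (n i)) : Wnd (fun t => ∏ i ∈ s, g i t) (∑ i ∈ s, n i) := by
  classical
  induction s using Finset.induction_on with
  | empty => simpa using wnd_one
  | insert a s ha ih =>
    have h1 := (h a (Finset.mem_insert_self a s)).mul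
      (ih fun i hi => h i (Finset.mem_insert_of_mem hi))
    simpa [Finset.prod_insert ha, Finset.sum_insert ha] using h1

theorem Wnd.pow {g : ℝ → ℂ} {n : ℤ} (hg : Wnd g n) (k : ℕ) :
    Wnd (fun t => g t ^ k) (k * n) := by
  have := Wnd.prod (Finset.range k) (g := fun _ => g) (n := fun _ => n) fun _ _ => hg
  simpa using this

theorem Wnd.zpow {g : ℝ → ℂ} {n : ℤ} (hg : Wnd g n) (k : ℤ) :
    Wnd (fun t => g t ^ k) (k * n) := by
  rcases k with k | k
  · simpa using hg.pow k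
  · have := (hg.pow (k + 1)).inv
    have e : -(((k + 1 : ℕ) : ℤ) * n) = Int.negSucc k * n := by
      rw [Int.negSucc_eq]
      push_cast
      ring
    rw [e] at this
    simpa only [zpow_negSucc] using this



/-! ### homotopy and perturbation -/

/-- homotopy invariance -/
theorem Wnd.homotopy {G : ℝ → ℝ → ℂ}
    (hG : ContinuousOn (fun p : ℝ × ℝ => G p.1 p.2) (Icc 0 1 ×ˢ univ))
    (h0 : ∀ s ∈ Icc (0 : ℝ) 1, ∀ t, G s t ≠ 0)
    (hp : ∀ s ∈ Icc (0 : ℝ) 1, ∀ t, G s (t + 1) = G s t) {n : ℤ} (h : Wnd (G 0) n) :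
    Wnd (G 1) n := by
  have hI : ∀ s : ℝ, (projIcc (0 : ℝ) 1 zero_le_one s : ℝ) ∈ Icc (0 : ℝ) 1 :=
    fun s => (projIcc (0 : ℝ) 1 zero_le_one s).2
  have hc : Continuous (fun p : ℝ × ℝ => G (projIcc (0 : ℝ) 1 zero_le_one p.1 : ℝ) p.2) := by
    have h1 : Continuous (fun p : ℝ × ℝ =>
        (((projIcc (0 : ℝ) 1 zero_le_one p.1 : ℝ), p.2) : ℝ × ℝ)) := by
      have := continuous_projIcc (a := (0 : ℝ)) (b := 1) (h := zero_le_one)
      fun_prop
    exact hG.comp_continuous h1 fun p => ⟨hI _, mem_univ _⟩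
  obtain ⟨L, hL, hLe⟩ := exists_log hc fun p => h0 _ (hI _) _
  have hD : ∀ p ∈ (univ : Set (ℝ × ℝ)), Complex.exp (L (p.1, p.2 + 1) - L p) = 1 := by
    intro p _
    rw [Complex.exp_sub, hLe, hLe]
    simp only
    rw [hp _ (hI _), div_self (h0 _ (hI _) _)]
  obtain ⟨m, hm⟩ := Complex.exp_eq_one_iff.1 (hD 0 (mem_univ _))
  have hcst : ∀ p : ℝ × ℝ, L (p.1, p.2 + 1) - L p = m * (2 * Real.pi * Complex.I) := by
    intro p
    rw [← hm]
    exact int_const (S := (univ : Set (ℝ × ℝ))) isPreconnected_univ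
      (D := fun p => L (p.1, p.2 + 1) - L p) (by fun_prop) hD (mem_univ p) (mem_univ 0)
  have hW : ∀ s ∈ Icc (0 : ℝ) 1, Wnd (G s) m := by
    intro s hs
    refine ⟨fun t => L (s, t), by fun_prop, fun t => ?_, fun t => ?_⟩
    · rw [hLe]
      simp only [projIcc_of_mem zero_le_one hs]
    · have := hcst (s, t)
      simp only at this
      linear_combination this
  have h2 := (hW 0 (by simp)).unique h
  subst h2
  exact hW 1 (by simp)

/-- Rouche -/
theorem Wnd.rouche {f g : ℝ → ℂ} {n : ℤ} (hf : Wnd f n) (hg : Continuous g)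
    (h : ∀ t, ‖g t - f t‖ < ‖f t‖) (hp : ∀ t, g (t + 1) = g t) : Wnd g n := by
  have hf0 := hf.ne_zero
  have hfc := hf.continuous
  have hq : Wnd (fun t => g t / f t) 0 := by
    have hs : ∀ t, g t / f t ∈ Complex.slitPlane := by
      intro t
      have h1 : ‖g t / f t - 1‖ < 1 := by
        have : g t / f t - 1 = (g t - f t) / f t := by
          field_simp [hf0 t]
        rw [this, norm_div, div_lt_one (norm_pos_iff.2 (hf0 t))]
        exact h t
      have h2 := Complex.ball_one_subset_slitPlane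
      exact h2 (by simpa [dist_eq_norm] using h1)
    refine ⟨fun t => Complex.log (g t / f t), ?_, fun t => ?_, fun t => ?_⟩
    · exact (hg.div hfc hf0).clog hs
    · exact Complex.exp_log (Complex.slitPlane_ne_zero (hs t))
    · simp only [hp, hf.periodic]
      simp
  have := hq.mul hf
  rw [zero_add] at this
  exact this.congr fun t => div_mul_cancel₀ _ (hf0 t)

/-! ### circles -/

theorem circ_continuous (c : ℂ) (r : ℝ) : Continuous (circ c r) := by
  unfold circ
  fun_prop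

theorem circ_periodic (c : ℂ) (r t : ℝ) : circ c r (t + 1) = circ c r t := by
  unfold circ
  congr 2
  rw [show (2 * Real.pi * Complex.I * ((t + 1 : ℝ) : ℂ)) =
    2 * Real.pi * Complex.I * t + 2 * Real.pi * Complex.I by push_cast; ring]
  exact Complex.exp_periodic _

theorem norm_exp_circ (t : ℝ) : ‖Complex.exp (2 * Real.pi * Complex.I * t)‖ = 1 := by
  rw [show (2 * Real.pi * Complex.I * (t : ℂ)) = ((2 * Real.pi * t : ℝ) : ℂ) * Complex.I by
    push_cast; ring]
  exact Complex.norm_exp_ofReal_mul_I _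

theorem norm_circ_sub {r : ℝ} (hr : 0 ≤ r) (c : ℂ) (t : ℝ) : ‖circ c r t - c‖ = r := by
  unfold circ
  rw [add_sub_cancel_left, norm_mul, norm_exp_circ, mul_one, Complex.norm_real,
    Real.norm_of_nonneg hr]

theorem circ_mem_sphere {r : ℝ} (hr : 0 ≤ r) (c : ℂ) (t : ℝ) : circ c r t ∈ sphere c r := by
  rw [mem_sphere_iff_norm, norm_circ_sub hr]

theorem CW.congr {f g : ℂ → ℂ} {c : ℂ} {r : ℝ} {n : ℤ} (hr : 0 ≤ r) (hf : CW f c r n)
    (h : ∀ z ∈ sphere c r, f z = g z) : CW g c r n :=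
  Wnd.congr hf fun t => h _ (circ_mem_sphere hr c t)

theorem exists_cw {f : ℂ → ℂ} {c : ℂ} {r : ℝ} (hr : 0 ≤ r) (hf : ContinuousOn f (sphere c r))
    (h0 : ∀ z ∈ sphere c r, f z ≠ 0) : ∃ n, CW f c r n := by
  refine exists_wnd ?_ (fun t => h0 _ (circ_mem_sphere hr c t)) fun t => ?_
  · exact hf.comp_continuous (circ_continuous c r) (circ_mem_sphere hr c)
  · rw [circ_periodic]

/-- **annulus**: the winding does not depend on the radius -/
theorem CW.annulus {f : ℂ → ℂ} {c : ℂ} {r R : ℝ} {n : ℤ} (hr : 0 ≤ r) (hrR : r ≤ R)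
    (hf : ContinuousOn f {z | r ≤ ‖z - c‖ ∧ ‖z - c‖ ≤ R})
    (h0 : ∀ z, r ≤ ‖z - c‖ → ‖z - c‖ ≤ R → f z ≠ 0) : CW f c r n ↔ CW f c R n := by
  have key : ∀ a ∈ Icc r R, ∀ b ∈ Icc r R, CW f c a n → CW f c b n := by
    intro a ha b hb h
    have hmem : ∀ s ∈ Icc (0 : ℝ) 1, (1 - s) * a + s * b ∈ Icc r R := by
      intro s hs
      have := (convex_Icc r R) ha hb (sub_nonneg.2 hs.2) hs.1 (by ring)
      simpa using this
    have h1 := Wnd.homotopy (G := fun s t => f (circ c ((1 - s) * a + s * b) t)) (n := n)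
      ?_ ?_ ?_ (by simpa [CW] using h)
    · simpa [CW] using h1
    · refine hf.comp (Continuous.continuousOn ?_) ?_
      · unfold circ
        fun_prop
      · rintro ⟨s, t⟩ ⟨hs, -⟩
        have := hmem s hs
        simp only [mem_ofPred_eq, norm_circ_sub (hr.trans this.1)]
        exact this
    · intro s hs t
      have := hmem s hs
      exact h0 _ (by rw [norm_circ_sub (hr.trans this.1)]; exact this.1)
        (by rw [norm_circ_sub (hr.trans this.1)]; exact this.2)
    · intro s _ t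
      simp only [circ_periodic]
  exact ⟨key r ⟨le_rfl, hrR⟩ R ⟨hrR, le_rfl⟩, key R ⟨hrR, le_rfl⟩ r ⟨le_rfl, hrR⟩⟩

/-- **disc**: no zero on the closed disc, winding number zero -/
theorem cw_of_disc {f : ℂ → ℂ} {c : ℂ} {R : ℝ} (hR : 0 ≤ R)
    (hf : ContinuousOn f (closedBall c R)) (h0 : ∀ z ∈ closedBall c R, f z ≠ 0) :
    CW f c R 0 := by
  refine (CW.annulus le_rfl hR (hf.mono fun z hz => ?_) fun z _ hz => h0 z ?_).1 ?_
  · rw [mem_closedBall, dist_eq_norm]; exact hz.2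
  · rw [mem_closedBall, dist_eq_norm]; exact hz
  · refine (wnd_const (h0 c (mem_closedBall_self hR))).congr fun t => ?_
    simp [circ]

theorem cw_sub {c : ℂ} {r : ℝ} (hr : 0 < r) : CW (fun z => z - c) c r 1 := by
  refine ⟨fun t => Real.log r + 2 * Real.pi * Complex.I * t, by fun_prop, fun t => ?_,
    fun t => ?_⟩
  · rw [Complex.exp_add, ← Complex.ofReal_exp, Real.exp_log hr]
    simp [circ]
  · push_cast
    ring

theorem cw_zpow {c : ℂ} {r : ℝ} (hr : 0 < r) (k : ℤ) : CW (fun z => (z - c) ^ k) c r k := by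
  have := (cw_sub (c := c) hr).zpow k
  rwa [mul_one] at this

theorem cw_pow {c : ℂ} {r : ℝ} (hr : 0 < r) (k : ℕ) : CW (fun z => (z - c) ^ k) c r k := by
  have := (cw_sub (c := c) hr).pow k
  rwa [mul_one] at this

/-- Rouche for circles -/
theorem CW.rouche {f g : ℂ → ℂ} {c : ℂ} {r : ℝ} {n : ℤ} (hr : 0 ≤ r) (hf : CW f c r n)
    (hg : ContinuousOn g (sphere c r)) (h : ∀ z ∈ sphere c r, ‖g z - f z‖ < ‖f z‖) :
    CW g c r n := by
  refine Wnd.rouche hf (hg.comp_continuous (circ_continuous c r) (circ_mem_sphere hr c))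
    (fun t => h _ (circ_mem_sphere hr c t)) fun t => ?_
  rw [circ_periodic]

/-- a function with leading term `a (z - c) ^ m`, `a ≠ 0`, has winding number `m` on all small
circles -/
theorem cw_of_lead {f : ℂ → ℂ} {c a : ℂ} {r : ℝ} {m : ℤ} (hr : 0 < r)
    (hf : ContinuousOn f (sphere c r))
    (h : ∀ z ∈ sphere c r, ‖((z - c) ^ m)⁻¹ * f z - a‖ < ‖a‖) : CW f c r m := by
  have ha : a ≠ 0 := by
    rintro rfl
    have := h (circ c r 0) (circ_mem_sphere hr.le c 0)
    rw [norm_zero] at this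
    exact absurd this (not_lt.2 (norm_nonneg _))
  have hz : ∀ z ∈ sphere c r, z - c ≠ 0 := by
    intro z hz h1
    rw [mem_sphere_iff_norm, h1, norm_zero] at hz
    exact hr.ne hz
  have h1 : CW (fun z => a * (z - c) ^ m) c r m := (cw_zpow hr m).const_mul ha
  refine h1.rouche hr.le hf fun z hzs => ?_
  have h2 : (z - c) ^ m ≠ 0 := zpow_ne_zero _ (hz z hzs)
  have h3 := h z hzs
  have h4 : f z - a * (z - c) ^ m = (z - c) ^ m * (((z - c) ^ m)⁻¹ * f z - a) := by
    field_simp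
  rw [h4, norm_mul, norm_mul, mul_comm ‖a‖]
  exact mul_lt_mul_of_pos_left h3 (norm_pos_iff.2 h2)

end

end Vale.Agent.P247.H832
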